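import Vale.Agent.P050.Lag

/-! Finite uniform averages. -/

namespace Vale.Agent.P050

noncomputable section

/-- Average of a real function over a finite type. -/
def ex {Ω : Type} [Fintype Ω] (f : Ω → ℝ) : ℝ := (∑ ω, f ω) / (Fintype.card Ω : ℝ)

open Classical in
/-- Indicator of a proposition. -/
def ind (P : Prop) : ℝ := if P then 1 else 0

theorem ind_nonneg (P : Prop) : 0 ≤ ind P := by
  unfold ind; split_ifs <;> norm_num

theorem ind_le_one (P : Prop) : ind P ≤ 1 := by
  unfold ind; split_ifs <;> norm_num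

theorem ind_pos {P : Prop} (h : P) : ind P = 1 := by
  unfold ind; simp [h]

theorem ind_neg {P : Prop} (h : ¬ P) : ind P = 0 := by
  unfold ind; simp [h]

theorem ind_mono {P Q : Prop} (h : P → Q) : ind P ≤ ind Q := by
  by_cases hP : P
  · rw [ind_pos hP, ind_pos (h hP)]
  · rw [ind_neg hP]; exact ind_nonneg Q

theorem ind_congr {P Q : Prop} (h : P ↔ Q) : ind P = ind Q := by rw [propext h]

theorem ind_mul (P Q : Prop) : ind P * ind Q = ind (P ∧ Q) := by
  by_cases hP : P <;> by_cases hQ : Q <;> simp [ind, hP, hQ]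

variable {Ω : Type} [Fintype Ω]

theorem card_pos' [Nonempty Ω] : (0 : ℝ) < (Fintype.card Ω : ℝ) := by
  exact_mod_cast Fintype.card_pos

theorem ex_mono {f g : Ω → ℝ} (h : ∀ ω, f ω ≤ g ω) : ex f ≤ ex g := by
  unfold ex
  exact div_le_div_of_nonneg_right (Finset.sum_le_sum (fun ω _ => h ω)) (Nat.cast_nonneg _)

theorem ex_congr {f g : Ω → ℝ} (h : ∀ ω, f ω = g ω) : ex f = ex g := by
  rw [funext h]

theorem ex_add (f g : Ω → ℝ) : ex (fun ω => f ω + g ω) = ex f + ex g := by
  unfold ex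
  rw [Finset.sum_add_distrib, add_div]

theorem ex_const [Nonempty Ω] (c : ℝ) : ex (fun _ : Ω => c) = c := by
  unfold ex
  have := card_pos' (Ω := Ω)
  rw [Finset.sum_const, Finset.card_univ, nsmul_eq_mul]
  field_simp

theorem ex_mul_left (c : ℝ) (f : Ω → ℝ) : ex (fun ω => c * f ω) = c * ex f := by
  unfold ex
  rw [← Finset.mul_sum, mul_div_assoc]

theorem ex_mul_right (c : ℝ) (f : Ω → ℝ) : ex (fun ω => f ω * c) = ex f * c := by
  rw [mul_comm, ← ex_mul_left]; exact ex_congr (fun _ => mul_comm _ _)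

theorem ex_sum {ι : Type} (s : Finset ι) (f : ι → Ω → ℝ) :
    ex (fun ω => ∑ i ∈ s, f i ω) = ∑ i ∈ s, ex (f i) := by
  unfold ex
  rw [Finset.sum_comm, Finset.sum_div]

theorem ex_nonneg {f : Ω → ℝ} (h : ∀ ω, 0 ≤ f ω) : 0 ≤ ex f := by
  unfold ex
  exact div_nonneg (Finset.sum_nonneg (fun ω _ => h ω)) (Nat.cast_nonneg _)

theorem ex_le [Nonempty Ω] {f : Ω → ℝ} {c : ℝ} (h : ∀ ω, f ω ≤ c) : ex f ≤ c :=
  (ex_mono h).trans (ex_const c).le

theorem abs_ex_le (f : Ω → ℝ) : |ex f| ≤ ex (fun ω => |f ω|) := by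
  unfold ex
  rw [abs_div, Nat.abs_cast]
  exact div_le_div_of_nonneg_right (Finset.abs_sum_le_sum_abs _ _) (Nat.cast_nonneg _)

theorem ex_ind (P : Ω → Prop) : ex (fun ω => ind (P ω)) = cnt P / Fintype.card Ω := by
  classical
  unfold ex
  rw [cnt_eq_sum]
  congr 1

theorem ex_equiv {Ω' : Type} [Fintype Ω'] (e : Ω ≃ Ω') (f : Ω' → ℝ) :
    ex (fun ω => f (e ω)) = ex f := by
  unfold ex
  rw [Equiv.sum_comp e f, Fintype.card_congr e]

theorem ex_prod {Ω' : Type} [Fintype Ω'] (f : Ω × Ω' → ℝ) :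
    ex f = ex (fun a => ex (fun b => f (a, b))) := by
  unfold ex
  rw [Fintype.sum_prod_type, Fintype.card_prod, ← Finset.sum_div, div_div, mul_comm]
  push_cast; rfl

theorem ex_comm {Ω' : Type} [Fintype Ω'] (f : Ω → Ω' → ℝ) :
    ex (fun a => ex (fun b => f a b)) = ex (fun b => ex (fun a => f a b)) := by
  unfold ex
  rw [← Finset.sum_div, ← Finset.sum_div, Finset.sum_comm, div_div, div_div, mul_comm]

theorem ex_mul_ex {Ω' : Type} [Fintype Ω'] (f : Ω → ℝ) (g : Ω' → ℝ) :
    ex (fun p : Ω × Ω' => f p.1 * g p.2) = ex f * ex g := by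
  rw [ex_prod]
  simp only [ex_mul_left, ex_mul_right]

theorem ex_bool (f : Bool → ℝ) : ex f = (f true + f false) / 2 := by
  simp [ex]

/-- Independence of coordinates. -/
theorem ex_pi_prod {ι Λ : Type} [Fintype ι] [DecidableEq ι] [Fintype Λ] (f : ι → Λ → ℝ) :
    ex (fun ω : ι → Λ => ∏ j, f j (ω j)) = ∏ j, ex (f j) := by
  unfold ex
  rw [Finset.prod_div_distrib, Fintype.prod_sum, Finset.prod_const, Finset.card_univ,
    Fintype.card_fun]
  push_cast
  rfl

/-- Resampling one coordinate. -/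
theorem ex_update {ι Λ : Type} [Fintype ι] [DecidableEq ι] [Fintype Λ] [Nonempty Λ] (w : ι)
    (f : (ι → Λ) → ℝ) : ex f = ex (fun x => ex (fun t => f (Function.update x w t))) := by
  let e : (ι → Λ) × Λ ≃ (ι → Λ) × Λ :=
    { toFun := fun p => (Function.update p.1 w p.2, p.1 w)
      invFun := fun p => (Function.update p.1 w p.2, p.1 w)
      left_inv := fun p => by simp
      right_inv := fun p => by simp }
  have h1 := ex_equiv e (fun p => f p.1)
  rw [ex_prod, ex_prod (fun p : (ι → Λ) × Λ => f p.1)] at h1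
  simp only [ex_const] at h1
  exact h1.symm

theorem ex_add_right {G : Type} [Fintype G] [AddGroup G] (a : G) (f : G → ℝ) :
    ex (fun x => f (x + a)) = ex f := ex_equiv (Equiv.addRight a) f

theorem ex_sub_left {G : Type} [Fintype G] [AddGroup G] (a : G) (f : G → ℝ) :
    ex (fun x => f (a - x)) = ex f := ex_equiv (Equiv.subLeft a) f

theorem ex_fun_prod {ι A B : Type} [Fintype ι] [DecidableEq ι] [Fintype A] [Fintype B]
    (f : (ι → A) → (ι → B) → ℝ) :
    ex (fun z : ι → A × B => f (fun i => (z i).1) (fun i => (z i).2)) =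
      ex (fun a => ex (fun b => f a b)) := by
  have := ex_equiv (Equiv.arrowProdEquivProdArrow ι (fun _ => A) (fun _ => B))
    (fun p => f p.1 p.2)
  rw [ex_prod (fun p : (ι → A) × (ι → B) => f p.1 p.2)] at this
  exact this

theorem ex_sum_fun {α β A : Type} [Fintype α] [DecidableEq α] [Fintype β] [DecidableEq β]
    [Fintype A] (f : (α → A) → (β → A) → ℝ) :
    ex (fun z : α ⊕ β → A => f (fun i => z (Sum.inl i)) (fun i => z (Sum.inr i))) =
      ex (fun a => ex (fun b => f a b)) := by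
  have := ex_equiv (Equiv.sumArrowEquivProdArrow α β A) (fun p => f p.1 p.2)
  rw [ex_prod (fun p : (α → A) × (β → A) => f p.1 p.2)] at this
  exact this

/-- sequential exposure -/
theorem expo {ι Λ : Type} [Fintype ι] [DecidableEq ι] [Fintype Λ] [Nonempty Λ]
    (g : ι × ι × ι → Λ → Λ → Λ → ℝ) (p : ι × ι × ι → ℝ) (hg : ∀ t a b c, 0 ≤ g t a b c)
    (hp : ∀ t, 0 ≤ p t) (hgp : ∀ t a b, ex (g t a b) ≤ p t) (l : List (ι × ι × ι))
    (h1 : ∀ t ∈ l, t.2.2 ≠ t.1 ∧ t.2.2 ≠ t.2.1)
    (h2 : l.Pairwise (fun s t => s.2.2 ≠ t.1 ∧ s.2.2 ≠ t.2.1 ∧ s.2.2 ≠ t.2.2)) :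
    ex (fun x : ι → Λ => (l.map (fun t => g t (x t.1) (x t.2.1) (x t.2.2))).prod) ≤
      (l.map p).prod := by
  induction l with
  | nil => simp [ex_const]
  | cons s l ih =>
    rw [List.pairwise_cons] at h2
    have ih := ih (fun t ht => h1 t (List.mem_cons_of_mem _ ht)) h2.2
    have hs := h1 s List.mem_cons_self
    simp only [List.map_cons, List.prod_cons]
    rw [ex_update s.2.2]
    refine le_trans ?_ (mul_le_mul_of_nonneg_left ih (hp s))
    rw [← ex_mul_left]
    apply ex_mono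
    intro x
    have e : ∀ c : Λ, (l.map (fun t => g t (Function.update x s.2.2 c t.1)
        (Function.update x s.2.2 c t.2.1) (Function.update x s.2.2 c t.2.2))).prod =
        (l.map (fun t => g t (x t.1) (x t.2.1) (x t.2.2))).prod := by
      intro c
      congr 1
      apply List.map_congr_left
      intro t ht
      obtain ⟨e1, e2, e3⟩ := h2.1 t ht
      rw [Function.update_of_ne e1.symm, Function.update_of_ne e2.symm,
        Function.update_of_ne e3.symm]
    simp only [e, Function.update_self, Function.update_of_ne hs.1.symm,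
      Function.update_of_ne hs.2.symm]
    rw [ex_mul_right]
    apply mul_le_mul_of_nonneg_right (hgp _ _ _)
    apply List.prod_nonneg
    intro a ha
    obtain ⟨t, -, rfl⟩ := List.mem_map.1 ha
    exact hg _ _ _ _

end

end Vale.Agent.P050
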