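import Vale.Agent.P050.Ex

/-! Sampling a simple graph from a kernel. -/

namespace Vale.Agent.P050

noncomputable section

def wt {S : Type} [Fintype S] (w : S → ℝ) (g : S → Bool) : ℝ :=
  ∏ s, (if g s = true then w s else 1 - w s)

theorem wt_nonneg {S : Type} [Fintype S] {w : S → ℝ} (h0 : ∀ s, 0 ≤ w s) (h1 : ∀ s, w s ≤ 1)
    (g : S → Bool) : 0 ≤ wt w g := by
  apply Finset.prod_nonneg
  intro s _
  split_ifs
  · exact h0 s
  · linarith [h1 s]

theorem wt_marg {S ε : Type} [Fintype S] [DecidableEq S] [Fintype ε] (w : S → ℝ) (j : ε → S)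
    (hj : Function.Injective j) :
    ∑ g : S → Bool, wt w g * ∏ e, ind (g (j e) = true) = ∏ e, w (j e) := by
  have e1 : ∀ h : S → ℝ, ∏ e, h (j e) = ∏ s, if s ∈ Finset.univ.image j then h s else 1 := by
    intro h
    rw [Finset.prod_ite_mem, Finset.univ_inter, Finset.prod_image (fun a _ b _ hab => hj hab)]
  have e2 : ∀ g : S → Bool, wt w g * ∏ e, ind (g (j e) = true) =
      ∏ s, ((if g s = true then w s else 1 - w s) *
        if s ∈ Finset.univ.image j then ind (g s = true) else 1) := by
    intro g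
    rw [e1 (fun s => ind (g s = true)), wt, Finset.prod_mul_distrib]
  simp only [e2]
  rw [← Fintype.prod_sum (fun s (b : Bool) => (if b = true then w s else 1 - w s) *
    if s ∈ Finset.univ.image j then ind (b = true) else 1), e1 w]
  apply Finset.prod_congr rfl
  intro s _
  split_ifs <;> simp [ind]

theorem wt_sum {S : Type} [Fintype S] [DecidableEq S] (w : S → ℝ) :
    ∑ g : S → Bool, wt w g = 1 := by
  simpa using wt_marg w (fun e : Empty => e.elim) (fun a => a.elim)

/-- the graph determined by a colouring of pairs -/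
def gph {β : Type} (g : Sym2 β → Bool) : SimpleGraph β where
  Adj a b := a ≠ b ∧ g s(a, b) = true
  symm := ⟨fun a b h => ⟨h.1.symm, by rw [Sym2.eq_swap]; exact h.2⟩⟩
  loopless := ⟨fun a h => h.1 rfl⟩

theorem ex_ind_eq {β : Type} [Fintype β] (b : β) :
    ex (fun a : β => ind (a = b)) = 1 / Fintype.card β := by
  classical
  rw [ex_ind, cnt_eq_sum]; simp

theorem noninj_le {α β : Type} [Fintype α] [DecidableEq α] [Fintype β] [Nonempty β] :
    ex (fun φ : α → β => ind (¬ Function.Injective φ)) ≤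
      (Fintype.card α : ℝ) ^ 2 / Fintype.card β := by
  have h1 : ∀ p : α × α, ex (fun φ : α → β => ind (p.1 ≠ p.2 ∧ φ p.1 = φ p.2)) ≤
      1 / Fintype.card β := by
    rintro ⟨u, v⟩
    by_cases huv : u = v
    · exact (ex_le (c := 0) fun φ => (ind_neg fun h => h.1 huv).le).trans (by positivity)
    · rw [ex_update u]
      apply ex_le
      intro φ
      rw [← ex_ind_eq (φ v)]
      refine ex_mono fun t => ind_mono fun h => ?_
      simpa [Function.update_of_ne (Ne.symm huv)] using h.2
  have h2 : ex (fun φ : α → β => ind (¬ Function.Injective φ)) ≤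
      ex (fun φ : α → β => ∑ p : α × α, ind (p.1 ≠ p.2 ∧ φ p.1 = φ p.2)) := by
    refine ex_mono fun φ => ?_
    by_cases h : Function.Injective φ
    · rw [ind_neg (not_not.2 h)]; exact Finset.sum_nonneg fun _ _ => ind_nonneg _
    · rw [ind_pos h]
      obtain ⟨u, v, h1, h2⟩ := Function.not_injective_iff.1 h
      refine le_trans (ind_pos ⟨h2, h1⟩).ge (Finset.single_le_sum
        (f := fun p : α × α => ind (p.1 ≠ p.2 ∧ φ p.1 = φ p.2)) (fun _ _ => ind_nonneg _)
        (Finset.mem_univ (u, v)))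
  refine h2.trans ?_
  rw [ex_sum]
  refine (Finset.sum_le_sum fun p _ => h1 p).trans (le_of_eq ?_)
  simp; ring

theorem sample {α ε Ω : Type} [Fintype α] [DecidableEq α] [Fintype ε] [Fintype Ω] [Nonempty Ω]
    (src tgt : ε → α) (hinj : Function.Injective (fun e => s(src e, tgt e)))
    (W : Ω → Ω → ℝ) (hs : ∀ a b, W a b = W b a) (h0 : ∀ a b, 0 ≤ W a b) (h1 : ∀ a b, W a b ≤ 1)
    (p : ℝ) (hp0 : 0 < p) (hp : ex (fun a => ex (W a)) = p)
    (h : ex (fun φ : α → Ω => ∏ e, W (φ (src e)) (φ (tgt e))) < p ^ Fintype.card ε) :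
    ∃ (β : Type) (_ : Fintype β) (_ : Nonempty β) (G : SimpleGraph β),
      ex (fun φ : α → β => ind (∀ e, G.Adj (φ (src e)) (φ (tgt e)))) <
        ex (fun x : β × β => ind (G.Adj x.1 x.2)) ^ Fintype.card ε := by
  classical
  set t := ex (fun φ : α → Ω => ∏ e, W (φ (src e)) (φ (tgt e))) with ht
  set m := Fintype.card ε with hm
  obtain ⟨N, hN⟩ := exists_nat_gt (((Fintype.card α : ℝ) ^ 2 + m * p ^ m / p) / (p ^ m - t))
  let β := Ω × Fin (N + 1)
  have hβ : (N : ℝ) < Fintype.card β := by
    have : 1 ≤ Fintype.card Ω := Fintype.card_pos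
    have : N < Fintype.card β := by
      simp only [β, Fintype.card_prod, Fintype.card_fin]; nlinarith
    exact_mod_cast this
  have hβ0 : (0 : ℝ) < Fintype.card β := card_pos'
  let w : Sym2 β → ℝ := Sym2.lift ⟨fun a b => W a.1 b.1, fun a b => hs _ _⟩
  have hw0 : ∀ s, 0 ≤ w s := fun s => Sym2.inductionOn s fun a b => h0 _ _
  have hw1 : ∀ s, w s ≤ 1 := fun s => Sym2.inductionOn s fun a b => h1 _ _
  have hwt := wt_nonneg hw0 hw1
  let T : (Sym2 β → Bool) → ℝ := fun g =>
    ex (fun φ : α → β => ind (∀ e, (gph g).Adj (φ (src e)) (φ (tgt e))))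
  let P : (Sym2 β → Bool) → ℝ := fun g => ex (fun x : β × β => ind ((gph g).Adj x.1 x.2))
  have hT : ∑ g, wt w g * T g ≤ t + (Fintype.card α : ℝ) ^ 2 / Fintype.card β := by
    simp only [T, ← ex_mul_left]
    rw [← ex_sum]
    have e1 : t = ex (fun φ : α → β => ∏ e, W (φ (src e)).1 (φ (tgt e)).1) := by
      have := ex_fun_prod (ι := α) (A := Ω) (B := Fin (N + 1))
        (fun a _ => ∏ e, W (a (src e)) (a (tgt e)))
      simp only [ex_const] at this
      exact this.symm
    refine le_trans ?_ (add_le_add e1.ge noninj_le)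
    rw [← ex_add]
    refine ex_mono fun φ => ?_
    have hpos : 0 ≤ ∏ e, W (φ (src e)).1 (φ (tgt e)).1 := Finset.prod_nonneg fun _ _ => h0 _ _
    by_cases hφ : Function.Injective φ
    · rw [ind_neg (not_not.2 hφ), add_zero]
      have hj : Function.Injective (fun e => s(φ (src e), φ (tgt e))) :=
        (Sym2.map.injective hφ).comp hinj
      refine le_trans (Finset.sum_le_sum fun g _ => mul_le_mul_of_nonneg_left ?_ (hwt g))
        (wt_marg w _ hj).le
      by_cases hh : ∀ e, (gph g).Adj (φ (src e)) (φ (tgt e))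
      · rw [ind_pos hh]
        exact (Finset.prod_eq_one fun e _ => ind_pos (hh e).2).ge
      · rw [ind_neg hh]; exact Finset.prod_nonneg fun _ _ => ind_nonneg _
    · rw [ind_pos hφ]
      refine le_trans (Finset.sum_le_sum (g := wt w) fun g _ =>
        mul_le_of_le_one_right (hwt g) (ind_le_one _)) ?_
      rw [wt_sum]; linarith
  have hP : p - 1 / Fintype.card β ≤ ∑ g, wt w g * P g := by
    simp only [P, ← ex_mul_left]
    rw [← ex_sum]
    have e1 : ex (fun x : β × β => W x.1.1 x.2.1 + (-1) * ind (x.2 = x.1)) =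
        p - 1 / Fintype.card β := by
      rw [ex_add, ex_mul_left, ex_prod, ex_prod (fun x : β × β => ind (x.2 = x.1))]
      simp only [ex_ind_eq, ex_const]
      rw [ex_prod, ← hp]
      have : ∀ a : Ω, ex (fun b : β => W a b.1) = ex (W a) := by
        intro a; rw [ex_prod]; simp only [ex_const]
      simp only [this, ex_const]
      ring
    rw [← e1]
    refine ex_mono fun x => ?_
    by_cases hx : x.2 = x.1
    · rw [ind_pos hx]
      refine le_trans (by linarith [h1 x.1.1 x.2.1])
        (Finset.sum_nonneg fun g _ => mul_nonneg (hwt g) (ind_nonneg _))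
    · rw [ind_neg hx, mul_zero, add_zero]
      have := wt_marg w (fun _ : Unit => s(x.1, x.2)) (fun _ _ _ => rfl)
      simp only [Finset.univ_unique, Finset.prod_singleton] at this
      refine le_trans this.ge (Finset.sum_le_sum fun g _ =>
        mul_le_mul_of_nonneg_left (ind_mono fun hg => ⟨fun h => hx h.symm, hg⟩) (hwt g))
  have hB : ∀ g, p ^ m + m * p ^ m / p * (P g - p) ≤ P g ^ m := by
    intro g
    have hP0 : 0 ≤ P g := ex_nonneg fun _ => ind_nonneg _
    have e1 := one_add_mul_le_pow (a := (P g - p) / p) (by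
      rw [le_div_iff₀ hp0]; linarith) m
    have e2 : P g = p * (1 + (P g - p) / p) := by field_simp; ring
    calc _ = p ^ m * (1 + m * ((P g - p) / p)) := by ring
      _ ≤ p ^ m * (1 + (P g - p) / p) ^ m := by gcongr
      _ = _ := by rw [← mul_pow, ← e2]
  by_contra hc
  push Not at hc
  have hc' : ∀ g, P g ^ m ≤ T g := fun g => hc β inferInstance inferInstance (gph g)
  have e3 : ∑ g, wt w g * (p ^ m + m * p ^ m / p * (P g - p)) ≤ ∑ g, wt w g * T g :=
    Finset.sum_le_sum fun g _ => mul_le_mul_of_nonneg_left ((hB g).trans (hc' g)) (hwt g)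
  have e4 : ∑ g, wt w g * (p ^ m + m * p ^ m / p * (P g - p)) =
      p ^ m + m * p ^ m / p * (∑ g, wt w g * P g - p) := by
    have : ∀ g, wt w g * (p ^ m + m * p ^ m / p * (P g - p)) =
        (p ^ m - m * p ^ m / p * p) * wt w g + m * p ^ m / p * (wt w g * P g) := fun g => by ring
    simp only [this]
    rw [Finset.sum_add_distrib, ← Finset.mul_sum, ← Finset.mul_sum, wt_sum]; ring
  have hk : 0 ≤ m * p ^ m / p := by positivity
  have e5 := mul_le_mul_of_nonneg_left hP hk
  have e6 : ((Fintype.card α : ℝ) ^ 2 + m * p ^ m / p) / Fintype.card β < p ^ m - t := by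
    rw [div_lt_iff₀ hβ0, mul_comm (p ^ m - t), ← div_lt_iff₀ (by linarith)]
    exact hN.trans hβ
  rw [add_div] at e6
  rw [e4] at e3
  generalize m * p ^ m / p = k at *
  rw [div_eq_mul_one_div k] at e6
  nlinarith

end

end Vale.Agent.P050
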