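import Vale.Agent.P050.Typed
import Vale.Agent.P050.Sample

/-! Assembly of the counterexample kernel. -/

namespace Vale.Agent.P050

noncomputable section

theorem ex_lab {ι L : Type} [Fintype ι] [DecidableEq ι] [Fintype L] [DecidableEq L] (m : L → ℕ)
    (g : (ι → L) → ℝ) :
    ex (fun l : ι → (Σ w, Fin (m w)) => g (fun v => (l v).1)) =
      ∑ φ : ι → L, (∏ v, (m (φ v) : ℝ) / Fintype.card (Σ w, Fin (m w))) * g φ := by
  have e1 : ∀ l : ι → (Σ w, Fin (m w)), g (fun v => (l v).1) =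
      ∑ φ : ι → L, (∏ v, ind ((l v).1 = φ v)) * g φ := by
    intro l
    rw [Finset.sum_eq_single (fun v => (l v).1)]
    · rw [Finset.prod_eq_one fun v _ => ind_pos rfl, one_mul]
    · intro φ _ hφ
      obtain ⟨v, hv⟩ := Function.ne_iff.1 hφ
      rw [Finset.prod_eq_zero (Finset.mem_univ v) (ind_neg fun h => hv h.symm), zero_mul]
    · simp
  simp only [e1]
  rw [ex_sum]
  apply Finset.sum_congr rfl
  intro φ _
  rw [ex_mul_right, ex_pi_prod (fun v (x : Σ w, Fin (m w)) => ind (x.1 = φ v))]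
  congr 1
  apply Finset.prod_congr rfl
  intro v _
  rw [ex_ind, cnt_eq_sum, Fintype.sum_sigma]
  congr 1
  rw [Finset.sum_eq_single (φ v)]
  · simp
  · intro b _ hb; simp [hb]
  · simp

theorem lab_avg : ∃ (Λ : Type) (_ : Fintype Λ) (_ : Nonempty Λ) (lab : Λ → Fin 26) (t : ℝ),
    0 ≤ t ∧ t ≤ 1 ∧ ex (fun l : HV → Λ => Zl t (fun v => lab (l v))) < 1 := by
  obtain ⟨M, hM, hneg⟩ := weighted_neg
  obtain ⟨A, hA⟩ : ∃ A, ∀ w, aa w ≤ A := ⟨_, aa_le⟩
  have hM' : (1 : ℝ) ≤ M := by exact_mod_cast hM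
  let m : Fin 26 → ℕ := fun w => M ^ (A - aa w)
  have hne : Nonempty (Σ w, Fin (m w)) := ⟨⟨0, ⟨0, Nat.pow_pos hM⟩⟩⟩
  refine ⟨Σ w, Fin (m w), inferInstance, hne, fun x => x.1, 1 / M, by positivity,
    by rw [div_le_one (by linarith)]; exact hM', ?_⟩
  have h1 := ex_lab (ι := HV) m (fun _ => 1)
  rw [ex_const] at h1
  rw [ex_lab m (fun φ => Zl (1 / M) φ)]
  have hc : (0 : ℝ) < Fintype.card (Σ w, Fin (m w)) := card_pos'
  generalize (Fintype.card (Σ w, Fin (m w)) : ℝ) = c at *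
  have e1 : ∀ w, (m w : ℝ) / c = (M ^ A / c) * (1 / M) ^ aa w := by
    intro w
    have : (M : ℝ) ^ A = M ^ (A - aa w) * M ^ aa w := by
      rw [← pow_add, Nat.sub_add_cancel (hA w)]
    simp only [m]
    push_cast
    rw [this, one_div, inv_pow]
    field_simp
  have e2 : ∀ φ : HV → Fin 26, (∏ v, (m (φ v) : ℝ) / c) * Zl (1 / M) φ =
      (∏ v, (m (φ v) : ℝ) / c) * 1 + (M ^ A / c) ^ Fintype.card HV *
        ((1 / (M : ℝ)) ^ cost φ * SS φ) := by
    intro φ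
    rw [Zl_eq, mul_add, cost, pow_add]
    congr 1
    simp only [e1]
    rw [Finset.prod_mul_distrib, Finset.prod_const, Finset.card_univ, Finset.prod_pow_eq_pow_sum]
    ring
  simp only [e2]
  rw [Finset.sum_add_distrib, ← h1, ← Finset.mul_sum]
  have : (0 : ℝ) < (M ^ A / c) ^ Fintype.card HV :=
    pow_pos (div_pos (pow_pos (zero_lt_one.trans_le hM') _) hc) _
  exact add_lt_of_neg_right _ (mul_neg_of_pos_of_neg this hneg)

variable {F : Type} [Field F] [Fintype F] [DecidableEq F]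

theorem tt_eq (s : EE3 → ℝ) :
    ex (fun y : HV → YY F => ∏ e : EE3, Wk (s e) (y (pt e)) (y (fc e))) =
      tt F (fun f i => s (f, i)) := by
  have := ex_sum_fun (α := Fin 10) (β := Fin 16) (A := YY F)
    (fun a b => ∏ e : EE3, Wk (s e) (a (fv e.1 e.2)) (b e.1))
  refine Eq.trans this (ex_congr fun z => ?_)
  rw [← ex_pi_prod]
  refine ex_congr fun y => ?_
  rw [Fintype.prod_prod_type]
  simp only [Fin.prod_univ_three]

theorem tt_nonneg {s : Fin 16 → Fin 3 → ℝ} (hs : ∀ f i, S3 (s f i)) : 0 ≤ tt F s :=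
  ex_nonneg fun _ => Finset.prod_nonneg fun _ _ => ex_nonneg fun _ =>
    mul_nonneg (mul_nonneg (Wk_nonneg (hs _ _) _ _) (Wk_nonneg (hs _ _) _ _))
      (Wk_nonneg (hs _ _) _ _)

/-- the full kernel -/
def WW {Λ : Type} (lab : Λ → Fin 26) (t : ℝ) (a b : Λ × (YY F × YY F)) : ℝ :=
  ∑ θ : Fin 3 × Fin 3, mu t (lab a.1) (lab b.1) θ *
    (Wk (vR θ.1) a.2.1 b.2.1 * Wk (vR θ.2) a.2.2 b.2.2)

theorem WW_deg {Λ : Type} [Fintype Λ] [Nonempty Λ] (lab : Λ → Fin 26) (t : ℝ)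
    (hO : 0 < cnt (InO (F := F))) (a : Λ × (YY F × YY F)) : ex (WW lab t a) = 1 := by
  rw [ex_prod]
  refine Eq.trans (ex_congr fun l => ?_) (ex_const 1)
  unfold WW
  rw [ex_sum, ← mu_sum t (lab a.1) (lab l)]
  apply Finset.sum_congr rfl
  intro θ _
  rw [ex_mul_left (mu t (lab a.1) (lab l) θ)
    (fun b : YY F × YY F => Wk (vR θ.1) a.2.1 b.1 * Wk (vR θ.2) a.2.2 b.2),
    ex_mul_ex (Wk (vR θ.1) a.2.1) (Wk (vR θ.2) a.2.2), Wk_deg hO, Wk_deg hO]
  ring

theorem WW_dens {Λ : Type} [Fintype Λ] [Nonempty Λ] (lab : Λ → Fin 26) (t : ℝ) :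
    ex (fun φ : HV → Λ × (YY F × YY F) => ∏ e : EE3, WW lab t (φ (pt e)) (φ (fc e))) =
      ex (fun l : HV → Λ => ∑ θ : EE3 → Fin 3 × Fin 3,
        (∏ e, mu t (lab (l (pt e))) (lab (l (fc e))) (θ e)) *
          (tt F (fun f i => vR (θ (f, i)).1) * tt F (fun f i => vR (θ (f, i)).2))) := by
  have e1 := ex_fun_prod (ι := HV) (A := Λ) (B := YY F × YY F)
    (fun l y => ∏ e : EE3, WW lab t (l (pt e), y (pt e)) (l (fc e), y (fc e)))
  refine Eq.trans e1 (ex_congr fun l => ?_)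
  unfold WW
  simp only [Fintype.prod_sum]
  rw [ex_sum]
  apply Finset.sum_congr rfl
  intro θ _
  simp only [Finset.prod_mul_distrib]
  rw [ex_mul_left, ← tt_eq (fun e => vR (θ e).1), ← tt_eq (fun e => vR (θ e).2)]
  refine congrArg (HMul.hMul _) ?_
  have e2 := ex_fun_prod (ι := HV) (A := YY F) (B := YY F)
    (fun y z => (∏ e : EE3, Wk (vR (θ e).1) (y (pt e)) (y (fc e))) *
      ∏ e : EE3, Wk (vR (θ e).2) (z (pt e)) (z (fc e)))
  refine Eq.trans e2 ?_
  simp only [ex_mul_left, ex_mul_right]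

theorem sum_le_aux {P : Type} [Fintype P] (w a b : P → ℝ) (c : ℝ) (hw : ∀ p, 0 ≤ w p)
    (h1 : ∑ p, w p = 1) (h : ∀ p, a p ≤ b p + c) : ∑ p, w p * a p ≤ ∑ p, w p * b p + c := by
  refine (Finset.sum_le_sum fun p _ => mul_le_mul_of_nonneg_left (h p) (hw p)).trans (le_of_eq ?_)
  simp only [mul_add]
  rw [Finset.sum_add_distrib, ← Finset.sum_mul, h1, one_mul]

theorem kernel_exists : ∃ (Ω : Type) (_ : Fintype Ω) (_ : Nonempty Ω) (W : Ω → Ω → ℝ),
    (∀ a b, W a b = W b a) ∧ (∀ a b, 0 ≤ W a b) ∧ (∀ a, ex (W a) = 1) ∧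
      ex (fun φ : HV → Ω => ∏ e : EE3, W (φ (pt e)) (φ (fc e))) < 1 := by
  obtain ⟨Λ, _, _, lab, t, t0, t1, hZ⟩ := lab_avg
  obtain ⟨z, hz⟩ : ∃ z, ex (fun l : HV → Λ => Zl t (fun v => lab (l v))) = z := ⟨_, rfl⟩
  rw [hz] at hZ
  set η : ℝ := min 1 ((1 - z) / 2 ^ 26) with hη
  have hη0 : 0 < η := lt_min one_pos (by have : 0 < 1 - z := by linarith
                                         positivity)
  have hη1 : η ≤ 1 := min_le_left _ _
  have hη2 : η * 2 ^ 26 ≤ 1 - z := by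
    rw [← le_div_iff₀ (by positivity)]; exact min_le_right _ _
  obtain ⟨q0, hq0⟩ := tbound hη0
  obtain ⟨n0, hn0⟩ := exists_nat_gt q0
  obtain ⟨p, hp, hpn, hp4⟩ := Nat.exists_prime_gt_modEq_one (k := 4) (n0 + 2) (by norm_num)
  have := Fact.mk hp
  have hm : chi (-1 : ZMod p) = 1 := by
    unfold chi
    have : IsSquare (-1 : ZMod p) := by
      rw [FiniteField.isSquare_neg_one_iff, ZMod.card]
      unfold Nat.ModEq at hp4
      omega
    rw [(quadraticChar_one_iff_isSquare (by simp)).2 this]; simp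
  obtain ⟨hO, hT⟩ := hq0 (ZMod p) (by
    rw [ZMod.card]
    have : (n0 : ℝ) ≤ p := by exact_mod_cast (by omega : n0 ≤ p)
    linarith) (by rw [ZMod.ringChar_zmod_n]; omega) hm
  refine ⟨Λ × (YY (ZMod p) × YY (ZMod p)), inferInstance, inferInstance, WW lab t, ?_, ?_,
    WW_deg lab t hO, ?_⟩
  · intro a b
    unfold WW
    rw [mu_symm]
    apply Finset.sum_congr rfl
    intro θ _
    rw [Wk_symm hm _ a.2.1, Wk_symm hm _ a.2.2]
  · intro a b
    exact Finset.sum_nonneg fun θ _ => mul_nonneg (mu_nonneg t0 t1 _ _ _)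
      (mul_nonneg (Wk_nonneg (vR_S3 _) _ _) (Wk_nonneg (vR_S3 _) _ _))
  · rw [WW_dens]
    have key : ∀ l : HV → Λ, ∑ θ : EE3 → Fin 3 × Fin 3,
        (∏ e, mu t (lab (l (pt e))) (lab (l (fc e))) (θ e)) *
          (tt (ZMod p) (fun f i => vR (θ (f, i)).1) * tt (ZMod p) (fun f i => vR (θ (f, i)).2)) ≤
        Zl t (fun v => lab (l v)) + η * (2 ^ 25 + 1) := by
      intro l
      apply sum_le_aux
      · intro θ; exact Finset.prod_nonneg fun _ _ => mu_nonneg t0 t1 _ _ _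
      · rw [← Fintype.prod_sum (fun e θ => mu t (lab (l (pt e))) (lab (l (fc e))) θ)]
        exact Finset.prod_eq_one fun e _ => mu_sum _ _ _
      · intro θ
        have s1 : ∀ f i, S3 (vR (θ (f, i)).1) := fun _ _ => vR_S3 _
        have s2 : ∀ f i, S3 (vR (θ (f, i)).2) := fun _ _ => vR_S3 _
        have a1 := hT _ s1
        have a2 := hT _ s2
        have b2 := tt_nonneg (F := ZMod p) s2
        obtain ⟨c1, d1⟩ := ZZ_bounds s1
        obtain ⟨c2, d2⟩ := ZZ_bounds s2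
        refine (mul_le_mul a1 a2 b2 (by linarith)).trans ?_
        nlinarith
    refine (ex_mono key).trans_lt ?_
    rw [ex_add, ex_const, hz]
    nlinarith

theorem pt_fc_inj : Function.Injective (fun e : EE3 => s(pt e, fc e)) := by decide +kernel

theorem graph_exists : ∃ (β : Type) (_ : Fintype β) (_ : Nonempty β) (G : SimpleGraph β),
    ex (fun φ : HV → β => ind (∀ e : EE3, G.Adj (φ (pt e)) (φ (fc e)))) <
      ex (fun x : β × β => ind (G.Adj x.1 x.2)) ^ Fintype.card EE3 := by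
  obtain ⟨Ω, _, _, W, hs, h0, hd, ht⟩ := kernel_exists
  obtain ⟨B, hB⟩ := (Set.finite_range (fun p : Ω × Ω => W p.1 p.2)).bddAbove
  have hB' : ∀ a b, W a b ≤ B := fun a b => hB ⟨(a, b), rfl⟩
  have hB1 : 1 ≤ B := by
    obtain ⟨a⟩ := ‹Nonempty Ω›
    rw [← hd a]; exact ex_le (hB' a)
  have hB0 : 0 < B := by linarith
  apply sample pt fc pt_fc_inj (fun a b => (1 / B) * W a b) (fun a b => by rw [hs])
    (fun a b => mul_nonneg (by positivity) (h0 a b))
    (fun a b => by rw [one_div_mul_eq_div, div_le_one hB0]; exact hB' a b) (1 / B) (by positivity)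
  · simp only [ex_mul_left, hd, ex_const, mul_one]
  · simp only [Finset.prod_mul_distrib, Finset.prod_const, Finset.card_univ]
    rw [ex_mul_left]
    exact mul_lt_of_lt_one_right (by positivity) ht

/-- the point-face incidence graph -/
def HG : SimpleGraph HV := SimpleGraph.fromEdgeSet (Set.range fun e : EE3 => s(pt e, fc e))

theorem HG_edges : HG.edgeSet = Set.range fun e : EE3 => s(pt e, fc e) := by
  unfold HG
  rw [SimpleGraph.edgeSet_fromEdgeSet, sdiff_eq_left, Set.disjoint_left]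
  rintro _ ⟨e, rfl⟩
  simp [pt, fc]

theorem HG_adj (e : EE3) : HG.Adj (pt e) (fc e) := by
  rw [← SimpleGraph.mem_edgeSet, HG_edges]; exact ⟨e, rfl⟩

theorem HG_cases {a b : HV} (h : HG.Adj a b) :
    ∃ e, (a = pt e ∧ b = fc e) ∨ (a = fc e ∧ b = pt e) := by
  rw [← SimpleGraph.mem_edgeSet, HG_edges] at h
  obtain ⟨e, he⟩ := h
  refine ⟨e, ?_⟩
  rcases Sym2.eq_iff.1 he with h | h
  · exact Or.inl ⟨h.1.symm, h.2.symm⟩
  · exact Or.inr ⟨h.2.symm, h.1.symm⟩

theorem HG_bip : HG.IsBipartite := by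
  refine ⟨SimpleGraph.Coloring.mk (Sum.elim (fun _ => 0) (fun _ => 1)) ?_⟩
  intro a b h
  obtain ⟨e, ⟨rfl, rfl⟩ | ⟨rfl, rfl⟩⟩ := HG_cases h <;> simp [pt, fc]

theorem main : ∃ (α β : Type) (_ : Fintype α) (_ : Fintype β) (H : SimpleGraph α)
    (G : SimpleGraph β), H.IsBipartite ∧ H.edgeSet.Nonempty ∧ Nonempty β ∧
      (Nat.card (H →g G) : ℝ) / (Fintype.card β : ℝ) ^ Fintype.card α <
        (2 * (Nat.card G.edgeSet : ℝ) / (Fintype.card β : ℝ) ^ 2) ^ Nat.card H.edgeSet := by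
  classical
  obtain ⟨β, _, hβ, G, h⟩ := graph_exists
  refine ⟨HV, β, inferInstance, inferInstance, HG, G, HG_bip, ⟨_, HG.mem_edgeSet.2 (HG_adj (0, 0))⟩, hβ, ?_⟩
  have e1 : Nat.card HG.edgeSet = Fintype.card EE3 := by
    rw [HG_edges, Nat.card_range_of_injective pt_fc_inj, Nat.card_eq_fintype_card]
  have e2 : (Nat.card (HG →g G) : ℝ) =
      cnt (fun φ : HV → β => ∀ e : EE3, G.Adj (φ (pt e)) (φ (fc e))) := by
    unfold cnt
    rw [← Nat.card_coe_set_eq]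
    congr 1
    apply Nat.card_congr
    refine ⟨fun f => ⟨f, fun e => f.map_adj (HG_adj e)⟩, fun φ => ⟨φ.1, fun {a b} hab => ?_⟩,
      fun _ => rfl, fun _ => rfl⟩
    obtain ⟨e, ⟨rfl, rfl⟩ | ⟨rfl, rfl⟩⟩ := HG_cases hab
    · exact φ.2 e
    · exact (φ.2 e).symm
  have e3 : 2 * (Nat.card G.edgeSet : ℝ) = cnt (fun x : β × β => G.Adj x.1 x.2) := by
    have := G.two_mul_card_edgeFinset
    rw [cnt_eq_sum, Finset.sum_boole, Nat.card_eq_fintype_card, ← SimpleGraph.edgeFinset_card]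
    exact_mod_cast this
  rw [ex_ind, ex_ind, Fintype.card_fun, Fintype.card_prod] at h
  rw [e1, e2, e3, sq]
  exact_mod_cast h

end

end Vale.Agent.P050
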