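import Vale.Agent.P050.Iso

/-! Asymptotic bookkeeping for the Lagrangian counts. -/

namespace Vale.Agent.P050

open Module Submodule

noncomputable section

/-- `f q` is at most `t.1 * q ^ t.2` up to a factor `1 + O(1/q)` -/
def Dom (f : ℝ → ℝ) (t : ℕ × ℕ) : Prop :=
  ∃ C : ℝ, 0 ≤ C ∧ ∀ q : ℝ, 2 ≤ q → f q ≤ t.1 * (1 + C / q) * q ^ t.2

def addT (x y : ℕ × ℕ) : ℕ × ℕ :=
  bif Nat.beq x.1 0 then y else bif Nat.beq y.1 0 then x else
    bif Nat.blt x.2 y.2 then y else bif Nat.blt y.2 x.2 then x else (x.1 + y.1, x.2)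

def shT (j m : ℕ) (x : ℕ × ℕ) : ℕ × ℕ := (m * x.1, x.2 + j)

def leT (x y : ℕ × ℕ) : Bool :=
  Nat.beq x.1 0 || (Nat.blt x.2 y.2 && Nat.ble 1 y.1) || (Nat.beq x.2 y.2 && Nat.ble x.1 y.1)

theorem Dom.add_lt {f g : ℝ → ℝ} {x y : ℕ × ℕ} (hf : Dom f x) (hg : Dom g y) (h : x.2 < y.2)
    (h1 : 1 ≤ y.1) : Dom (fun q => f q + g q) y := by
  obtain ⟨C, hC, hf⟩ := hf
  obtain ⟨D, hD, hg⟩ := hg
  refine ⟨D + x.1 * (1 + C), by positivity, fun q hq => ?_⟩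
  have hq0 : 0 < q := by linarith
  have e1 : q ^ x.2 ≤ q ^ y.2 / q := by
    rw [le_div_iff₀ hq0, ← pow_succ]
    exact pow_le_pow_right₀ (by linarith) h
  have e2 : C / q ≤ C := div_le_self hC (by linarith)
  have e3 : (1 : ℝ) ≤ y.1 := by exact_mod_cast h1
  have e4 : f q ≤ x.1 * (1 + C) * (q ^ y.2 / q) :=
    (hf q hq).trans (by gcongr)
  have e5 : x.1 * (1 + C) * (q ^ y.2 / q) ≤ y.1 * (x.1 * (1 + C) * (q ^ y.2 / q)) :=
    le_mul_of_one_le_left (by positivity) e3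
  have e6 : (y.1 : ℝ) * (1 + (D + x.1 * (1 + C)) / q) * q ^ y.2 =
      y.1 * (1 + D / q) * q ^ y.2 + y.1 * (x.1 * (1 + C) * (q ^ y.2 / q)) := by
    field_simp; ring
  have := hg q hq
  simp only
  linarith

theorem Dom.add_zero {f g : ℝ → ℝ} {x y : ℕ × ℕ} (hf : Dom f x) (hg : Dom g y) (h : x.1 = 0) :
    Dom (fun q => f q + g q) y := by
  obtain ⟨C, hC, hf⟩ := hf
  obtain ⟨D, hD, hg⟩ := hg
  refine ⟨D, hD, fun q hq => ?_⟩
  have := hf q hq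
  have := hg q hq
  simp [h] at *
  linarith

theorem Dom.mono {f g : ℝ → ℝ} {x : ℕ × ℕ} (hg : Dom g x) (h : ∀ q, 2 ≤ q → f q ≤ g q) :
    Dom f x := by
  obtain ⟨C, hC, hg⟩ := hg
  exact ⟨C, hC, fun q hq => (h q hq).trans (hg q hq)⟩

theorem Dom.add {f g : ℝ → ℝ} {x y : ℕ × ℕ} (hf : Dom f x) (hg : Dom g y) :
    Dom (fun q => f q + g q) (addT x y) := by
  unfold addT
  cases h1 : Nat.beq x.1 0
  swap
  · exact hf.add_zero hg (Nat.eq_of_beq_eq_true h1)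
  cases h2 : Nat.beq y.1 0
  swap
  · exact (hg.add_zero hf (Nat.eq_of_beq_eq_true h2)).mono (fun q _ => by simp [add_comm])
  have h1' := Nat.ne_of_beq_eq_false h1
  have h2' := Nat.ne_of_beq_eq_false h2
  cases h3 : Nat.blt x.2 y.2
  swap
  · exact hf.add_lt hg (by simpa [Nat.blt_eq] using h3) (Nat.pos_of_ne_zero h2')
  cases h4 : Nat.blt y.2 x.2
  swap
  · exact (hg.add_lt hf (by simpa [Nat.blt_eq] using h4) (Nat.pos_of_ne_zero h1')).mono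
      (fun q _ => by simp [add_comm])
  have h5 : ¬ x.2 < y.2 := by rw [← Nat.blt_eq]; simp [h3]
  have h6 : ¬ y.2 < x.2 := by rw [← Nat.blt_eq]; simp [h4]
  have h7 : y.2 = x.2 := by omega
  obtain ⟨C, hC, hf⟩ := hf
  obtain ⟨D, hD, hg⟩ := hg
  refine ⟨C + D, by positivity, fun q hq => ?_⟩
  have hq0 : 0 < q := by linarith
  have e1 := hf q hq
  have e2 := hg q hq
  rw [h7] at e2
  have e3 : (x.1 : ℝ) * (1 + C / q) * q ^ x.2 ≤ x.1 * (1 + (C + D) / q) * q ^ x.2 := by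
    gcongr; linarith
  have e4 : (y.1 : ℝ) * (1 + D / q) * q ^ x.2 ≤ y.1 * (1 + (C + D) / q) * q ^ x.2 := by
    gcongr; linarith
  simp only [cond_false]
  push_cast
  linarith

theorem Dom.sh {f : ℝ → ℝ} {x : ℕ × ℕ} (hf : Dom f x) (j m : ℕ) :
    Dom (fun q => m * q ^ j * f q) (shT j m x) := by
  obtain ⟨C, hC, hf⟩ := hf
  refine ⟨C, hC, fun q hq => ?_⟩
  have hq0 : 0 < q := by linarith
  have := mul_le_mul_of_nonneg_left (hf q hq) (show (0 : ℝ) ≤ m * q ^ j by positivity)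
  simp only [shT]
  push_cast
  rw [pow_add]
  linarith

theorem Dom.sh1 {f : ℝ → ℝ} {x : ℕ × ℕ} (hf : Dom f x) (j : ℕ) :
    Dom (fun q => q ^ j * f q) (shT j 1 x) := by
  simpa using hf.sh j 1

theorem Dom.fac {f : ℝ → ℝ} {x : ℕ × ℕ} (hf : Dom f x) :
    Dom (fun q => (1 + 2 / q) * f q) x := by
  obtain ⟨C, hC, hf⟩ := hf
  refine ⟨2 + 2 * C, by positivity, fun q hq => ?_⟩
  have hq0 : 0 < q := by linarith
  have e1 := mul_le_mul_of_nonneg_left (hf q hq) (show (0 : ℝ) ≤ 1 + 2 / q by positivity)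
  have e2 : (1 + 2 / q) * (1 + C / q) ≤ 1 + (2 + 2 * C) / q := by
    have : 2 / q ≤ 1 := by rw [div_le_one hq0]; exact hq
    have h2 : 0 ≤ C / q := by positivity
    have h3 : (2 + 2 * C) / q = 2 / q + 2 * (C / q) := by ring
    nlinarith
  have e3 := mul_le_mul_of_nonneg_left e2 (show (0 : ℝ) ≤ x.1 * q ^ x.2 by positivity)
  simp only
  linarith

theorem Dom.le {f : ℝ → ℝ} {x y : ℕ × ℕ} (hf : Dom f x) (h : leT x y = true) : Dom f y := by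
  have z : ∀ y : ℕ × ℕ, Dom (fun _ => 0) y := fun y => ⟨0, le_rfl, fun q hq => by positivity⟩
  simp only [leT, Bool.or_eq_true, Bool.and_eq_true, Nat.beq_eq, Nat.blt_eq, Nat.ble_eq] at h
  rcases h with (h | h) | h
  · simpa using hf.add_zero (z y) h
  · simpa using hf.add_lt (z y) h.1 h.2
  · obtain ⟨C, hC, hf⟩ := hf
    refine ⟨C, hC, fun q hq => (hf q hq).trans ?_⟩
    have : (x.1 : ℝ) ≤ y.1 := by exact_mod_cast h.2
    rw [h.1]
    gcongr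

/-- uniform bound for the number of Lagrangians in a given position -/
def Good (n c a b d k1 k2 k3 g : ℕ) (t : ℕ × ℕ) : Prop :=
  ∃ f : ℝ → ℝ, Dom f t ∧ (∀ q, 2 ≤ q → 0 ≤ f q) ∧
    ∀ (F V : Type) [Field F] [Fintype F] [AddCommGroup V] [Module F V] [FiniteDimensional F V]
      (B : LinearMap.BilinForm F V), (2 : F) ≠ 0 → B.IsAlt → B.Nondegenerate →
      ∀ G L1 L2 L3 : Submodule F V, Cfg B G L1 L2 L3 n c a b d →
        cnt (Tgt B G L1 L2 L3 k1 k2 k3 g) ≤ f (Fintype.card F)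

theorem Good.le {n c a b d k1 k2 k3 g : ℕ} {x y : ℕ × ℕ} (h : Good n c a b d k1 k2 k3 g x)
    (hl : leT x y = true) : Good n c a b d k1 k2 k3 g y := by
  obtain ⟨f, h1, h2, h3⟩ := h
  exact ⟨f, h1.le hl, h2, h3⟩

theorem Good.swap23 {n c a b d k1 k2 k3 g : ℕ} {x : ℕ × ℕ} (h : Good n c b a d k1 k3 k2 g x) :
    Good n c a b d k1 k2 k3 g x := by
  obtain ⟨f, h1, h2, h3⟩ := h
  refine ⟨f, h1, h2, fun F V _ _ _ _ _ B e2 hB hN G L1 L2 L3 h => ?_⟩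
  have := finS (F := F) (V := V)
  have e : L1 ⊓ L3 ⊓ L2 = L1 ⊓ L2 ⊓ L3 := inf_right_comm _ _ _
  refine le_trans (cnt_mono ?_) (h3 F V B e2 hB hN G L1 L3 L2 ⟨h.l1, h.l3, h.l2, h.g1, h.g3, h.g2,
    h.hn, by rw [e, h.hc], h.hb, h.ha, by rw [inf_comm, h.hd]⟩)
  rintro y ⟨y1, y2, y3, y4, y5, y6⟩
  exact ⟨y1, y2, y3, y5, y4, by rw [e]; exact y6⟩

theorem Good.swap12 {n c a b d k1 k2 k3 g : ℕ} {x : ℕ × ℕ} (h : Good n c a d b k2 k1 k3 g x) :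
    Good n c a b d k1 k2 k3 g x := by
  obtain ⟨f, h1, h2, h3⟩ := h
  refine ⟨f, h1, h2, fun F V _ _ _ _ _ B e2 hB hN G L1 L2 L3 h => ?_⟩
  have := finS (F := F) (V := V)
  have e : L2 ⊓ L1 ⊓ L3 = L1 ⊓ L2 ⊓ L3 := by rw [inf_comm L2 L1]
  refine le_trans (cnt_mono ?_) (h3 F V B e2 hB hN G L2 L1 L3 ⟨h.l2, h.l1, h.l3, h.g2, h.g1, h.g3,
    h.n2 hN h.l2, by rw [e, h.hc], by rw [inf_comm, h.ha], h.hd, h.hb⟩)
  rintro y ⟨y1, y2, y3, y4, y5, y6⟩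
  exact ⟨y1, y2, y4, y3, y5, by rw [e]; exact y6⟩

theorem Good.swap13 {n c a b d k1 k2 k3 g : ℕ} {x : ℕ × ℕ} (h : Good n c d b a k3 k2 k1 g x) :
    Good n c a b d k1 k2 k3 g x := h.swap23.swap12.swap23

theorem Good.cst {n c a b d k1 k2 k3 g : ℕ} {x y : ℕ × ℕ}
    (h1 : Good n c a b d (k1 - 1) (k2 - 1) (k3 - 1) (g - 1) x) (h2 : Good n c a b d k1 k2 k3 g y) :
    Good (n + 1) (c + 1) a b d k1 k2 k3 g (addT x (shT (n + 1) 1 y)) := by
  obtain ⟨f1, d1, p1, h1⟩ := h1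
  obtain ⟨f2, d2, p2, h2⟩ := h2
  refine ⟨_, d1.add (d2.sh1 (n + 1)), fun q hq => ?_, fun F V _ _ _ _ _ B e2 hB hN G L1 L2 L3 h => ?_⟩
  · have := p1 q hq
    have := p2 q hq
    positivity
  · obtain ⟨G', hc, hle⟩ := cstep hB hN h
    refine (hle _ _ _ _).trans ?_
    have := h1 F V B e2 hB hN _ _ _ _ hc
    have := h2 F V B e2 hB hN _ _ _ _ hc
    gcongr

theorem Good.ast {n a b d k1 k2 k3 : ℕ} {x y z w : ℕ × ℕ}
    (h1 : Good n 0 a b d (k1 - 1) (k2 - 1) k3 0 x) (h2 : Good n 0 a b d k1 k2 (k3 + 1) 0 y)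
    (h3 : Good n 0 a b d k1 k2 k3 0 z) (h4 : Good n 0 a b d k1 k2 (k3 - 1) 0 w) :
    Good (n + 1) 0 (a + 1) b d k1 k2 k3 0 (addT (addT x (shT (n + 1) 1 y))
      (addT (shT (n + 1 - k3) 1 z) (shT (n + 1 - k3) 1 w))) := by
  obtain ⟨f1, d1, p1, h1⟩ := h1
  obtain ⟨f2, d2, p2, h2⟩ := h2
  obtain ⟨f3, d3, p3, h3⟩ := h3
  obtain ⟨f4, d4, p4, h4⟩ := h4
  refine ⟨_, (d1.add (d2.sh1 (n + 1))).add ((d3.sh1 _).add (d4.sh1 _)), fun q hq => ?_,
    fun F V _ _ _ _ _ B e2 hB hN G L1 L2 L3 h => ?_⟩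
  · have := p1 q hq
    have := p2 q hq
    have := p3 q hq
    have := p4 q hq
    positivity
  · obtain ⟨G', L3', hc, hle⟩ := astep hB hN h
    refine (hle _ _ _).trans ?_
    have := h1 F V B e2 hB hN _ _ _ _ hc
    have := h2 F V B e2 hB hN _ _ _ _ hc
    have := h3 F V B e2 hB hN _ _ _ _ hc
    have := h4 F V B e2 hB hN _ _ _ _ hc
    gcongr

theorem Good.kst {n k1 k2 k3 : ℕ} {x y : ℕ × ℕ}
    (h1 : Good n 0 0 0 0 k1 k2 k3 0 x) (h2 : Good n 0 0 0 1 k1 k2 k3 0 y) :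
    Good (n + 1) 0 0 0 0 (k1 + 1) k2 k3 0 (addT (shT (n + 1 - (k1 + 1)) 1 x)
      (shT (n - (k1 + 1)) (if n ≤ 1 then 2 else 1) y)) := by
  obtain ⟨f1, d1, p1, h1⟩ := h1
  obtain ⟨f2, d2, p2, h2⟩ := h2
  refine ⟨_, ((d1.sh1 _).add (d2.fac.sh _ _)).fac, fun q hq => ?_,
    fun F V _ _ _ _ _ B e2 hB hN G L1 L2 L3 h => ?_⟩
  · have := p1 q hq
    have := p2 q hq
    positivity
  · have hq2 : (2 : ℝ) ≤ Fintype.card F := two_le_q
    have k := kstep e2 hB hN h k1 k2 k3 _ _ (p1 _ hq2) (p2 _ hq2) (h1 F V B e2 hB hN)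
      (h2 F V B e2 hB hN)
    have q1 := p1 _ hq2
    have q2 := p2 _ hq2
    have hκ : (0 : ℝ) ≤ ((if n ≤ 1 then 2 else 1 : ℕ) : ℝ) := Nat.cast_nonneg _
    have hc := cnt_nonneg (Tgt B G L1 L2 L3 (k1 + 1) k2 k3 0)
    generalize (Fintype.card F : ℝ) = q at *
    generalize ((if n ≤ 1 then 2 else 1 : ℕ) : ℝ) = κ at *
    generalize cnt (Tgt B G L1 L2 L3 (k1 + 1) k2 k3 0) = X at *
    have hq0 : 0 < q := by linarith
    have e1 : q ^ (n + 1) ≤ q ^ (n + 1 - (k1 + 1)) * q ^ (k1 + 1) := by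
      rw [← pow_add]; exact pow_le_pow_right₀ (by linarith) (by omega)
    have e2 : q ^ n ≤ q ^ (n - (k1 + 1)) * q ^ (k1 + 1) := by
      rw [← pow_add]; exact pow_le_pow_right₀ (by linarith) (by omega)
    have e3 : q ^ (k1 + 1) ≤ (1 + 2 / q) * (q ^ (k1 + 1) - 1) := by
      have h1 : 1 ≤ q ^ k1 := one_le_pow₀ (by linarith)
      have h2 : 2 / q ≤ 1 := by rw [div_le_one hq0]; exact hq2
      have h3 : (1 + 2 / q) * (q ^ (k1 + 1) - 1) = q ^ (k1 + 1) - 1 + 2 * q ^ k1 - 2 / q := by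
        field_simp; ring
      linarith
    have e4 : 0 < q ^ (k1 + 1) := by positivity
    apply le_of_mul_le_mul_right _ e4
    calc X * q ^ (k1 + 1) ≤ X * ((1 + 2 / q) * (q ^ (k1 + 1) - 1)) := by gcongr
      _ = (1 + 2 / q) * (X * (q ^ (k1 + 1) - 1)) := by ring
      _ ≤ (1 + 2 / q) * (q ^ (n + 1) * f1 q + κ * (1 + 2 / q) * q ^ n * f2 q) := by gcongr
      _ ≤ (1 + 2 / q) * ((q ^ (n + 1 - (k1 + 1)) * q ^ (k1 + 1)) * f1 q +
          κ * (1 + 2 / q) * (q ^ (n - (k1 + 1)) * q ^ (k1 + 1)) * f2 q) := by gcongr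
      _ = _ := by ring

theorem Good.of_empty {n c a b d k1 k2 k3 g : ℕ} (t : ℕ × ℕ)
    (h : ∀ (F V : Type) [Field F] [AddCommGroup V] [Module F V] [FiniteDimensional F V]
      (B : LinearMap.BilinForm F V), B.Nondegenerate →
      ∀ G L1 L2 L3 : Submodule F V, Cfg B G L1 L2 L3 n c a b d →
        ∀ y, ¬ Tgt B G L1 L2 L3 k1 k2 k3 g y) : Good n c a b d k1 k2 k3 g t :=
  ⟨fun _ => 0, ⟨0, le_rfl, fun q hq => by positivity⟩, fun _ _ => le_rfl,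
    fun F V _ _ _ _ _ B _ _ hN G L1 L2 L3 hc => (cnt_eq_zero (h F V B hN G L1 L2 L3 hc)).le⟩

theorem Good.pr1 {n c a b d k1 k2 k3 g : ℕ} (t : ℕ × ℕ) (h : n < k1) :
    Good n c a b d k1 k2 k3 g t := by
  apply Good.of_empty
  rintro F V _ _ _ _ B hN G L1 L2 L3 hc y ⟨-, -, h1, -⟩
  have : finrank F (y ⊓ L1 : Submodule F V) ≤ finrank F L1 := Submodule.finrank_mono inf_le_right
  have := hc.hn
  omega

theorem Good.pr12 {n c a b d k1 k2 k3 g : ℕ} (t : ℕ × ℕ) (h : n + c + a < k1 + k2) :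
    Good n c a b d k1 k2 k3 g t := by
  apply Good.of_empty
  rintro F V _ _ _ _ B hN G L1 L2 L3 hc y ⟨hy, -, h1, h2, -⟩
  have e1 := Submodule.finrank_sup_add_finrank_inf_eq (y ⊓ L1) (y ⊓ L2)
  have e2 : finrank F (y ⊓ L1 ⊔ y ⊓ L2 : Submodule F V) ≤ finrank F y :=
    Submodule.finrank_mono (sup_le inf_le_left inf_le_left)
  have e3 : finrank F (y ⊓ L1 ⊓ (y ⊓ L2) : Submodule F V) ≤ finrank F (L1 ⊓ L2 : Submodule F V) :=
    Submodule.finrank_mono (inf_le_inf inf_le_right inf_le_right)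
  have := hc.n2 hN hy
  have := hc.ha
  omega

theorem Good.prg {n c a b d k1 k2 k3 g : ℕ} (t : ℕ × ℕ) (h : c < g) :
    Good n c a b d k1 k2 k3 g t := by
  apply Good.of_empty
  rintro F V _ _ _ _ B hN G L1 L2 L3 hc y ⟨-, -, -, -, -, h1⟩
  have : finrank F (y ⊓ (L1 ⊓ L2 ⊓ L3) : Submodule F V) ≤
    finrank F (L1 ⊓ L2 ⊓ L3 : Submodule F V) := Submodule.finrank_mono inf_le_right
  have := hc.hc
  omega

theorem Good.prc {n c a b d k1 k2 k3 g : ℕ} (t : ℕ × ℕ) (h : n < c) :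
    Good n c a b d k1 k2 k3 g t := by
  apply Good.of_empty
  rintro F V _ _ _ _ B hN G L1 L2 L3 hc y -
  have : finrank F (L1 ⊓ L2 ⊓ L3 : Submodule F V) ≤ finrank F L1 :=
    Submodule.finrank_mono (inf_le_left.trans inf_le_left)
  have := hc.hc
  have := hc.hn
  omega

def tri (n : ℕ) : ℕ := n * (n + 1) / 2

theorem tri_succ (n : ℕ) : tri (n + 1) = tri n + (n + 1) := by
  unfold tri
  have : (n + 1) * (n + 1 + 1) = n * (n + 1) + (n + 1) * 2 := by ring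
  rw [this, Nat.add_mul_div_right _ _ (by norm_num)]

theorem good_tot0 (n : ℕ) : Good n n 0 0 0 0 0 0 0 (1, tri n) := by
  induction n with
  | zero =>
    refine ⟨fun _ => 1, ⟨0, le_rfl, fun q hq => by simp [tri]⟩, fun _ _ => zero_le_one,
      fun F V _ _ _ _ _ B _ _ hN G L1 L2 L3 hc => ?_⟩
    have := finS (F := F) (V := V)
    apply cnt_le_one
    rintro y z ⟨hy, hy', -⟩ ⟨hz, hz', -⟩
    rw [← Submodule.eq_of_le_of_finrank_le hy' (by rw [hc.n2 hN hy]; simp),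
      ← Submodule.eq_of_le_of_finrank_le hz' (by rw [hc.n2 hN hz]; simp)]
  | succ n ih =>
    refine (Good.cst (k1 := 0) (k2 := 0) (k3 := 0) (g := 0) ih ih).le ?_
    have h : Nat.blt (tri n) (tri n + (n + 1)) = true := by rw [Nat.blt_eq]; omega
    have h0 : Nat.beq 1 0 = false := rfl
    simp [addT, shT, leT, h, h0, tri_succ]

theorem good_tot (n c a b d k1 k2 k3 g : ℕ) : Good n c a b d k1 k2 k3 g (1, tri n) := by
  obtain ⟨f, h1, h2, h3⟩ := good_tot0 n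
  refine ⟨f, h1, h2, fun F V _ _ _ _ _ B e2 hB hN G L1 L2 L3 h => ?_⟩
  have := finS (F := F) (V := V)
  refine le_trans (cnt_mono ?_) (h3 F V B e2 hB hN G L1 L1 L1 ⟨h.l1, h.l1, h.l1, h.g1, h.g1, h.g1,
    h.hn, by rw [inf_idem, inf_idem, h.hn], by rw [inf_idem, h.hn]; rfl,
    by rw [inf_idem, h.hn]; rfl, by rw [inf_idem, h.hn]; rfl⟩)
  rintro y ⟨y1, y2, -⟩
  have e : finrank F G ≤ finrank F (y ⊓ L1 : Submodule F V) :=
    Submodule.finrank_mono (le_inf y2 h.g1)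
  exact ⟨y1, y2, e, e, e, by rw [inf_idem, inf_idem]; exact e⟩

end

end Vale.Agent.P050
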