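import Vale.Agent.P050.Steps

/-! Counting isotropic vectors and the generic step. -/

namespace Vale.Agent.P050

open Module Submodule

noncomputable section

variable {F V : Type} [Field F] [AddCommGroup V] [Module F V] [FiniteDimensional F V] [Fintype F]

theorem line_cnt (S : V → Prop) (U : Submodule F V) {w : V} (hw : w ∈ U) (hS : ∀ v, S v → v ∈ U)
    (r : ℝ) (hr : ∀ v ∈ U, cnt (fun t : F => S (v + t • w)) ≤ r) :
    (Fintype.card F : ℝ) * cnt S ≤ r * (Fintype.card F : ℝ) ^ finrank F U := by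
  classical
  have : Finite V := finV (F := F)
  have := Fintype.ofFinite V
  rw [← cnt_mem, cnt_eq_sum (fun v => v ∈ U), Finset.mul_sum]
  have h1 : (Fintype.card F : ℝ) * cnt S = ∑ t : F, ∑ v : V, if S (v + t • w) then (1 : ℝ) else 0 := by
    have : ∀ t : F, (∑ v : V, if S (v + t • w) then (1 : ℝ) else 0) = cnt S := by
      intro t
      rw [cnt_eq_sum]
      exact Equiv.sum_comp (Equiv.addRight (t • w)) (fun v => if S v then (1 : ℝ) else 0)
    simp only [this, Finset.sum_const, Finset.card_univ, nsmul_eq_mul]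
  rw [h1, Finset.sum_comm]
  apply Finset.sum_le_sum
  intro v _
  rw [← cnt_eq_sum (fun t : F => S (v + t • w))]
  by_cases hv : v ∈ U
  · simpa [hv] using hr v hv
  · rw [cnt_eq_zero]
    · simp [hv]
    · intro t ht
      apply hv
      have := U.sub_mem (hS _ ht) (U.smul_mem t hw)
      simpa using this

omit [Fintype F] in
theorem quad_roots [Finite F] (a b c : F) (ha : a ≠ 0) :
    cnt (fun t : F => c + b * t + a * t ^ 2 = 0) ≤ 2 := by
  by_cases h : ∃ t : F, c + b * t + a * t ^ 2 = 0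
  · obtain ⟨t0, ht0⟩ := h
    have h1 : cnt (fun t : F => c + b * t + a * t ^ 2 = 0) ≤
        cnt (fun t : F => t = t0) + cnt (fun t : F => t = - b / a - t0) := by
      apply cnt_le_add
      intro t ht
      by_cases h2 : t = t0
      · exact Or.inl h2
      · right
        have h3 : (t - t0) * (b + a * (t + t0)) = 0 := by linear_combination ht - ht0
        rcases mul_eq_zero.1 h3 with h4 | h4
        · exact absurd (sub_eq_zero.1 h4) h2
        · field_simp; linear_combination h4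
    have h2 := cnt_le_one (P := fun t : F => t = t0) (fun a b ha hb => by rw [ha, hb])
    have h3 := cnt_le_one (P := fun t : F => t = - b / a - t0) (fun a b ha hb => by rw [ha, hb])
    linarith
  · rw [cnt_eq_zero (fun t ht => h ⟨t, ht⟩)]; norm_num

theorem zeros_le (β : LinearMap.BilinForm F V) (U : Submodule F V) {w : V} (hw : w ∈ U)
    (hw0 : β w w ≠ 0) : (Fintype.card F : ℝ) * cnt (fun v => v ∈ U ∧ β v v = 0) ≤
      2 * (Fintype.card F : ℝ) ^ finrank F U := by
  apply line_cnt _ U hw (fun v hv => hv.1)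
  intro v _
  refine le_trans (cnt_mono ?_) (quad_roots (β w w) (β v w + β w v) (β v v) hw0)
  rintro t ⟨-, ht⟩
  simp only [map_add, map_smul, LinearMap.add_apply, LinearMap.smul_apply, smul_eq_mul] at ht
  linear_combination ht

omit [FiniteDimensional F V] [Fintype F] in
theorem polar_zero (h2 : (2 : F) ≠ 0) (β : LinearMap.BilinForm F V) (U : Submodule F V)
    (hs : ∀ x ∈ U, ∀ y ∈ U, β x y = β y x) (h : ∀ w ∈ U, β w w = 0) :
    ∀ x ∈ U, ∀ y ∈ U, β x y = 0 := by
  intro x hx y hy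
  have h1 := h (x + y) (U.add_mem hx hy)
  simp only [map_add, LinearMap.add_apply] at h1
  rw [h x hx, h y hy, hs y hy x hx] at h1
  have : 2 * β x y = 0 := by linear_combination h1
  exact (mul_eq_zero.1 this).resolve_left h2

theorem iso_cnt (h2 : (2 : F) ≠ 0) (β : LinearMap.BilinForm F V) (L R : Submodule F V)
    (hs : ∀ x ∈ L, ∀ y ∈ L, β x y = β y x)
    (hR : ∀ x ∈ L, (∀ y ∈ L, β x y = 0) → x ∈ R) (n : ℕ)
    (hn : finrank F L = finrank F R + (n + 1)) :
    cnt (fun v => (v ∈ L ∧ β v v = 0) ∧ v ∉ R) ≤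
      (if n ≤ 1 then 2 else 1 : ℕ) * (1 + 2 / (Fintype.card F : ℝ)) *
        (Fintype.card F : ℝ) ^ (finrank F R + n) := by
  have : Finite V := finV (F := F)
  set q := (Fintype.card F : ℝ) with hq
  have hq2 : 2 ≤ q := two_le_q
  have hq0 : 0 < q := by linarith
  have hp : 0 < q ^ (finrank F R + n) := by positivity
  have h2q : 0 ≤ 2 / q := by positivity
  split_ifs with hn1
  · have : ∃ w ∈ L, β w w ≠ 0 := by
      by_contra hc
      push Not at hc
      have h3 := polar_zero h2 β L hs hc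
      have h4 : L ≤ R := fun x hx => hR x hx (h3 x hx)
      have := Submodule.finrank_mono h4
      omega
    obtain ⟨w, hw, hw0⟩ := this
    have h3 := zeros_le β L hw hw0
    rw [← hq, hn, ← add_assoc, pow_succ] at h3
    have h4 : cnt (fun v => (v ∈ L ∧ β v v = 0) ∧ v ∉ R) ≤ cnt (fun v => v ∈ L ∧ β v v = 0) :=
      cnt_mono (fun v hv => hv.1)
    have h5 : cnt (fun v => v ∈ L ∧ β v v = 0) ≤ 2 * q ^ (finrank F R + n) := by
      apply le_of_mul_le_mul_left _ hq0
      linarith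
    push_cast
    nlinarith
  · by_cases hne : ∃ e, (e ∈ L ∧ β e e = 0) ∧ e ∉ R
    swap
    · rw [cnt_eq_zero (fun a ha => hne ⟨a, ha⟩)]; positivity
    obtain ⟨e, ⟨he, he0⟩, heR⟩ := hne
    have : ∃ f ∈ L, β e f ≠ 0 := by
      by_contra hc
      push Not at hc
      exact heR (hR e he hc)
    obtain ⟨f, hf, hef⟩ := this
    have hH := finrank_inf_ker L (β e) hf hef
    set H := L ⊓ LinearMap.ker (β e) with hHdef
    have hw : ∃ w ∈ H, β w w ≠ 0 := by
      by_contra hc
      push Not at hc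
      have h3 := polar_zero h2 β H (fun x hx y hy => hs x hx.1 y hy.1) hc
      have h4 : H ≤ R ⊔ F ∙ e := by
        intro x hx
        rw [Submodule.mem_sup]
        refine ⟨x - (β x f / β e f) • e, hR _ (L.sub_mem hx.1 (L.smul_mem _ he)) ?_,
          (β x f / β e f) • e, Submodule.mem_span_singleton.2 ⟨_, rfl⟩, by simp⟩
        intro v hv
        have h5 := h3 x hx (v - (β e v / β e f) • f) ⟨L.sub_mem hv (L.smul_mem _ hf), by
          simp only [SetLike.mem_coe, LinearMap.mem_ker, map_sub, map_smul, smul_eq_mul]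
          field_simp; ring⟩
        simp only [map_sub, map_smul, LinearMap.sub_apply, LinearMap.smul_apply,
          smul_eq_mul] at h5 ⊢
        have : β x v = β e v / β e f * β x f := by linear_combination h5
        rw [this]; field_simp; ring
      have h5 := Submodule.finrank_mono h4
      rw [Submodule.finrank_sup_span_singleton heR] at h5
      omega
    obtain ⟨w, hw, hw0⟩ := hw
    have h3 := zeros_le β H hw hw0
    have h4 : q * cnt (fun v => (v ∈ L ∧ β v v = 0) ∧ β e v ≠ 0) ≤ 1 * q ^ finrank F L := by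
      apply line_cnt _ L he (fun v hv => hv.1.1)
      intro v hv
      apply cnt_le_one
      rintro s t ⟨⟨-, hs1⟩, hs2⟩ ⟨⟨-, ht1⟩, -⟩
      simp only [map_add, map_smul, LinearMap.add_apply, LinearMap.smul_apply, smul_eq_mul,
        he0, hs v hv e he] at hs1 hs2 ht1
      have h5 : β e v ≠ 0 := by simpa using hs2
      have h6 : 2 * β e v * (s - t) = 0 := by linear_combination hs1 - ht1
      rcases mul_eq_zero.1 h6 with h7 | h7
      · exact absurd h7 (mul_ne_zero h2 h5)
      · exact sub_eq_zero.1 h7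
    have h5 : cnt (fun v => (v ∈ L ∧ β v v = 0) ∧ v ∉ R) ≤
        cnt (fun v => v ∈ H ∧ β v v = 0) + cnt (fun v => (v ∈ L ∧ β v v = 0) ∧ β e v ≠ 0) := by
      apply cnt_le_add
      rintro v ⟨⟨hv, hv0⟩, -⟩
      by_cases h6 : β e v = 0
      · exact Or.inl ⟨⟨hv, h6⟩, hv0⟩
      · exact Or.inr ⟨⟨hv, hv0⟩, h6⟩
    have e1 : finrank F H = finrank F R + n := by omega
    rw [← hq, e1] at h3
    rw [hn, ← add_assoc, pow_succ] at h4
    apply le_of_mul_le_mul_left _ hq0
    have e2 : q * ((1 : ℕ) * (1 + 2 / q) * q ^ (finrank F R + n)) =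
        q * q ^ (finrank F R + n) + 2 * q ^ (finrank F R + n) := by
      field_simp; push_cast; ring
    rw [e2]
    nlinarith

variable {B : LinearMap.BilinForm F V}

omit [Fintype F] in
theorem exists_proj (hN : B.Nondegenerate) {G L1 L2 L3 : Submodule F V} {n : ℕ}
    (h : Cfg B G L1 L2 L3 n 0 0 0 0) :
    ∃ p : V →ₗ[F] V, ∀ u ∈ L1, p u ∈ L2 ∧ u - p u ∈ L3 := by
  have hle : L1 ≤ L2 ⊔ L3 := by
    have e1 : L2 ⊔ L3 ≤ B.orthogonal G := by
      apply sup_le
      · intro v hv x hx; exact h.l2.iso (h.g2 hx) hv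
      · intro v hv x hx; exact h.l3.iso (h.g3 hx) hv
    have e2 : L2 ⊔ L3 = B.orthogonal G := by
      apply Submodule.eq_of_le_of_finrank_le e1
      have := Submodule.finrank_sup_add_finrank_inf_eq L2 L3
      rw [LinearMap.BilinForm.finrank_orthogonal hN, ← h.l1.finrank hN, h.hn]
      rw [h.hd, h.n2 hN h.l2, h.n2 hN h.l3] at this
      omega
    rw [e2]
    intro v hv x hx; exact h.l1.iso (h.g1 hx) hv
  let φ : (L2 × L3) →ₗ[F] V := L2.subtype.coprod L3.subtype
  obtain ⟨s, hs⟩ := φ.rangeRestrict.exists_rightInverse_of_surjective φ.range_rangeRestrict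
  have hr : L1 ≤ LinearMap.range φ := by
    intro v hv
    obtain ⟨a, ha, b, hb, rfl⟩ := Submodule.mem_sup.1 (hle hv)
    exact ⟨(⟨a, ha⟩, ⟨b, hb⟩), rfl⟩
  obtain ⟨p, hp⟩ := LinearMap.exists_extend
    (L2.subtype ∘ₗ LinearMap.fst F L2 L3 ∘ₗ s ∘ₗ Submodule.inclusion hr)
  refine ⟨p, fun u hu => ?_⟩
  have e1 : p u = (s ⟨u, hr hu⟩).1 := LinearMap.congr_fun hp ⟨u, hu⟩
  have e2 : ((s ⟨u, hr hu⟩).1 : V) + (s ⟨u, hr hu⟩).2 = u :=
    congrArg Subtype.val (LinearMap.congr_fun hs ⟨u, hr hu⟩)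
  refine ⟨e1 ▸ (s ⟨u, hr hu⟩).1.2, ?_⟩
  have : u - p u = (s ⟨u, hr hu⟩).2 := by rw [e1]; exact sub_eq_of_eq_add' e2.symm
  rw [this]; exact (s ⟨u, hr hu⟩).2.2

theorem kstep (h2 : (2 : F) ≠ 0) (hB : B.IsAlt) (hN : B.Nondegenerate)
    {G L1 L2 L3 : Submodule F V} {n : ℕ} (h : Cfg B G L1 L2 L3 (n + 1) 0 0 0 0)
    (k1 k2 k3 : ℕ) (M0 M1 : ℝ) (h0 : 0 ≤ M0) (h1 : 0 ≤ M1)
    (hM0 : ∀ G' L1' L2' L3', Cfg B G' L1' L2' L3' n 0 0 0 0 →
      cnt (Tgt B G' L1' L2' L3' k1 k2 k3 0) ≤ M0)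
    (hM1 : ∀ G' L1' L2' L3', Cfg B G' L1' L2' L3' n 0 0 0 1 →
      cnt (Tgt B G' L1' L2' L3' k1 k2 k3 0) ≤ M1) :
    cnt (Tgt B G L1 L2 L3 (k1 + 1) k2 k3 0) * ((Fintype.card F : ℝ) ^ (k1 + 1) - 1) ≤
      (Fintype.card F : ℝ) ^ (n + 1) * M0 +
        (if n ≤ 1 then 2 else 1 : ℕ) * (1 + 2 / (Fintype.card F : ℝ)) *
          (Fintype.card F : ℝ) ^ n * M1 := by
  have : Finite V := finV (F := F)
  have := finS (F := F) (V := V)
  set q := (Fintype.card F : ℝ) with hq
  have hq2 : 2 ≤ q := two_le_q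
  have hq0 : 0 < q := by linarith
  obtain ⟨p, hp⟩ := exists_proj hN h
  have h12 : G = L1 ⊓ L2 := Submodule.eq_of_le_of_finrank_le (le_inf h.g1 h.g2) (by rw [h.ha]; omega)
  have h13 : G = L1 ⊓ L3 := Submodule.eq_of_le_of_finrank_le (le_inf h.g1 h.g3) (by rw [h.hb]; omega)
  have h23 : G = L2 ⊓ L3 := Submodule.eq_of_le_of_finrank_le (le_inf h.g2 h.g3) (by rw [h.hd]; omega)
  let β : LinearMap.BilinForm F V := B.comp p LinearMap.id
  have hβ : ∀ x y, β x y = B (p x) y := fun x y => rfl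
  have hiso := iso_cnt h2 β L1 G ?_ ?_ n h.hn
  rotate_left
  · intro x hx y hy
    rw [hβ, hβ]
    have e1 := h.l1.iso hx hy
    have e2 := h.l2.iso (hp x hx).1 (hp y hy).1
    have e3 := h.l3.iso (hp x hx).2 (hp y hy).2
    have e4 := skew hB x (p y)
    simp only [map_sub, LinearMap.sub_apply] at e3
    linear_combination e1 + e2 - e3 - e4
  · intro x hx hx0
    have e1 : p x ∈ L1 := by
      rw [h.l1]; intro y hy; rw [skew hB, ← hβ, hx0 y hy]; simp
    have e2 : p x ∈ L3 := h.g3 (by rw [h12]; exact ⟨e1, (hp x hx).1⟩)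
    have e3 : x ∈ L3 := by simpa using L3.add_mem (hp x hx).2 e2
    rw [h13]; exact ⟨hx, e3⟩
  have key := dc2 (Tgt B G L1 L2 L3 (k1 + 1) k2 k3 0) (fun u => u ∈ L1 ∧ u ∉ G)
    (fun v => (v ∈ L1 ∧ β v v = 0) ∧ v ∉ G) (fun y u => u ∈ y)
    (q ^ finrank F G * (q ^ (k1 + 1) - 1)) M0 M1 h0 h1 ?_ ?_
  · rw [cnt_diff h.g1, h.hn, ← hq] at key
    have hg : 0 < q ^ finrank F G := by positivity
    apply le_of_mul_le_mul_left _ hg
    have e1 := mul_le_mul_of_nonneg_right hiso h1
    rw [← hq, pow_add] at e1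
    rw [pow_add q (finrank F G)] at key
    nlinarith [mul_nonneg hg.le h0]
  · rintro y ⟨hy, hG, e1, -⟩
    have e2 := cnt_diff (U := y ⊓ L1) (W := G) (le_inf hG h.g1)
    have e3 : (fun v => v ∈ y ⊓ L1 ∧ v ∉ G) = (fun b => (b ∈ L1 ∧ b ∉ G) ∧ b ∈ y) := by
      ext v; simp only [Submodule.mem_inf]; tauto
    rw [e3, ← hq] at e2
    rw [e2]
    have e4 : q ^ (finrank F G + (k1 + 1)) ≤ q ^ finrank F (y ⊓ L1 : Submodule F V) :=
      pow_le_pow_right₀ (by linarith) e1
    rw [pow_add] at e4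
    linarith
  · rintro u ⟨hu1, huG⟩
    have hu2 : u ∉ L2 := fun h' => huG (by rw [h12]; exact ⟨hu1, h'⟩)
    have hu3 : u ∉ L3 := fun h' => huG (by rw [h13]; exact ⟨hu1, h'⟩)
    have hr : finrank F (G ⊔ F ∙ u : Submodule F V) = finrank F G + 1 :=
      Submodule.finrank_sup_span_singleton huG
    have hG2 : G ≤ red B u L2 := fun x hx => mem_red_of (h.g2 hx) (h.l1.iso hu1 (h.g1 hx))
    have hG3 : G ≤ red B u L3 := fun x hx => mem_red_of (h.g3 hx) (h.l1.iso hu1 (h.g1 hx))
    have r12 : finrank F (L1 ⊓ red B u L2 : Submodule F V) = finrank F G + 1 := by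
      rw [rk_inf_red hu1 (fun x hx => h.l1.iso hu1 hx) hu2, h.ha]
    have r13 : finrank F (L1 ⊓ red B u L3 : Submodule F V) = finrank F G + 1 := by
      rw [rk_inf_red hu1 (fun x hx => h.l1.iso hu1 hx) hu3, h.hb]
    have hT : G ⊔ F ∙ u ≤ L1 ⊓ red B u L2 ⊓ red B u L3 :=
      sup_le' (le_inf (le_inf h.g1 hG2) hG3) ⟨⟨hu1, self_mem_red⟩, self_mem_red⟩
    have r123 : finrank F (L1 ⊓ red B u L2 ⊓ red B u L3 : Submodule F V) = finrank F G + 1 := by
      have e1 := Submodule.finrank_mono hT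
      have e2 : finrank F (L1 ⊓ red B u L2 ⊓ red B u L3 : Submodule F V) ≤
        finrank F (L1 ⊓ red B u L2 : Submodule F V) := Submodule.finrank_mono inf_le_left
      omega
    have cfg : ∀ d, finrank F (red B u L2 ⊓ red B u L3 : Submodule F V) = finrank F G + 1 + d →
        Cfg B (G ⊔ F ∙ u) L1 (red B u L2) (red B u L3) n 0 0 0 d := by
      intro d hd
      exact ⟨h.l1, h.l2.red hB u, h.l3.red hB u, sup_le' h.g1 hu1, sup_le' hG2 self_mem_red,
        sup_le' hG3 self_mem_red, by rw [h.hn]; omega, by omega, by omega, by omega, by omega⟩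
    have sub : cnt (fun y => Tgt B G L1 L2 L3 (k1 + 1) k2 k3 0 y ∧ u ∈ y) ≤
        cnt (Tgt B (G ⊔ F ∙ u) L1 (red B u L2) (red B u L3) k1 k2 k3 0) := by
      apply cnt_mono
      rintro y ⟨⟨hy, hG, e1, e2, e3, -⟩, hu⟩
      refine ⟨hy, sup_le' hG hu, by omega, ?_, ?_, ?_⟩
      · rw [rk_inf_red hu (fun x hx => hy.iso hu hx) hu2]; omega
      · rw [rk_inf_red hu (fun x hx => hy.iso hu hx) hu3]; omega
      · exact Submodule.finrank_mono (le_inf (sup_le' hG hu) hT)
    have dec : ∀ z ∈ red B u L2 ⊓ red B u L3, ∃ r : F, z - r • p u ∈ G ⊔ F ∙ u ∧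
        (r ≠ 0 → β u u = 0) := by
      rintro z ⟨hz2, hz3⟩
      obtain ⟨x, hx, hx0, s, rfl⟩ := mem_red.1 hz2
      obtain ⟨x', hx', -, s', hs'⟩ := mem_red.1 hz3
      have e1 : x - (s' - s) • p u ∈ G := by
        rw [h23]
        refine ⟨L2.sub_mem hx (L2.smul_mem _ (hp u hu1).1), ?_⟩
        have : x - (s' - s) • p u = x' + (s' - s) • (u - p u) := by
          have : x = x' + s' • u - s • u := eq_sub_of_add_eq hs'
          rw [this]; module
        rw [this]
        exact L3.add_mem hx' (L3.smul_mem _ (hp u hu1).2)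
      refine ⟨s' - s, ?_, fun hr0 => ?_⟩
      · have : x + s • u - (s' - s) • p u = (x - (s' - s) • p u) + s • u := by module
        rw [this]
        exact Submodule.add_mem_sup e1 (Submodule.mem_span_singleton.2 ⟨s, rfl⟩)
      · have e2 := h.l1.iso hu1 (h.g1 e1)
        simp only [map_sub, map_smul, smul_eq_mul, hx0, zero_sub, neg_eq_zero] at e2
        rw [hβ, skew hB, (mul_eq_zero.1 e2).resolve_left hr0]; simp
    have lo : finrank F G + 1 ≤ finrank F (red B u L2 ⊓ red B u L3 : Submodule F V) :=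
      rk_succ huG (le_inf hG2 hG3) ⟨self_mem_red, self_mem_red⟩
    by_cases hd : finrank F (red B u L2 ⊓ red B u L3 : Submodule F V) = finrank F G + 1
    · exact Or.inl (sub.trans (hM0 _ _ _ _ (cfg 0 hd)))
    · right
      refine ⟨⟨⟨hu1, ?_⟩, huG⟩, sub.trans (hM1 _ _ _ _ (cfg 1 ?_))⟩
      · by_contra hc
        apply hd
        have : red B u L2 ⊓ red B u L3 ≤ G ⊔ F ∙ u := by
          intro z hz
          obtain ⟨r, e1, e2⟩ := dec z hz
          have : r = 0 := by
            by_contra h'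
            exact hc (e2 h')
          simpa [this] using e1
        have := Submodule.finrank_mono this
        omega
      · have : red B u L2 ⊓ red B u L3 ≤ (G ⊔ F ∙ u) ⊔ F ∙ (p u) := by
          intro z hz
          obtain ⟨r, e1, -⟩ := dec z hz
          have := Submodule.add_mem_sup e1
            (Submodule.mem_span_singleton.2 ⟨r, rfl⟩ : r • p u ∈ F ∙ (p u))
          simpa using this
        have e1 := Submodule.finrank_mono this
        have e2 := Submodule.finrank_add_le_finrank_add_finrank (G ⊔ F ∙ u) (F ∙ (p u))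
        have e3 : finrank F (F ∙ (p u)) ≤ 1 := by
          simpa using finrank_span_le_card ({p u} : Set V) (R := F)
        omega

end

end Vale.Agent.P050
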