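import Vale.Agent.P050.TabChk

/-! The triangulation and the linear-programming certificate for singular strata. -/

namespace Vale.Agent.P050

noncomputable section

/-- vertices of the faces -/
def fv : Fin 16 → Fin 3 → Fin 10 :=
  ![![0, 1, 2],
    ![0, 1, 3],
    ![0, 2, 5],
    ![0, 3, 5],
    ![1, 2, 4],
    ![1, 3, 4],
    ![2, 4, 6],
    ![2, 5, 6],
    ![3, 4, 8],
    ![3, 5, 7],
    ![3, 7, 8],
    ![4, 6, 8],
    ![5, 6, 9],
    ![5, 7, 9],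
    ![6, 8, 9],
    ![7, 8, 9]]

def FL : List (Fin 10 × Fin 10 × Fin 10) :=
  [(0, 1, 2),
    (0, 1, 3),
    (0, 2, 5),
    (0, 3, 5),
    (1, 2, 4),
    (1, 3, 4),
    (2, 4, 6),
    (2, 5, 6),
    (3, 4, 8),
    (3, 5, 7),
    (3, 7, 8),
    (4, 6, 8),
    (5, 6, 9),
    (5, 7, 9),
    (6, 8, 9),
    (7, 8, 9)]

theorem FL_eq : List.ofFn (fun f : Fin 16 => (fv f 0, fv f 1, fv f 2)) = FL := by decide

theorem sum_faces (h : Fin 10 × Fin 10 × Fin 10 → ℕ) :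
    ∑ f : Fin 16, h (fv f 0, fv f 1, fv f 2) = (FL.map h).sum := by
  rw [← FL_eq, List.map_ofFn, List.sum_ofFn]; rfl

def SL : List (List (Fin 10 × Fin 10 × Fin 10)) :=
  [[(8, 9, 7), (6, 8, 9), (4, 6, 8), (2, 4, 6), (1, 2, 4), (0, 2, 5), (0, 1, 3), (0, 1, 2), (0, 0, 1)],
    [(2, 6, 4), (8, 9, 7), (6, 9, 8), (5, 6, 9), (2, 5, 6), (0, 5, 3), (0, 2, 5), (0, 1, 2), (0, 0, 1)],
    [(5, 9, 6), (3, 8, 4), (5, 7, 9), (3, 7, 8), (3, 5, 7), (0, 5, 3), (0, 2, 5), (0, 1, 2), (0, 0, 1)],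
    [(8, 9, 7), (6, 9, 8), (5, 6, 9), (2, 6, 5), (2, 4, 6), (1, 4, 3), (1, 2, 4), (0, 1, 2), (0, 0, 1)],
    [(5, 7, 3), (6, 9, 8), (5, 9, 7), (5, 6, 9), (2, 6, 5), (2, 4, 6), (1, 2, 4), (0, 1, 2), (0, 0, 1)],
    [(5, 9, 7), (6, 9, 5), (4, 8, 3), (6, 8, 9), (4, 6, 8), (2, 4, 6), (1, 2, 4), (0, 1, 2), (0, 0, 1)],
    [(2, 6, 4), (6, 9, 8), (5, 9, 7), (5, 6, 9), (2, 5, 6), (0, 5, 2), (0, 3, 5), (0, 1, 3), (0, 0, 1)],
    [(3, 8, 4), (2, 5, 6), (0, 5, 2), (5, 7, 9), (3, 7, 8), (3, 5, 7), (0, 3, 5), (0, 1, 3), (0, 0, 1)],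
    [(1, 4, 2), (6, 8, 9), (4, 8, 6), (3, 5, 7), (3, 4, 8), (1, 3, 4), (0, 3, 5), (0, 1, 3), (0, 0, 1)],
    [(5, 7, 9), (3, 7, 5), (1, 4, 2), (4, 8, 6), (3, 8, 7), (3, 4, 8), (1, 3, 4), (0, 1, 3), (0, 0, 1)],
    [(2, 4, 1), (2, 6, 4), (5, 6, 9), (3, 7, 8), (3, 5, 7), (2, 5, 6), (0, 5, 3), (0, 2, 5), (0, 0, 2)],
    [(3, 4, 1), (3, 8, 4), (7, 8, 9), (3, 7, 8), (3, 5, 7), (2, 5, 6), (0, 5, 3), (0, 2, 5), (0, 0, 2)],
    [(3, 4, 1), (3, 8, 4), (7, 8, 3), (8, 9, 7), (6, 9, 8), (5, 6, 9), (2, 5, 6), (0, 2, 5), (0, 0, 2)]]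

theorem SL_ok : ∀ l ∈ SL, l.length = 9 ∧ (∀ t ∈ l, t.2.2 ≠ t.1 ∧ t.2.2 ≠ t.2.1) ∧
    l.Pairwise (fun s t => s.2.2 ≠ t.1 ∧ s.2.2 ≠ t.2.1 ∧ s.2.2 ≠ t.2.2) := by
  decide +kernel

structure OK (D : Fin 10 → Fin 10 → ℕ) (K : Fin 10 → Fin 10 → Fin 10 → ℕ) : Prop where
  s : ∀ u v, D u v = D v u
  r : ∀ u, D u u = 10
  s12 : ∀ u v w, K u v w = K v u w
  s23 : ∀ u v w, K u v w = K u w v
  d : ∀ u w, K u u w = D u w
  b : ∀ u v w, K u v w ≤ D u v ∧ K u v w ≤ D u w ∧ K u v w ≤ D v w ∧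
    D u v + D u w + D v w ≤ 10 + 2 * K u v w

variable (D : Fin 10 → Fin 10 → ℕ) (K : Fin 10 → Fin 10 → Fin 10 → ℕ)

def codT (t : Fin 10 × Fin 10 × Fin 10) : ℕ :=
  cod (K t.1 t.2.1 t.2.2) (D t.1 t.2.1 - K t.1 t.2.1 t.2.2) (D t.1 t.2.2 - K t.1 t.2.1 t.2.2)
    (D t.2.1 t.2.2 - K t.1 t.2.1 t.2.2)

def exP (t : Fin 10 × Fin 10 × Fin 10) : ℕ :=
  EX (K t.1 t.2.1 t.2.2) (D t.1 t.2.1 - K t.1 t.2.1 t.2.2) (D t.1 t.2.2 - K t.1 t.2.1 t.2.2)
    (D t.2.1 t.2.2 - K t.1 t.2.1 t.2.2)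

def del (t : Fin 10 × Fin 10 × Fin 10) : ℕ :=
  if D t.1 t.2.1 = 0 ∧ D t.1 t.2.2 = 0 ∧ D t.2.1 t.2.2 = 0 then 0 else 1

variable {D K}

theorem codT_12 (h : OK D K) (u v w : Fin 10) : codT D K (u, v, w) = codT D K (v, u, w) := by
  simp only [codT, cod, h.s12 u v w, h.s u v]; omega

theorem codT_23 (h : OK D K) (u v w : Fin 10) : codT D K (u, v, w) = codT D K (u, w, v) := by
  simp only [codT, cod, h.s23 u v w, h.s v w]; omega

theorem D_le (h : OK D K) (u v : Fin 10) : D u v < 11 := by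
  have := h.b u u v
  rw [h.d, h.r] at this
  have := (h.b u v u).2.2.2
  have h2 := (h.b u v u).1
  rw [h.r, h.s v u, h.s23, h.d] at this
  have h3 := (h.b u v v).2.1
  have h4 := (h.b v v u).1
  rw [h.d, h.r, h.s v u] at h4
  omega

theorem codT_base (h : OK D K) (u v : Fin 10) :
    codT D K (u, u, v) = tri (D u u) + tri (D u v) := by
  have := D_le h u v
  simp only [codT, cod, h.d, h.r, Nat.sub_self]
  generalize D u v = d at *
  revert d
  decide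

theorem faceIneq (h : OK D K) (f : ℕ) (hf : f < 16) (u v w : Fin 10) :
    149 * exP D K (u, v, w) + gT f 0 (D u v) + gT f 1 (D u w) + gT f 2 (D v w) + del D (u, v, w) ≤
      lamT f * codT D K (u, v, w) + 600 := by
  have hk := chkF
  simp only [List.all_eq_true, List.mem_range] at hk
  obtain ⟨b1, b2, b3, b4⟩ := h.b u v w
  have := allP_spec (hk f hf) (K u v w) (D u v - K u v w) (D u w - K u v w) (D v w - K u v w)
    (by omega)
  rw [Nat.ble_eq, Nat.add_sub_cancel' b1, Nat.add_sub_cancel' b2, Nat.add_sub_cancel' b3] at this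
  refine le_trans ?_ this
  apply Nat.add_le_add (le_refl _)
  unfold del
  split_ifs with h1
  · exact Nat.zero_le _
  · have : Nat.beq (D u v + (D u w - K u v w) + (D v w - K u v w)) 0 = false := by
      rw [← Bool.not_eq_true, Nat.beq_eq]
      simp only at h1
      omega
    rw [this]; exact le_rfl

theorem eg_0_1 : ∀ d < 11, gT 0 0 d + gT 1 0 d = 12 * tri d + 400 := by
  decide +kernel

theorem eg_0_2 : ∀ d < 11, gT 0 1 d + gT 2 0 d = 28 * tri d + 400 := by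
  decide +kernel

theorem eg_0_3 : ∀ d < 11, gT 1 1 d + gT 3 0 d = 40 * tri d + 400 := by
  decide +kernel

theorem eg_0_5 : ∀ d < 11, gT 2 1 d + gT 3 1 d = 59 * tri d + 400 := by
  decide +kernel

theorem eg_1_2 : ∀ d < 11, gT 0 2 d + gT 4 0 d = 42 * tri d + 400 := by
  decide +kernel

theorem eg_1_3 : ∀ d < 11, gT 1 2 d + gT 5 0 d = 35 * tri d + 400 := by
  decide +kernel

theorem eg_1_4 : ∀ d < 11, gT 4 1 d + gT 5 1 d = 42 * tri d + 400 := by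
  decide +kernel

theorem eg_2_4 : ∀ d < 11, gT 4 2 d + gT 6 0 d = 50 * tri d + 400 := by
  decide +kernel

theorem eg_2_5 : ∀ d < 11, gT 2 2 d + gT 7 0 d = 66 * tri d + 400 := by
  decide +kernel

theorem eg_2_6 : ∀ d < 11, gT 6 1 d + gT 7 1 d = 42 * tri d + 400 := by
  decide +kernel

theorem eg_3_4 : ∀ d < 11, gT 5 2 d + gT 8 0 d = 61 * tri d + 400 := by
  decide +kernel

theorem eg_3_5 : ∀ d < 11, gT 3 2 d + gT 9 0 d = 61 * tri d + 400 := by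
  decide +kernel

theorem eg_3_7 : ∀ d < 11, gT 9 1 d + gT 10 0 d = 60 * tri d + 400 := by
  decide +kernel

theorem eg_3_8 : ∀ d < 11, gT 8 1 d + gT 10 1 d = 65 * tri d + 400 := by
  decide +kernel

theorem eg_4_6 : ∀ d < 11, gT 6 2 d + gT 11 0 d = 24 * tri d + 400 := by
  decide +kernel

theorem eg_4_8 : ∀ d < 11, gT 8 2 d + gT 11 1 d = 47 * tri d + 400 := by
  decide +kernel

theorem eg_5_6 : ∀ d < 11, gT 7 2 d + gT 12 0 d = 55 * tri d + 400 := by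
  decide +kernel

theorem eg_5_7 : ∀ d < 11, gT 9 2 d + gT 13 0 d = 50 * tri d + 400 := by
  decide +kernel

theorem eg_5_9 : ∀ d < 11, gT 12 1 d + gT 13 1 d = 35 * tri d + 400 := by
  decide +kernel

theorem eg_6_8 : ∀ d < 11, gT 11 2 d + gT 14 0 d = 42 * tri d + 400 := by
  decide +kernel

theorem eg_6_9 : ∀ d < 11, gT 12 2 d + gT 14 1 d = 59 * tri d + 400 := by
  decide +kernel

theorem eg_7_8 : ∀ d < 11, gT 10 2 d + gT 15 0 d = 26 * tri d + 400 := by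
  decide +kernel

theorem eg_7_9 : ∀ d < 11, gT 13 2 d + gT 15 1 d = 0 * tri d + 400 := by
  decide +kernel

theorem eg_8_9 : ∀ d < 11, gT 14 2 d + gT 15 2 d = 42 * tri d + 400 := by
  decide +kernel

theorem lp_main (h : OK D K) (hs : 1 ≤ (FL.map (del D)).sum) : ∃ l ∈ SL,
    (FL.map (exP D K)).sum + 1 + (l.map (fun t => tri (D t.1 t.2.1))).sum ≤
      (l.map (codT D K)).sum := by
  by_contra hc
  simp only [SL, List.mem_cons, List.not_mem_nil, or_false, exists_eq_or_imp, exists_eq_left,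
    FL, List.map_cons, List.map_nil, List.sum_cons, List.sum_nil, not_or, not_le] at hc hs
  obtain ⟨s0, s1, s2, s3, s4, s5, s6, s7, s8, s9, s10, s11, s12⟩ := hc
  have := (codT_23 h 8 9 7).trans (codT_12 h 8 7 9)
  have := codT_base h 0 1
  have := codT_23 h 2 6 4
  have := codT_23 h 6 9 8
  have := codT_23 h 0 5 3
  have := codT_23 h 5 9 6
  have := codT_23 h 3 8 4
  have := codT_23 h 2 6 5
  have := codT_23 h 1 4 3
  have := (codT_23 h 5 7 3).trans (codT_12 h 5 3 7)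
  have := codT_23 h 5 9 7
  have := (codT_23 h 6 9 5).trans (codT_12 h 6 5 9)
  have := (codT_23 h 4 8 3).trans (codT_12 h 4 3 8)
  have := codT_23 h 0 5 2
  have := codT_23 h 1 4 2
  have := codT_23 h 4 8 6
  have := codT_23 h 3 7 5
  have := codT_23 h 3 8 7
  have := (codT_23 h 2 4 1).trans (codT_12 h 2 1 4)
  have := codT_base h 0 2
  have := (codT_23 h 3 4 1).trans (codT_12 h 3 1 4)
  have := (codT_23 h 7 8 3).trans (codT_12 h 7 3 8)
  have := faceIneq h 0 (by norm_num) 0 1 2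
  rw [show lamT 0 = 58 from rfl] at this
  have := faceIneq h 1 (by norm_num) 0 1 3
  rw [show lamT 1 = 69 from rfl] at this
  have := faceIneq h 2 (by norm_num) 0 2 5
  rw [show lamT 2 = 84 from rfl] at this
  have := faceIneq h 3 (by norm_num) 0 3 5
  rw [show lamT 3 = 77 from rfl] at this
  have := faceIneq h 4 (by norm_num) 1 2 4
  rw [show lamT 4 = 85 from rfl] at this
  have := faceIneq h 5 (by norm_num) 1 3 4
  rw [show lamT 5 = 68 from rfl] at this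
  have := faceIneq h 6 (by norm_num) 2 4 6
  rw [show lamT 6 = 66 from rfl] at this
  have := faceIneq h 7 (by norm_num) 2 5 6
  rw [show lamT 7 = 84 from rfl] at this
  have := faceIneq h 8 (by norm_num) 3 4 8
  rw [show lamT 8 = 95 from rfl] at this
  have := faceIneq h 9 (by norm_num) 3 5 7
  rw [show lamT 9 = 89 from rfl] at this
  have := faceIneq h 10 (by norm_num) 3 7 8
  rw [show lamT 10 = 73 from rfl] at this
  have := faceIneq h 11 (by norm_num) 4 6 8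
  rw [show lamT 11 = 59 from rfl] at this
  have := faceIneq h 12 (by norm_num) 5 6 9
  rw [show lamT 12 = 73 from rfl] at this
  have := faceIneq h 13 (by norm_num) 5 7 9
  rw [show lamT 13 = 68 from rfl] at this
  have := faceIneq h 14 (by norm_num) 6 8 9
  rw [show lamT 14 = 89 from rfl] at this
  have := faceIneq h 15 (by norm_num) 7 8 9
  rw [show lamT 15 = 55 from rfl] at this
  have := eg_0_1 _ (D_le h 0 1)
  have := eg_0_2 _ (D_le h 0 2)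
  have := eg_0_3 _ (D_le h 0 3)
  have := eg_0_5 _ (D_le h 0 5)
  have := eg_1_2 _ (D_le h 1 2)
  have := eg_1_3 _ (D_le h 1 3)
  have := eg_1_4 _ (D_le h 1 4)
  have := eg_2_4 _ (D_le h 2 4)
  have := eg_2_5 _ (D_le h 2 5)
  have := eg_2_6 _ (D_le h 2 6)
  have := eg_3_4 _ (D_le h 3 4)
  have := eg_3_5 _ (D_le h 3 5)
  have := eg_3_7 _ (D_le h 3 7)
  have := eg_3_8 _ (D_le h 3 8)
  have := eg_4_6 _ (D_le h 4 6)
  have := eg_4_8 _ (D_le h 4 8)
  have := eg_5_6 _ (D_le h 5 6)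
  have := eg_5_7 _ (D_le h 5 7)
  have := eg_5_9 _ (D_le h 5 9)
  have := eg_6_8 _ (D_le h 6 8)
  have := eg_6_9 _ (D_le h 6 9)
  have := eg_7_8 _ (D_le h 7 8)
  have := eg_7_9 _ (D_le h 7 9)
  have := eg_8_9 _ (D_le h 8 9)
  linarith

end

end Vale.Agent.P050
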