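import Vale.Agent.P050.Sym
import Vale.Agent.P050.Ex
import Vale.Agent.P050.LP

/-! Contribution of the singular strata. -/

namespace Vale.Agent.P050

open Module

noncomputable section

theorem card_X (F ι : Type) [Fintype F] [Fintype ι] [DecidableEq ι] (n : ℕ)
    (hn : Fintype.card ι = n) :
    (Fintype.card (Sym2 ι → F) : ℝ) = (Fintype.card F : ℝ) ^ tri n := by
  rw [Fintype.card_fun, Sym2.card, hn]
  have : (n + 1).choose 2 = tri n := by
    rw [Nat.choose_two_right, tri, Nat.add_sub_cancel, mul_comm]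
  rw [this]; push_cast; rfl

theorem list_prod_eq {α : Type} (C q : ℝ) (a b : α → ℕ) (l : List α) :
    (l.map (fun t => C * q ^ a t / q ^ b t)).prod =
      C ^ l.length * q ^ (l.map a).sum / q ^ (l.map b).sum := by
  induction l with
  | nil => simp
  | cons s l ih =>
    simp only [List.map_cons, List.prod_cons, List.sum_cons, List.length_cons, ih, pow_add,
      pow_succ]
    ring

/-- all edges of the triangulation are generic -/
def Gen {F ι : Type} [Field F] [Fintype ι] (x : Fin 10 → Sym2 ι → F) : Prop :=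
  ∀ f : Fin 16, dm (x (fv f 0)) (x (fv f 1)) = 0 ∧ dm (x (fv f 0)) (x (fv f 2)) = 0 ∧
    dm (x (fv f 1)) (x (fv f 2)) = 0

theorem pat_prob : ∃ C : ℝ, 0 ≤ C ∧ ∀ (F ι : Type) [Field F] [Fintype F] [Fintype ι]
    [DecidableEq ι], (2 : F) ≠ 0 → Fintype.card ι = 10 →
    ∀ (D : Fin 10 → Fin 10 → ℕ) (K : Fin 10 → Fin 10 → Fin 10 → ℕ), OK D K →
      1 ≤ (FL.map (del D)).sum →
      ex (fun x : Fin 10 → Sym2 ι → F => ind ((∀ u v, dm (x u) (x v) = D u v) ∧
        ∀ u v w, tm (x u) (x v) (x w) = K u v w)) *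
        (Fintype.card F : ℝ) ^ (FL.map (exP D K)).sum ≤ C / Fintype.card F := by
  obtain ⟨C, h0, hC⟩ := cntP
  refine ⟨C ^ 9, by positivity, fun F ι _ _ _ _ h2 hn D K hOK hs => ?_⟩
  obtain ⟨l, hl, hlp⟩ := lp_main hOK hs
  obtain ⟨e1, e2, e3⟩ := SL_ok l hl
  have hq2 : (2 : ℝ) ≤ Fintype.card F := two_le_q
  have hX := card_X F ι 10 hn
  set q := (Fintype.card F : ℝ) with hq
  have hq0 : 0 < q := by linarith
  have key := expo (Λ := Sym2 ι → F)
    (fun t a b c => ind (dm a b = D t.1 t.2.1 ∧ D t.1 t.2.2 ≤ dm c a ∧ D t.2.1 t.2.2 ≤ dm c b ∧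
      K t.1 t.2.1 t.2.2 ≤ tm a b c))
    (fun t => C * q ^ tri (D t.1 t.2.1) / q ^ codT D K t) (fun _ _ _ _ => ind_nonneg _)
    (fun t => by positivity) ?_ l e2 e3
  · rw [list_prod_eq, e1] at key
    have e4 : ex (fun x : Fin 10 → Sym2 ι → F => ind ((∀ u v, dm (x u) (x v) = D u v) ∧
        ∀ u v w, tm (x u) (x v) (x w) = K u v w)) ≤
        C ^ 9 * q ^ (l.map (fun t => tri (D t.1 t.2.1))).sum / q ^ (l.map (codT D K)).sum := by
      refine le_trans (ex_mono fun x => ?_) key
      by_cases hx : (∀ u v, dm (x u) (x v) = D u v) ∧ ∀ u v w, tm (x u) (x v) (x w) = K u v w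
      · rw [ind_pos hx]
        apply le_of_eq
        symm
        apply List.prod_eq_one
        intro a ha
        obtain ⟨t, -, rfl⟩ := List.mem_map.1 ha
        apply ind_pos
        refine ⟨hx.1 _ _, ?_, ?_, (hx.2 _ _ _).ge⟩
        · rw [dm_comm, hx.1]
        · rw [dm_comm, hx.1]
      · rw [ind_neg hx]
        apply List.prod_nonneg
        intro a ha
        obtain ⟨t, -, rfl⟩ := List.mem_map.1 ha
        exact ind_nonneg _
    refine (mul_le_mul_of_nonneg_right e4 (by positivity)).trans ?_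
    rw [div_mul_eq_mul_div, div_le_div_iff₀ (by positivity) hq0, mul_assoc, mul_assoc]
    apply mul_le_mul_of_nonneg_left _ (by positivity)
    rw [← pow_succ, ← pow_add]
    exact pow_le_pow_right₀ (by linarith) (by omega)
  · rintro ⟨u, v, w⟩ a b
    by_cases hab : dm a b = D u v
    · obtain ⟨b1, b2, b3, b4⟩ := hOK.b u v w
      have h3 := hC (K u v w) (D u v - K u v w) (D u w - K u v w) (D v w - K u v w) (by omega)
        F ι h2 hn a b (by omega)
      rw [Nat.add_sub_cancel' b1, Nat.add_sub_cancel' b2, Nat.add_sub_cancel' b3, ← hq] at h3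
      have h4 : ex (fun c : Sym2 ι → F => ind (D u w ≤ dm c a ∧ D v w ≤ dm c b ∧
          K u v w ≤ tm a b c)) ≤ C * q ^ tri (D u v) / q ^ codT D K (u, v, w) := by
        rw [ex_ind, hX, div_le_div_iff₀ (by positivity) (by positivity)]
        refine h3.trans (le_of_eq ?_)
        rw [pow_add, show tri 10 = 55 from rfl]; ring
      refine le_trans (ex_mono fun c => ind_mono fun h => h.2) h4
    · refine le_trans (ex_le (c := 0) fun c => (ind_neg fun h => hab h.1).le) ?_
      positivity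

/-- global patterns -/
def Pat : Type := (Fin 10 → Fin 10 → Fin 11) × (Fin 10 → Fin 10 → Fin 10 → Fin 11)

instance : Finite Pat := by unfold Pat; infer_instance

theorem sing_bound : ∃ C : ℝ, 0 ≤ C ∧ ∀ (F ι : Type) [Field F] [Fintype F] [Fintype ι]
    [DecidableEq ι], (2 : F) ≠ 0 → Fintype.card ι = 10 →
    ex (fun x : Fin 10 → Sym2 ι → F => ind (¬ Gen x) *
      ∏ f : Fin 16, (Fintype.card F : ℝ) ^ exT (x (fv f 0)) (x (fv f 1)) (x (fv f 2))) ≤
      C / Fintype.card F := by
  obtain ⟨C, h0, hC⟩ := pat_prob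
  obtain ⟨iP⟩ : Nonempty (Fintype Pat) := nonempty_fintype _
  let P := Pat
  refine ⟨Fintype.card P * C, by positivity, fun F ι _ _ _ _ h2 hn => ?_⟩
  have hq2 : (2 : ℝ) ≤ Fintype.card F := two_le_q
  set q := (Fintype.card F : ℝ) with hq
  have hq0 : 0 < q := by linarith
  let D : P → Fin 10 → Fin 10 → ℕ := fun p u v => p.1 u v
  let K : P → Fin 10 → Fin 10 → Fin 10 → ℕ := fun p u v w => p.2 u v w
  let T : P → (Fin 10 → Sym2 ι → F) → ℝ := fun p x =>
    ind (OK (D p) (K p) ∧ 1 ≤ (FL.map (del (D p))).sum) *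
      (ind ((∀ u v, dm (x u) (x v) = D p u v) ∧ ∀ u v w, tm (x u) (x v) (x w) = K p u v w) *
        q ^ (FL.map (exP (D p) (K p))).sum)
  have hT0 : ∀ p x, 0 ≤ T p x := fun p x =>
    mul_nonneg (ind_nonneg _) (mul_nonneg (ind_nonneg _) (by positivity))
  have hT : ∀ p, ex (T p) ≤ C / q := by
    intro p
    simp only [T]
    rw [ex_mul_left, ex_mul_right]
    by_cases hp : OK (D p) (K p) ∧ 1 ≤ (FL.map (del (D p))).sum
    · rw [ind_pos hp, one_mul]
      exact hC F ι h2 hn _ _ hp.1 hp.2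
    · rw [ind_neg hp, zero_mul]; positivity
  have hsum : ex (fun x => ∑ p, T p x) ≤ Fintype.card P * C / q := by
    rw [ex_sum]
    refine (Finset.sum_le_sum fun p _ => hT p).trans (le_of_eq ?_)
    rw [Finset.sum_const, Finset.card_univ, nsmul_eq_mul, mul_div_assoc]
  refine le_trans (ex_mono fun x => ?_) hsum
  by_cases hx : Gen x
  · rw [ind_neg (not_not.2 hx), zero_mul]
    exact Finset.sum_nonneg fun p _ => hT0 p x
  have hd : ∀ u v, dm (x u) (x v) < 11 := by
    intro u v
    have : dm (x u) (x v) ≤ 10 := by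
      rw [← hn, ← rk_gr (x u)]; exact Submodule.finrank_mono inf_le_left
    omega
  let p : P := (fun u v => ⟨_, hd u v⟩, fun u v w => ⟨_, (tm_le (x u) (x v) (x w)).trans_lt (hd u v)⟩)
  refine le_trans (le_of_eq ?_) (Finset.single_le_sum (fun p _ => hT0 p x) (Finset.mem_univ p))
  simp only [T]
  rw [ind_pos hx, ind_pos, ind_pos ⟨fun _ _ => rfl, fun _ _ _ => rfl⟩, one_mul, one_mul, one_mul,
    Finset.prod_pow_eq_pow_sum, ← sum_faces]
  · rfl
  refine ⟨⟨fun u v => dm_comm _ _, fun u => (dm_self _).trans hn, fun u v w => tm_12 _ _ _,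
    fun u v w => tm_23 _ _ _, fun u w => tm_self _ _, fun u v w => ?_⟩, ?_⟩
  · have := pat_facts (x u) (x v) (x w)
    rwa [hn] at this
  · rw [← sum_faces]
    unfold Gen at hx
    rw [not_forall] at hx
    obtain ⟨f, hf⟩ := hx
    refine le_trans (le_of_eq ?_) (Finset.single_le_sum
      (f := fun f : Fin 16 => del (D p) (fv f 0, fv f 1, fv f 2)) (fun _ _ => Nat.zero_le _)
      (Finset.mem_univ f))
    unfold del
    exact (if_neg hf).symm

end

end Vale.Agent.P050
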