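import Vale.Agent.P050.Orb
import Vale.Agent.P050.Sing

/-! The typed kernels and the face densities. -/

namespace Vale.Agent.P050

open Module Matrix

noncomputable section

variable {F : Type} [Field F] [Fintype F] [DecidableEq F]

/-- vertex space of one coordinate -/
abbrev YY (F : Type) : Type := (Sym2 II → F) × Bool

def sg (b : Bool) : ℝ := if b then 1 else -1

theorem sg_sq (b : Bool) : sg b * sg b = 1 := by cases b <;> simp [sg]

theorem abs_sg (b : Bool) : |sg b| = 1 := by cases b <;> simp [sg]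

/-- normalising constant -/
def c0 (F : Type) [Field F] [Fintype F] : ℝ := (Fintype.card F : ℝ) ^ 55 / cnt (InO (F := F))

omit [DecidableEq F] in
theorem c0_nonneg : 0 ≤ c0 F := div_nonneg (by positivity) (cnt_nonneg _)

def uu (s : ℝ) (z : YY F) (y : Sym2 II → F) : ℝ := s * sg z.2 * tau (z.1 - y)

/-- kernel of type `s` -/
def Wk (s : ℝ) (z y : YY F) : ℝ :=
  if s = 0 then 1 else c0 F * ind (InO (z.1 - y.1)) * (1 + uu s z y.1 * sg y.2)

/-- signed pair statistic -/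
def sig (z z' : YY F) : ℝ := sg z.2 * sg z'.2 * chi (toM (z.1 - z'.1)).det

def S3 (s : ℝ) : Prop := s = 0 ∨ s * s = 1

theorem S3.abs_le {s : ℝ} (h : S3 s) : |s| ≤ 1 := by
  rcases h with h | h
  · simp [h]
  · rw [← sq_le_one_iff_abs_le_one, sq, h]

theorem abs_uu_le {s : ℝ} (h : S3 s) (z : YY F) (y : Sym2 II → F) : |uu s z y| ≤ 1 := by
  unfold uu
  rw [abs_mul, abs_mul, abs_sg, mul_one]
  exact mul_le_one₀ h.abs_le (abs_nonneg _) (abs_tau_le _)

theorem abs_sig_le (z z' : YY F) : |sig z z'| ≤ 1 := by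
  unfold sig
  rw [abs_mul, abs_mul, abs_sg, abs_sg, mul_one, one_mul]
  exact abs_chi_le _

theorem Wk_nonneg {s : ℝ} (h : S3 s) (z y : YY F) : 0 ≤ Wk s z y := by
  unfold Wk
  split_ifs
  · exact zero_le_one
  · apply mul_nonneg (mul_nonneg c0_nonneg (ind_nonneg _))
    have h1 : |uu s z y.1 * sg y.2| ≤ 1 := by
      rw [abs_mul, abs_sg, mul_one]; exact abs_uu_le h _ _
    linarith [(abs_le.1 h1).1]

theorem Wk_symm (hm : chi (-1 : F) = 1) (s : ℝ) (z y : YY F) : Wk s z y = Wk s y z := by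
  unfold Wk uu
  have e : y.1 - z.1 = -(z.1 - y.1) := by simp
  have e1 : InO (z.1 - y.1) ↔ InO (y.1 - z.1) := ⟨fun h => by simpa using h.neg,
    fun h => by simpa using h.neg⟩
  rw [ind_congr e1, e, tau_neg hm]
  split_ifs
  · rfl
  · ring

theorem Wk_deg (hO : 0 < cnt (InO (F := F))) (s : ℝ) (z : YY F) : ex (Wk s z) = 1 := by
  by_cases hs : s = 0
  · have : Wk s z = fun _ => 1 := by ext y; simp [Wk, hs]
    rw [this, ex_const]
  · rw [ex_prod]
    have : ∀ a : Sym2 II → F, ex (fun b => Wk s z (a, b)) = c0 F * ind (InO (z.1 - a)) := by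
      intro a
      rw [ex_bool]; simp only [Wk, hs, if_false, sg]; simp; ring
    simp only [this]
    rw [ex_mul_left, ex_sub_left z.1 (fun a => ind (InO a)), ex_ind, card_X F II 10 card_II, c0]
    have : (0 : ℝ) < Fintype.card F := card_pos'
    rw [show tri 10 = 55 from rfl]
    field_simp

theorem two_eq {s s' : ℝ} (hs : s ≠ 0) (hs' : s' ≠ 0) (z z' : YY F) :
    ex (fun y => Wk s z y * Wk s' z' y) = c0 F ^ 2 *
      ex (fun a => ind (InO (z.1 - a) ∧ InO (z'.1 - a)) * (1 + uu s z a * uu s' z' a)) := by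
  rw [ex_prod, ← ex_mul_left]
  apply ex_congr
  intro a
  rw [ex_bool, ← ind_mul]
  simp only [Wk, hs, hs', if_false, sg]; simp; ring

theorem three_eq {s0 s1 s2 : ℝ} (h0 : s0 ≠ 0) (h1 : s1 ≠ 0) (h2 : s2 ≠ 0) (z0 z1 z2 : YY F) :
    ex (fun y => Wk s0 z0 y * Wk s1 z1 y * Wk s2 z2 y) = c0 F ^ 3 *
      ex (fun a => ind (InO (z0.1 - a) ∧ InO (z1.1 - a) ∧ InO (z2.1 - a)) *
        (1 + uu s0 z0 a * uu s1 z1 a + uu s0 z0 a * uu s2 z2 a + uu s1 z1 a * uu s2 z2 a)) := by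
  rw [ex_prod, ← ex_mul_left]
  apply ex_congr
  intro a
  rw [ex_bool, ← ind_mul, ← ind_mul]
  simp only [Wk, h0, h1, h2, if_false, sg]; simp; ring

theorem uu_mul (hm : chi (-1 : F) = 1) (s s' : ℝ) {z z' : YY F} {a : Sym2 II → F}
    (h : InO (z.1 - a)) (h' : InO (z'.1 - a)) (hd : dm z.1 z'.1 = 0) :
    uu s z a * uu s' z' a = s * s' * sig z z' := by
  have e : z.1 - z'.1 = (z.1 - a) - (z'.1 - a) := by simp
  have h1 := det_ne_of_dm hd
  unfold uu sig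
  rw [e] at h1 ⊢
  rw [det_id hm h h' h1]; ring

theorem uu_sq {s : ℝ} (hs : s * s = 1) {z : YY F} {a : Sym2 II → F} (h : InO (z.1 - a)) :
    uu s z a * uu s z a = 1 := by
  unfold uu
  have h1 := sg_sq z.2
  have h2 := h.tau_sq
  calc _ = (s * s) * (sg z.2 * sg z.2) * (tau (z.1 - a) * tau (z.1 - a)) := by ring
    _ = 1 := by rw [hs, h1, h2]; ring

theorem one_add_nonneg {s s' : ℝ} (h : S3 s) (h' : S3 s') (z z' : YY F) :
    0 ≤ 1 + s * s' * sig z z' := by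
  have : |s * s' * sig z z'| ≤ 1 := by
    rw [abs_mul, abs_mul]
    exact mul_le_one₀ (mul_le_one₀ h.abs_le (abs_nonneg _) h'.abs_le) (abs_nonneg _)
      (abs_sig_le _ _)
  linarith [(abs_le.1 this).1]

omit [DecidableEq F] in
theorem ex_ind_le {P Q : (Sym2 II → F) → Prop} (h : ∀ a, P a → Q a) {g : (Sym2 II → F) → ℝ}
    {M N : ℝ} (hM : 0 ≤ M) (hg : ∀ a, P a → g a ≤ M) (hN : cnt Q ≤ N) :
    ex (fun a => ind (P a) * g a) ≤ M * N / (Fintype.card F : ℝ) ^ 55 := by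
  have h1 : ex (fun a => ind (P a) * g a) ≤ ex (fun a => M * ind (Q a)) := by
    apply ex_mono
    intro a
    by_cases ha : P a
    · rw [ind_pos ha, ind_pos (h a ha)]; simpa using hg a ha
    · rw [ind_neg ha, zero_mul]; exact mul_nonneg hM (ind_nonneg _)
  refine h1.trans ?_
  rw [ex_mul_left, ex_ind, card_X F II 10 card_II, show tri 10 = 55 from rfl, mul_div_assoc]
  gcongr

/-- the counting inputs -/
structure Inp (F : Type) [Field F] [Fintype F] [DecidableEq F] (r C : ℝ) : Prop where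
  hm : chi (-1 : F) = 1
  hO : 0 < cnt (InO (F := F))
  r1 : 1 ≤ r
  r2 : r ≤ 2
  C0 : 0 ≤ C
  hc : c0 F ≤ r * (Fintype.card F : ℝ) ^ 15
  g3 : ∀ x y z : Sym2 II → F, dm x y = 0 → dm x z = 0 → dm y z = 0 →
    cnt (fun w : Sym2 II → F => 5 ≤ dm w x ∧ 5 ≤ dm w y ∧ 5 ≤ dm w z) ≤
      2 * r * (Fintype.card F : ℝ) ^ 10
  g2 : ∀ x y : Sym2 II → F, dm x y = 0 →
    cnt (fun w : Sym2 II → F => 5 ≤ dm w x ∧ 5 ≤ dm w y) ≤ r * (Fintype.card F : ℝ) ^ 25
  s3 : ∀ x y z : Sym2 II → F, cnt (fun w : Sym2 II → F => 5 ≤ dm w x ∧ 5 ≤ dm w y ∧ 5 ≤ dm w z) ≤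
    C * (Fintype.card F : ℝ) ^ (10 + exT x y z)
  s2 : ∀ x y : Sym2 II → F, cnt (fun w : Sym2 II → F => 5 ≤ dm w x ∧ 5 ≤ dm w y) ≤
    C * (Fintype.card F : ℝ) ^ (E2 (dm x y))

variable {r C : ℝ}

theorem two_gen (I : Inp F r C) {s s' : ℝ} (hs : s * s = 1) (hs' : s' * s' = 1) (z z' : YY F)
    (hd : dm z.1 z'.1 = 0) :
    ex (fun y => Wk s z y * Wk s' z' y) ≤ r ^ 4 * (1 + s * s' * sig z z') := by
  have h0 : s ≠ 0 := by rintro rfl; simp at hs
  have h0' : s' ≠ 0 := by rintro rfl; simp at hs'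
  have hp := one_add_nonneg (Or.inr hs) (Or.inr hs') z z'
  have hq : (0 : ℝ) < Fintype.card F := card_pos'
  have h1 := ex_ind_le (P := fun a => InO (z.1 - a) ∧ InO (z'.1 - a))
    (g := fun a => 1 + uu s z a * uu s' z' a) (fun a ha => And.intro ha.1.dm_ge ha.2.dm_ge) hp
    (fun a ha => by rw [uu_mul I.hm s s' ha.1 ha.2 hd]) (I.g2 _ _ hd)
  rw [two_eq h0 h0']
  have hr := I.r1
  have hc := I.hc
  have hc0 := c0_nonneg (F := F)
  calc _ ≤ (r * (Fintype.card F : ℝ) ^ 15) ^ 2 * ((1 + s * s' * sig z z') *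
        (r * (Fintype.card F : ℝ) ^ 25) / (Fintype.card F : ℝ) ^ 55) := by
        apply mul_le_mul (by gcongr) h1 (ex_nonneg fun a => ?_) (by positivity)
        apply mul_nonneg (ind_nonneg _)
        have : |uu s z a * uu s' z' a| ≤ 1 := by
          rw [abs_mul]
          exact mul_le_one₀ (abs_uu_le (Or.inr hs) _ _) (abs_nonneg _) (abs_uu_le (Or.inr hs') _ _)
        linarith [(abs_le.1 this).1]
    _ = r ^ 3 * (1 + s * s' * sig z z') := by field_simp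
    _ ≤ _ := mul_le_mul_of_nonneg_right (pow_le_pow_right₀ hr (by norm_num)) hp

theorem two_sing (I : Inp F r C) {s s' : ℝ} (hs : s * s = 1) (hs' : s' * s' = 1) (z z' : YY F)
    (e : ℕ) (he : E2 (dm z.1 z'.1) ≤ 25 + e) :
    ex (fun y => Wk s z y * Wk s' z' y) ≤ (1 + 32 * C) * (Fintype.card F : ℝ) ^ e := by
  have h0 : s ≠ 0 := by rintro rfl; simp at hs
  have h0' : s' ≠ 0 := by rintro rfl; simp at hs'
  have hq2 : (2 : ℝ) ≤ Fintype.card F := two_le_q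
  have hq : (0 : ℝ) < Fintype.card F := card_pos'
  have hb : ∀ a, |uu s z a * uu s' z' a| ≤ 1 := by
    intro a
    rw [abs_mul]
    exact mul_le_one₀ (abs_uu_le (Or.inr hs) _ _) (abs_nonneg _) (abs_uu_le (Or.inr hs') _ _)
  have hC := I.C0
  have h2 : cnt (fun w : Sym2 II → F => 5 ≤ dm w z.1 ∧ 5 ≤ dm w z'.1) ≤
      C * (Fintype.card F : ℝ) ^ (25 + e) :=
    (I.s2 _ _).trans (mul_le_mul_of_nonneg_left (pow_le_pow_right₀ (by linarith) he) hC)
  have h1 := ex_ind_le (P := fun a => InO (z.1 - a) ∧ InO (z'.1 - a))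
    (g := fun a => 1 + uu s z a * uu s' z' a) (fun a ha => And.intro ha.1.dm_ge ha.2.dm_ge)
    (M := 2) (by norm_num) (fun a _ => by linarith [(abs_le.1 (hb a)).2]) h2
  rw [two_eq h0 h0']
  have hc : c0 F ≤ 2 * (Fintype.card F : ℝ) ^ 15 := I.hc.trans (by gcongr; exact I.r2)
  have hc0 := c0_nonneg (F := F)
  calc _ ≤ (2 * (Fintype.card F : ℝ) ^ 15) ^ 2 * (2 *
        (C * (Fintype.card F : ℝ) ^ (25 + e)) / (Fintype.card F : ℝ) ^ 55) := by
        apply mul_le_mul (by gcongr) h1 (ex_nonneg fun a => ?_) (by positivity)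
        apply mul_nonneg (ind_nonneg _)
        linarith [(abs_le.1 (hb a)).1]
    _ = (8 * C) * (Fintype.card F : ℝ) ^ e := by rw [pow_add]; field_simp; ring
    _ ≤ _ := by gcongr; linarith

theorem tri_id {a b c : ℝ} (ha : a * a = 1) (hb : b * b = 1) (hc : c * c = 1) :
    1 + a * b + a * c + b * c = (1 + a * b) * (1 + a * c) * (1 + b * c) / 2 := by
  have e1 : a * b * (a * c) = b * c := by linear_combination (b * c) * ha
  have e2 : a * b * (b * c) = a * c := by linear_combination (a * c) * hb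
  have e3 : a * c * (b * c) = a * b := by linear_combination (a * b) * hc
  have e4 : b * c * (b * c) = 1 := by linear_combination (c * c) * hb + hc
  linear_combination (-1 / 2 : ℝ) * (e1 + e2 + e3 + e4 + (b * c) * e1)

theorem three_nonneg {a b c : ℝ} (ha : a * a = 1) (hb : b * b = 1) (hc : c * c = 1) :
    0 ≤ 1 + a * b + a * c + b * c ∧ 1 + a * b + a * c + b * c ≤ 4 := by
  constructor
  · rcases mul_self_eq_one_iff.1 ha with rfl | rfl <;>
    rcases mul_self_eq_one_iff.1 hb with rfl | rfl <;>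
    rcases mul_self_eq_one_iff.1 hc with rfl | rfl <;> norm_num
  · nlinarith [sq_nonneg (a - b), sq_nonneg (a - c), sq_nonneg (b - c)]

theorem three_pos {s0 s1 s2 : ℝ} (h0 : s0 * s0 = 1) (h1 : s1 * s1 = 1) (h2 : s2 * s2 = 1)
    (z0 z1 z2 : YY F) : 0 ≤ ex (fun a => ind (InO (z0.1 - a) ∧ InO (z1.1 - a) ∧ InO (z2.1 - a)) *
      (1 + uu s0 z0 a * uu s1 z1 a + uu s0 z0 a * uu s2 z2 a + uu s1 z1 a * uu s2 z2 a)) := by
  apply ex_nonneg
  intro a
  by_cases ha : InO (z0.1 - a) ∧ InO (z1.1 - a) ∧ InO (z2.1 - a)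
  · exact mul_nonneg (ind_nonneg _)
      (three_nonneg (uu_sq h0 ha.1) (uu_sq h1 ha.2.1) (uu_sq h2 ha.2.2)).1
  · rw [ind_neg ha, zero_mul]

theorem three_gen (I : Inp F r C) {s0 s1 s2 : ℝ} (h0 : s0 * s0 = 1) (h1 : s1 * s1 = 1)
    (h2 : s2 * s2 = 1) (z0 z1 z2 : YY F) (d01 : dm z0.1 z1.1 = 0) (d02 : dm z0.1 z2.1 = 0)
    (d12 : dm z1.1 z2.1 = 0) :
    ex (fun y => Wk s0 z0 y * Wk s1 z1 y * Wk s2 z2 y) ≤ r ^ 4 * ((1 + s0 * s1 * sig z0 z1) *
      (1 + s0 * s2 * sig z0 z2) * (1 + s1 * s2 * sig z1 z2)) := by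
  have n0 : s0 ≠ 0 := by rintro rfl; simp at h0
  have n1 : s1 ≠ 0 := by rintro rfl; simp at h1
  have n2 : s2 ≠ 0 := by rintro rfl; simp at h2
  have p01 := one_add_nonneg (Or.inr h0) (Or.inr h1) z0 z1
  have p02 := one_add_nonneg (Or.inr h0) (Or.inr h2) z0 z2
  have p12 := one_add_nonneg (Or.inr h1) (Or.inr h2) z1 z2
  have hq : (0 : ℝ) < Fintype.card F := card_pos'
  have k := ex_ind_le (P := fun a => InO (z0.1 - a) ∧ InO (z1.1 - a) ∧ InO (z2.1 - a))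
    (g := fun a => 1 + uu s0 z0 a * uu s1 z1 a + uu s0 z0 a * uu s2 z2 a + uu s1 z1 a * uu s2 z2 a)
    (fun a ha => And.intro ha.1.dm_ge (And.intro ha.2.1.dm_ge ha.2.2.dm_ge))
    (M := (1 + s0 * s1 * sig z0 z1) * (1 + s0 * s2 * sig z0 z2) * (1 + s1 * s2 * sig z1 z2) / 2)
    (by positivity)
    (fun a ha => by
      rw [tri_id (uu_sq h0 ha.1) (uu_sq h1 ha.2.1) (uu_sq h2 ha.2.2),
        uu_mul I.hm _ _ ha.1 ha.2.1 d01, uu_mul I.hm _ _ ha.1 ha.2.2 d02,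
        uu_mul I.hm _ _ ha.2.1 ha.2.2 d12]) (I.g3 _ _ _ d01 d02 d12)
  rw [three_eq n0 n1 n2]
  have hr := I.r1
  have hc := I.hc
  have hc0 := c0_nonneg (F := F)
  refine (mul_le_mul (b := (r * (Fintype.card F : ℝ) ^ 15) ^ 3) (by gcongr) k
    (three_pos h0 h1 h2 _ _ _) (by positivity)).trans (le_of_eq ?_)
  field_simp

theorem three_sing (I : Inp F r C) {s0 s1 s2 : ℝ} (h0 : s0 * s0 = 1) (h1 : s1 * s1 = 1)
    (h2 : s2 * s2 = 1) (z0 z1 z2 : YY F) :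
    ex (fun y => Wk s0 z0 y * Wk s1 z1 y * Wk s2 z2 y) ≤
      (1 + 32 * C) * (Fintype.card F : ℝ) ^ exT z0.1 z1.1 z2.1 := by
  have n0 : s0 ≠ 0 := by rintro rfl; simp at h0
  have n1 : s1 ≠ 0 := by rintro rfl; simp at h1
  have n2 : s2 ≠ 0 := by rintro rfl; simp at h2
  have hq : (0 : ℝ) < Fintype.card F := card_pos'
  have k := ex_ind_le (P := fun a => InO (z0.1 - a) ∧ InO (z1.1 - a) ∧ InO (z2.1 - a))
    (g := fun a => 1 + uu s0 z0 a * uu s1 z1 a + uu s0 z0 a * uu s2 z2 a + uu s1 z1 a * uu s2 z2 a)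
    (fun a ha => And.intro ha.1.dm_ge (And.intro ha.2.1.dm_ge ha.2.2.dm_ge))
    (M := 4) (by norm_num)
    (fun a ha => (three_nonneg (uu_sq h0 ha.1) (uu_sq h1 ha.2.1) (uu_sq h2 ha.2.2)).2)
    (I.s3 _ _ _)
  rw [three_eq n0 n1 n2]
  have hc : c0 F ≤ 2 * (Fintype.card F : ℝ) ^ 15 := I.hc.trans (by gcongr; exact I.r2)
  have hc0 := c0_nonneg (F := F)
  have hC := I.C0
  refine (mul_le_mul (b := (2 * (Fintype.card F : ℝ) ^ 15) ^ 3) (by gcongr) k
    (three_pos h0 h1 h2 _ _ _) (by positivity)).trans ?_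
  calc _ = (32 * C) * (Fintype.card F : ℝ) ^ exT z0.1 z1.1 z2.1 := by
        rw [pow_add]; field_simp; ring
    _ ≤ _ := by gcongr; linarith

theorem Wk_zero (z y : YY F) : Wk 0 z y = 1 := by simp [Wk]

theorem face_gen (I : Inp F r C) {s0 s1 s2 : ℝ} (h0 : S3 s0) (h1 : S3 s1) (h2 : S3 s2)
    (z0 z1 z2 : YY F) (d01 : dm z0.1 z1.1 = 0) (d02 : dm z0.1 z2.1 = 0)
    (d12 : dm z1.1 z2.1 = 0) :
    ex (fun y => Wk s0 z0 y * Wk s1 z1 y * Wk s2 z2 y) ≤ r ^ 4 * ((1 + s0 * s1 * sig z0 z1) *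
      (1 + s0 * s2 * sig z0 z2) * (1 + s1 * s2 * sig z1 z2)) := by
  have hr : 1 ≤ r ^ 4 := one_le_pow₀ I.r1
  have hd := fun s (z : YY F) => Wk_deg I.hO s z
  rcases h0 with rfl | h0 <;> rcases h1 with rfl | h1 <;> rcases h2 with rfl | h2
  · simpa [Wk_zero, ex_const] using hr
  · simpa [Wk_zero, hd] using hr
  · simpa [Wk_zero, hd] using hr
  · simpa [Wk_zero] using two_gen I h1 h2 z1 z2 d12
  · simpa [Wk_zero, hd] using hr
  · simpa [Wk_zero] using two_gen I h0 h2 z0 z2 d02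
  · simpa [Wk_zero] using two_gen I h0 h1 z0 z1 d01
  · exact three_gen I h0 h1 h2 z0 z1 z2 d01 d02 d12

theorem face_sing (I : Inp F r C) {s0 s1 s2 : ℝ} (h0 : S3 s0) (h1 : S3 s1) (h2 : S3 s2)
    (z0 z1 z2 : YY F) :
    ex (fun y => Wk s0 z0 y * Wk s1 z1 y * Wk s2 z2 y) ≤
      (1 + 32 * C) * (Fintype.card F : ℝ) ^ exT z0.1 z1.1 z2.1 := by
  have hq2 : (2 : ℝ) ≤ Fintype.card F := two_le_q
  have hC := I.C0
  have hr : 1 ≤ (1 + 32 * C) * (Fintype.card F : ℝ) ^ exT z0.1 z1.1 z2.1 :=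
    one_le_mul_of_one_le_of_one_le (by linarith) (one_le_pow₀ (by linarith))
  have hd := fun s (z : YY F) => Wk_deg I.hO s z
  obtain ⟨p1, p2, p3, p4⟩ := pat_facts z0.1 z1.1 z2.1
  rw [card_II] at p4
  have hk := allP_spec chk2' (tm z0.1 z1.1 z2.1) (dm z0.1 z1.1 - tm z0.1 z1.1 z2.1)
    (dm z0.1 z2.1 - tm z0.1 z1.1 z2.1) (dm z1.1 z2.1 - tm z0.1 z1.1 z2.1) (by omega)
  simp only [Bool.and_eq_true, Nat.ble_eq] at hk
  rw [Nat.add_sub_cancel' p1, Nat.add_sub_cancel' p2, Nat.add_sub_cancel' p3] at hk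
  rcases h0 with rfl | h0 <;> rcases h1 with rfl | h1 <;> rcases h2 with rfl | h2
  · simpa [Wk_zero, ex_const] using hr
  · simpa [Wk_zero, hd] using hr
  · simpa [Wk_zero, hd] using hr
  · simpa [Wk_zero] using two_sing I h1 h2 z1 z2 (exT z0.1 z1.1 z2.1) hk.2.2
  · simpa [Wk_zero, hd] using hr
  · simpa [Wk_zero] using two_sing I h0 h2 z0 z2 (exT z0.1 z1.1 z2.1) hk.2.1
  · simpa [Wk_zero] using two_sing I h0 h1 z0 z1 (exT z0.1 z1.1 z2.1) hk.1
  · exact three_sing I h0 h1 h2 z0 z1 z2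

end

end Vale.Agent.P050
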