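import Mathlib

/-! Lagrangian subspaces, reduction, and fibre counting. -/

namespace Vale.Agent.P050

open Module Submodule

noncomputable section

/-- real-valued cardinality of a predicate -/
def cnt {α : Type} (P : α → Prop) : ℝ := (Set.ncard {a | P a} : ℝ)

theorem cnt_nonneg {α : Type} (P : α → Prop) : 0 ≤ cnt P := Nat.cast_nonneg _

theorem cnt_mono {α : Type} [Finite α] {P Q : α → Prop} (h : ∀ a, P a → Q a) : cnt P ≤ cnt Q := by
  unfold cnt
  exact_mod_cast Set.ncard_le_ncard (fun a ha => h a ha) (Set.toFinite _)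

theorem cnt_le_add {α : Type} [Finite α] {P Q R : α → Prop} (h : ∀ a, P a → Q a ∨ R a) :
    cnt P ≤ cnt Q + cnt R := by
  unfold cnt
  have h1 : Set.ncard {a | P a} ≤ Set.ncard ({a | Q a} ∪ {a | R a}) :=
    Set.ncard_le_ncard (fun a ha => h a ha) (Set.toFinite _)
  exact_mod_cast h1.trans (Set.ncard_union_le _ _)

theorem cnt_eq_zero {α : Type} {P : α → Prop} (h : ∀ a, ¬ P a) : cnt P = 0 := by
  unfold cnt
  have : {a | P a} = ∅ := by ext a; simp [h a]
  simp [this]

theorem cnt_le_one {α : Type} [Finite α] {P : α → Prop} (h : ∀ a b, P a → P b → a = b) :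
    cnt P ≤ 1 := by
  unfold cnt
  have : Set.ncard {a | P a} ≤ 1 := by
    rw [Set.ncard_le_one_iff_subsingleton]
    intro a ha b hb
    exact h a b ha hb
  exact_mod_cast this

theorem one_le_cnt {α : Type} [Finite α] {P : α → Prop} (a : α) (h : P a) : 1 ≤ cnt P := by
  unfold cnt
  have : 0 < Set.ncard {a | P a} := (Set.ncard_pos (Set.toFinite _)).2 ⟨a, h⟩
  exact_mod_cast this

theorem cnt_eq_sum {α : Type} [Fintype α] (P : α → Prop) [DecidablePred P] :
    cnt P = ∑ a, if P a then (1 : ℝ) else 0 := by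
  unfold cnt
  rw [Finset.sum_boole]
  congr 1
  rw [← Set.ncard_coe_finset]
  congr 1
  ext a; simp

theorem cnt_split {α : Type} [Finite α] (P Q : α → Prop) :
    cnt P = cnt (fun a => P a ∧ Q a) + cnt (fun a => P a ∧ ¬ Q a) := by
  classical
  have := Fintype.ofFinite α
  simp only [cnt_eq_sum, ← Finset.sum_add_distrib]
  apply Finset.sum_congr rfl
  intro a _
  by_cases h1 : P a <;> by_cases h2 : Q a <;> simp [h1, h2]

/-- double counting with two classes -/
theorem dc2 {α β : Type} [Finite α] [Finite β] (S : α → Prop) (T T' : β → Prop)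
    (r : α → β → Prop) (m n0 n1 : ℝ) (h0 : 0 ≤ n0) (h1 : 0 ≤ n1)
    (hm : ∀ a, S a → m ≤ cnt (fun b => T b ∧ r a b))
    (hn : ∀ b, T b → cnt (fun a => S a ∧ r a b) ≤ n0 ∨
      (T' b ∧ cnt (fun a => S a ∧ r a b) ≤ n1)) :
    cnt S * m ≤ cnt T * n0 + cnt T' * n1 := by
  classical
  have := Fintype.ofFinite α
  have := Fintype.ofFinite β
  have e1 : cnt S * m ≤ ∑ a, ∑ b, if S a ∧ T b ∧ r a b then (1 : ℝ) else 0 := by
    rw [cnt_eq_sum, Finset.sum_mul]
    apply Finset.sum_le_sum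
    intro a _
    by_cases ha : S a
    · have := hm a ha
      rw [cnt_eq_sum] at this
      simpa [ha] using this
    · simp [ha]
  refine e1.trans ?_
  rw [Finset.sum_comm, cnt_eq_sum, cnt_eq_sum, Finset.sum_mul, Finset.sum_mul,
    ← Finset.sum_add_distrib]
  apply Finset.sum_le_sum
  intro b _
  by_cases hb : T b
  · have e2 : (∑ a, if S a ∧ T b ∧ r a b then (1 : ℝ) else 0) = cnt (fun a => S a ∧ r a b) := by
      rw [cnt_eq_sum]; simp [hb]
    rw [e2]
    rcases hn b hb with h | ⟨h', h⟩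
    · have : 0 ≤ (if T' b then (1 : ℝ) else 0) * n1 := by positivity
      simp only [hb, if_true]; linarith
    · simp only [hb, h', if_true]; linarith
  · have : 0 ≤ (if T' b then (1 : ℝ) else 0) * n1 := by positivity
    simp [hb]
    split_ifs <;> simp [h1]

theorem dc {α β : Type} [Finite α] [Finite β] (S : α → Prop) (T : β → Prop)
    (r : α → β → Prop) (m n0 : ℝ) (h0 : 0 ≤ n0)
    (hm : ∀ a, S a → m ≤ cnt (fun b => T b ∧ r a b))
    (hn : ∀ b, T b → cnt (fun a => S a ∧ r a b) ≤ n0) :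
    cnt S * m ≤ cnt T * n0 := by
  have := dc2 S T (fun _ => False) r m n0 0 h0 le_rfl hm (fun b hb => Or.inl (hn b hb))
  simpa using this

/-- fibre counting -/
theorem cnt_fib {α β : Type} [Finite α] [Finite β] (S : α → Prop) (T : β → Prop)
    (f : α → β) (n0 : ℝ) (h0 : 0 ≤ n0) (hm : ∀ a, S a → T (f a))
    (hn : ∀ b, T b → cnt (fun a => S a ∧ f a = b) ≤ n0) : cnt S ≤ n0 * cnt T := by
  have := dc S T (fun a b => f a = b) 1 n0 h0
    (fun a ha => one_le_cnt (f a) ⟨hm a ha, rfl⟩) hn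
  linarith

variable {F V : Type} [Field F] [AddCommGroup V] [Module F V]

/-- Lagrangian subspace -/
def Lag (B : LinearMap.BilinForm F V) (L : Submodule F V) : Prop :=
  ∀ v, v ∈ L ↔ ∀ x ∈ L, B x v = 0

/-- reduction at a vector -/
def red (B : LinearMap.BilinForm F V) (u : V) (L : Submodule F V) : Submodule F V :=
  (L ⊓ LinearMap.ker (B u)) ⊔ F ∙ u

variable {B : LinearMap.BilinForm F V}

theorem Lag.iso {L : Submodule F V} (h : Lag B L) {x y : V} (hx : x ∈ L) (hy : y ∈ L) :
    B x y = 0 := (h y).1 hy x hx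

theorem mem_red {u v : V} {L : Submodule F V} :
    v ∈ red B u L ↔ ∃ x ∈ L, B u x = 0 ∧ ∃ s : F, v = x + s • u := by
  unfold red
  rw [Submodule.mem_sup]
  constructor
  · rintro ⟨x, hx, z, hz, rfl⟩
    obtain ⟨s, rfl⟩ := Submodule.mem_span_singleton.1 hz
    exact ⟨x, hx.1, hx.2, s, rfl⟩
  · rintro ⟨x, hx, h0, s, rfl⟩
    exact ⟨x, ⟨hx, h0⟩, s • u, Submodule.mem_span_singleton.2 ⟨s, rfl⟩, rfl⟩

theorem self_mem_red {u : V} {L : Submodule F V} : u ∈ red B u L :=
  mem_red.2 ⟨0, L.zero_mem, by simp, 1, by simp⟩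

theorem mem_red_of {u x : V} {L : Submodule F V} (hx : x ∈ L) (h0 : B u x = 0) :
    x ∈ red B u L := mem_red.2 ⟨x, hx, h0, 0, by simp⟩

theorem skew (hB : B.IsAlt) (x y : V) : B x y = - B y x := by
  have := hB.neg_eq y x
  exact this.symm

theorem Lag.red (hB : B.IsAlt) {L : Submodule F V} (h : Lag B L) (u : V) :
    Lag B (red B u L) := by
  intro v
  constructor
  · intro hv x hx
    obtain ⟨a, ha, ha0, s, rfl⟩ := mem_red.1 hv
    obtain ⟨b, hb, hb0, t, rfl⟩ := mem_red.1 hx
    have h1 := h.iso hb ha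
    have h2 := skew hB b u
    have h3 := hB u
    simp only [map_add, map_smul, LinearMap.add_apply, LinearMap.smul_apply, smul_eq_mul]
    rw [h1, h2, hb0, ha0, h3]; ring
  · intro hv
    have huv : B u v = 0 := hv u self_mem_red
    by_cases hu : ∀ x ∈ L, B x u = 0
    · apply mem_red_of _ huv
      rw [h v]
      intro x hx
      apply hv
      apply mem_red_of hx
      rw [skew hB, hu x hx]; simp
    · push Not at hu
      obtain ⟨z, hz, hzu⟩ := hu
      refine mem_red.2 ⟨v - (B z v / B z u) • u, ?_, ?_, B z v / B z u, by simp⟩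
      · rw [h]
        intro x hx
        have h1 := hv (x - (B x u / B z u) • z) (mem_red_of (L.sub_mem hx (L.smul_mem _ hz)) (by
          simp only [map_sub, map_smul, smul_eq_mul]
          rw [skew hB u x, skew hB u z]; field_simp; ring))
        simp only [map_sub, map_smul, LinearMap.sub_apply, LinearMap.smul_apply,
          smul_eq_mul] at h1 ⊢
        have : B x v = B x u / B z u * B z v := by linear_combination h1
        rw [this]; field_simp; ring
      · simp only [map_sub, map_smul, smul_eq_mul]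
        rw [huv, hB u]; ring

theorem Lag.eq_of_le {L M : Submodule F V} (hL : Lag B L) (hM : Lag B M) (h : L ≤ M) : L = M := by
  apply le_antisymm h
  intro v hv
  rw [hL]
  intro x hx
  exact hM.iso (h hx) hv

theorem Lag.red_red (hB : B.IsAlt) {y : Submodule F V} (h : Lag B y) {u z : V} (hz : z ∈ y)
    (huz : B u z ≠ 0) : y = P050.red B z (P050.red B u y) := by
  apply h.eq_of_le ((h.red hB u).red hB z)
  intro x hx
  have hm : x - (B u x / B u z) • z ∈ y := y.sub_mem hx (y.smul_mem _ hz)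
  refine mem_red.2 ⟨x - (B u x / B u z) • z, mem_red_of hm ?_, h.iso hz hm, B u x / B u z, by simp⟩
  simp only [map_sub, map_smul, smul_eq_mul]
  field_simp; ring

theorem Lag.red_eq_self {L : Submodule F V} (hB : B.IsAlt) (h : Lag B L) {u : V} (hu : u ∈ L) :
    P050.red B u L = L := by
  symm
  apply h.eq_of_le (h.red hB u)
  intro x hx
  exact mem_red_of hx (h.iso hu hx)

theorem Lag.exists_ne {L : Submodule F V} (hB : B.IsAlt) (h : Lag B L) {u : V} (hu : u ∉ L) :
    ∃ z ∈ L, B u z ≠ 0 := by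
  rw [h] at hu
  push Not at hu
  obtain ⟨z, hz, h0⟩ := hu
  refine ⟨z, hz, ?_⟩
  rw [skew hB]; simpa using h0

variable [FiniteDimensional F V]

theorem Lag.finrank (hN : B.Nondegenerate) {L : Submodule F V} (h : Lag B L) :
    2 * finrank F L = finrank F V := by
  have h1 : B.orthogonal L = L := by
    ext v; rw [LinearMap.BilinForm.mem_orthogonal_iff]; exact (h v).symm
  have h2 := LinearMap.BilinForm.finrank_orthogonal hN L
  rw [h1] at h2
  have := Submodule.finrank_le L
  omega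

theorem finrank_inf_ker (U : Submodule F V) (φ : V →ₗ[F] F) {z : V} (hz : z ∈ U) (h0 : φ z ≠ 0) :
    finrank F (U ⊓ LinearMap.ker φ : Submodule F V) + 1 = finrank F U := by
  have h1 : z ∉ U ⊓ LinearMap.ker φ := fun h => h0 h.2
  rw [← Submodule.finrank_sup_span_singleton h1]
  suffices h : (U ⊓ LinearMap.ker φ) ⊔ F ∙ z = U by rw [h]
  apply le_antisymm
  · exact sup_le inf_le_left ((Submodule.span_singleton_le_iff_mem _ _).2 hz)
  · intro x hx
    rw [Submodule.mem_sup]
    refine ⟨x - (φ x / φ z) • z, ⟨U.sub_mem hx (U.smul_mem _ hz), ?_⟩, (φ x / φ z) • z,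
      Submodule.mem_span_singleton.2 ⟨_, rfl⟩, by simp⟩
    simp only [SetLike.mem_coe, LinearMap.mem_ker, map_sub, map_smul, smul_eq_mul]
    field_simp; ring

variable [Fintype F]

theorem cnt_mem (U : Submodule F V) :
    cnt (fun v => v ∈ U) = (Fintype.card F : ℝ) ^ finrank F U := by
  unfold cnt
  have : Set.ncard {a | a ∈ U} = Nat.card U := by
    rw [← Nat.card_coe_set_eq]; rfl
  rw [this, Module.natCard_eq_pow_finrank (K := F), Nat.card_eq_fintype_card]
  push_cast; rfl

theorem two_le_q : (2 : ℝ) ≤ (Fintype.card F : ℝ) := by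
  have : 1 < Fintype.card F := Fintype.one_lt_card
  exact_mod_cast this

theorem cnt_diff {U W : Submodule F V} (h : W ≤ U) :
    cnt (fun v => v ∈ U ∧ v ∉ W) =
      (Fintype.card F : ℝ) ^ finrank F U - (Fintype.card F : ℝ) ^ finrank F W := by
  have : Finite V := Module.finite_of_finite F
  have h1 := cnt_split (fun v => v ∈ U) (fun v => v ∈ W)
  have h2 : (fun v => v ∈ U ∧ v ∈ W) = (fun v => v ∈ W) := by
    ext v; exact ⟨fun h' => h'.2, fun h' => ⟨h h', h'⟩⟩
  rw [h2, cnt_mem, cnt_mem] at h1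
  linarith

theorem cnt_nz (U : Submodule F V) (φ : V →ₗ[F] F) {z : V} (hz : z ∈ U) (h0 : φ z ≠ 0) :
    (Fintype.card F : ℝ) * cnt (fun v => v ∈ U ∧ φ v ≠ 0) =
      ((Fintype.card F : ℝ) - 1) * (Fintype.card F : ℝ) ^ finrank F U := by
  have h1 := cnt_diff (U := U) (W := U ⊓ LinearMap.ker φ) inf_le_left
  have h2 : (fun v => v ∈ U ∧ v ∉ U ⊓ LinearMap.ker φ) = (fun v => v ∈ U ∧ φ v ≠ 0) := by
    ext v; simp only [Submodule.mem_inf, LinearMap.mem_ker]; tauto
  rw [h2] at h1
  rw [h1, ← finrank_inf_ker U φ hz h0]; ring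

/-- The fibre lemma. -/
theorem fib (hB : B.IsAlt) (u : V) (Z y' : Submodule F V) (j : ℕ) :
    cnt (fun y => Lag B y ∧ red B u y = y' ∧ (∃ z ∈ y ⊓ Z, B u z ≠ 0) ∧
      j ≤ finrank F (y ⊓ Z : Submodule F V)) ≤ (Fintype.card F : ℝ) ^ (finrank F Z - j) := by
  have : Finite V := Module.finite_of_finite F
  set q := (Fintype.card F : ℝ) with hq
  have hq2 : 2 ≤ q := two_le_q
  set S := fun y => Lag B y ∧ red B u y = y' ∧ (∃ z ∈ y ⊓ Z, B u z ≠ 0) ∧
      j ≤ finrank F (y ⊓ Z : Submodule F V) with hS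
  by_cases hne : ∃ y, S y
  swap
  · rw [cnt_eq_zero (fun a ha => hne ⟨a, ha⟩)]; positivity
  obtain ⟨y0, -, -, ⟨z0, hz0, hz0'⟩, hj⟩ := hne
  have hjZ : j ≤ finrank F Z := hj.trans (Submodule.finrank_mono inf_le_right)
  have key := dc S (fun v => v ∈ Z ∧ B u v ≠ 0) (fun y v => v ∈ y) ((q - 1) * q ^ j / q) 1
    zero_le_one ?_ ?_
  · have h2 := cnt_nz Z (B u) hz0.2 hz0'
    rw [← hq] at h2
    have h3 : q ^ finrank F Z = q ^ (finrank F Z - j) * q ^ j := by
      rw [← pow_add]; congr 1; omega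
    have h4 : 0 < (q - 1) * q ^ j / q := by
      have : 0 < q - 1 := by linarith
      positivity
    have h5 : cnt (fun v => v ∈ Z ∧ B u v ≠ 0) = q ^ (finrank F Z - j) * ((q - 1) * q ^ j / q) := by
      field_simp
      rw [h3] at h2
      linarith
    rw [h5, mul_one] at key
    exact le_of_mul_le_mul_right key h4
  · rintro y ⟨-, -, ⟨z, hz, hz'⟩, hj⟩
    have h2 := cnt_nz (y ⊓ Z) (B u) hz hz'
    rw [← hq] at h2
    have h3 : (fun v => v ∈ y ⊓ Z ∧ B u v ≠ 0) = (fun b => (b ∈ Z ∧ B u b ≠ 0) ∧ b ∈ y) := by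
      ext v; simp only [Submodule.mem_inf]; tauto
    rw [h3] at h2
    rw [div_le_iff₀ (by linarith)]
    have h4 : q ^ j ≤ q ^ finrank F (y ⊓ Z : Submodule F V) := pow_le_pow_right₀ (by linarith) hj
    have : 0 ≤ q - 1 := by linarith
    nlinarith
  · rintro v ⟨-, hv⟩
    apply cnt_le_one
    rintro a b ⟨⟨ha, ha', -⟩, hva⟩ ⟨⟨hb, hb', -⟩, hvb⟩
    rw [ha.red_red hB hva hv, hb.red_red hB hvb hv, ha', hb']

end

end Vale.Agent.P050
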