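import Vale.Agent.P050.Sym
import Vale.Agent.P050.Ex

/-! The orbit of half-rank symmetric matrices. -/

namespace Vale.Agent.P050

open Module Matrix

noncomputable section

/-- index type of size ten -/
abbrev II : Type := Fin 5 ⊕ Fin 5

theorem card_II : Fintype.card II = 10 := by simp

variable {F : Type} [Field F] [Fintype F] [DecidableEq F]

/-- real-valued quadratic character -/
def chi (t : F) : ℝ := ((quadraticChar F t : ℤ) : ℝ)

theorem chi_mul (s t : F) : chi (s * t) = chi s * chi t := by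
  unfold chi; rw [map_mul]; push_cast; rfl

theorem chi_sq {t : F} (h : t ≠ 0) : chi t * chi t = 1 := by
  unfold chi
  have := quadraticChar_sq_one h
  rw [sq] at this
  exact_mod_cast this

theorem chi_zero : chi (0 : F) = 0 := by simp [chi]

theorem abs_chi_le (t : F) : |chi t| ≤ 1 := by
  by_cases h : t = 0
  · simp [h, chi_zero]
  · have := chi_sq h
    rw [← sq_le_one_iff_abs_le_one, sq, this]

theorem chi_neg (hm : chi (-1 : F) = 1) (t : F) : chi (-t) = chi t := by
  rw [← neg_one_mul, chi_mul, hm, one_mul]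

def vm (Y : Matrix (Fin 5) (Fin 5) F) : Matrix II (Fin 5) F := fromRows 1 Y

/-- the connection set -/
def InO (a : Sym2 II → F) : Prop :=
  ∃ (P : Sym2 (Fin 5) → F) (Y : Matrix (Fin 5) (Fin 5) F),
    (toM P).det ≠ 0 ∧ toM a = vm Y * toM P * (vm Y)ᵀ

/-- the type of an element of the connection set -/
def tau (a : Sym2 II → F) : ℝ := chi (toM a).toBlocks₁₁.det

omit [Fintype F] [DecidableEq F] in
theorem blocks_eq (P Y : Matrix (Fin 5) (Fin 5) F) :
    vm Y * P * (vm Y)ᵀ = fromBlocks P (P * Yᵀ) (Y * P) (Y * P * Yᵀ) := by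
  unfold vm
  rw [transpose_fromRows, fromRows_mul, fromRows_mul_fromCols]
  simp

theorem tau_eq {a : Sym2 II → F} {P Y : Matrix (Fin 5) (Fin 5) F}
    (h : toM a = vm Y * P * (vm Y)ᵀ) : tau a = chi P.det := by
  unfold tau; rw [h, blocks_eq, toBlocks_fromBlocks₁₁]

theorem InO.tau_sq {a : Sym2 II → F} (h : InO a) : tau a * tau a = 1 := by
  obtain ⟨P, Y, h1, h2⟩ := h
  rw [tau_eq h2]; exact chi_sq h1

theorem abs_tau_le (a : Sym2 II → F) : |tau a| ≤ 1 := abs_chi_le _

omit [Fintype F] [DecidableEq F] in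
theorem toM_neg {ι : Type} (x : Sym2 ι → F) : toM (-x) = - toM x := rfl

omit [Fintype F] [DecidableEq F] in
theorem InO.neg {a : Sym2 II → F} (h : InO a) : InO (-a) := by
  obtain ⟨P, Y, h1, h2⟩ := h
  refine ⟨-P, Y, ?_, ?_⟩
  · rw [toM_neg, det_neg]; exact mul_ne_zero (by simp) h1
  · rw [toM_neg, toM_neg, h2]; simp

theorem tau_neg (hm : chi (-1 : F) = 1) (a : Sym2 II → F) : tau (-a) = tau a := by
  unfold tau
  have : (toM (-a)).toBlocks₁₁ = - (toM a).toBlocks₁₁ := rfl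
  rw [this, det_neg]
  have : (-1 : F) ^ Fintype.card (Fin 5) = -1 := by simp; norm_num
  rw [this, neg_one_mul, chi_neg hm]

omit [Fintype F] [DecidableEq F] in
theorem InO.dm_ge {x y : Sym2 II → F} (h : InO (x - y)) : 5 ≤ dm y x := by
  obtain ⟨P, Y, -, h2⟩ := h
  let u : (Fin 5 → F) →ₗ[F] (II → F) := (fromRows (-Yᵀ) 1 : Matrix II (Fin 5) F).mulVecLin
  let φ : (Fin 5 → F) →ₗ[F] (II → F) × (II → F) := u.prod ((toM x).mulVecLin ∘ₗ u)
  have hφ : ∀ w, φ w ∈ gr y ⊓ gr x := by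
    intro w
    refine ⟨mem_gr.2 ?_, mem_gr.2 rfl⟩
    change toM x *ᵥ u w = toM y *ᵥ u w
    rw [← sub_eq_zero, ← sub_mulVec, ← toM_sub, h2]
    change _ *ᵥ ((fromRows (-Yᵀ) 1 : Matrix II (Fin 5) F) *ᵥ w) = 0
    rw [mulVec_mulVec, Matrix.mul_assoc, vm, transpose_fromRows, fromCols_mul_fromRows]
    simp
  have hinj : Function.Injective (φ.codRestrict _ hφ) := by
    intro a b hab
    have h1 : u a = u b := congrArg (fun v => v.1.1) hab
    ext i
    have h3 := congrFun h1 (Sum.inr i)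
    simpa [u, fromRows_mulVec] using h3
  have := LinearMap.finrank_le_finrank_of_injective hinj
  simpa [dm] using this

theorem det_id (hm : chi (-1 : F) = 1) {a b : Sym2 II → F} (ha : InO a) (hb : InO b)
    (h : (toM (a - b)).det ≠ 0) : chi (toM (a - b)).det = tau a * tau b := by
  obtain ⟨P, Y, -, h2⟩ := ha
  obtain ⟨P', Y', -, h2'⟩ := hb
  have e : toM (a - b) = (fromCols (vm Y) (vm Y') : Matrix II II F) *
      fromBlocks (toM P) 0 0 (-toM P') * (fromCols (vm Y) (vm Y') : Matrix II II F)ᵀ := by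
    rw [toM_sub, h2, h2', fromCols_mul_fromBlocks, transpose_fromCols, fromCols_mul_fromRows]
    simp [sub_eq_add_neg]
  rw [e, det_mul, det_mul, det_transpose, det_fromBlocks_zero₂₁, det_neg] at h ⊢
  have h3 : (fromCols (vm Y) (vm Y') : Matrix II II F).det ≠ 0 := fun h0 => h (by rw [h0]; simp)
  have : (-1 : F) ^ Fintype.card (Fin 5) = -1 := by simp; norm_num
  rw [this, tau_eq h2, tau_eq h2', chi_mul, chi_mul, chi_mul, neg_one_mul, chi_neg hm]
  linear_combination (chi (toM P).det * chi (toM P').det) * chi_sq h3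

omit [DecidableEq F] in
theorem cnt_O : ((Fintype.card F : ℝ) ^ 15 - cnt (fun P : Sym2 (Fin 5) → F => (toM P).det = 0)) *
    (Fintype.card F : ℝ) ^ 25 ≤ cnt (InO (F := F)) := by
  classical
  have hs : ∀ (p : (Sym2 (Fin 5) → F) × Matrix (Fin 5) (Fin 5) F) (i j : II),
      (vm p.2 * toM p.1 * (vm p.2)ᵀ) i j = (vm p.2 * toM p.1 * (vm p.2)ᵀ) j i := by
    intro p i j
    rw [← transpose_apply (vm p.2 * toM p.1 * (vm p.2)ᵀ) i j, transpose_mul, transpose_mul,
      transpose_transpose, toM_T, Matrix.mul_assoc]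
  let mk : (Sym2 (Fin 5) → F) × Matrix (Fin 5) (Fin 5) F → Sym2 II → F :=
    fun p => Sym2.lift ⟨fun i j => (vm p.2 * toM p.1 * (vm p.2)ᵀ) i j, hs p⟩
  have hmk : ∀ p, toM (mk p) = vm p.2 * toM p.1 * (vm p.2)ᵀ := fun p => rfl
  have h1 := cnt_fib (fun p : (Sym2 (Fin 5) → F) × Matrix (Fin 5) (Fin 5) F => (toM p.1).det ≠ 0)
    (InO (F := F)) mk 1 zero_le_one (fun p hp => ⟨p.1, p.2, hp, hmk p⟩) (fun b _ => cnt_le_one (by
      rintro ⟨P, Y⟩ ⟨P', Y'⟩ ⟨h1, h2⟩ ⟨-, h2'⟩
      have h3 := (hmk (P, Y)).symm.trans ((congrArg toM (h2.trans h2'.symm)).trans (hmk (P', Y')))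
      rw [blocks_eq, blocks_eq, fromBlocks_inj] at h3
      obtain ⟨e1, -, e2, -⟩ := h3
      have e3 : P = P' := toM_inj e1
      subst e3
      have hu : IsUnit (toM P) := (isUnit_iff_isUnit_det _).2 (isUnit_iff_ne_zero.2 h1)
      have e4 : Y = Y' := hu.mul_right_cancel e2
      rw [e4]))
  rw [one_mul] at h1
  refine le_trans (le_of_eq ?_) h1
  have h2 := cnt_split (fun _ : Sym2 (Fin 5) → F => True) (fun P => (toM P).det = 0)
  simp only [true_and] at h2
  have h3 : cnt (fun _ : Sym2 (Fin 5) → F => True) = (Fintype.card F : ℝ) ^ 15 := by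
    rw [cnt_eq_sum]
    simp [Sym2.card]
    norm_num [Nat.choose]
  rw [← h3, h2, add_sub_cancel_left, cnt_eq_sum, cnt_eq_sum, Fintype.sum_prod_type, Finset.sum_mul]
  apply Finset.sum_congr rfl
  intro P _
  have h4 : Fintype.card (Matrix (Fin 5) (Fin 5) F) = Fintype.card F ^ 25 := by
    change Fintype.card (Fin 5 → Fin 5 → F) = _
    simp [← pow_mul]
  by_cases hP : (toM P).det = 0 <;> simp [hP, h4]

end

end Vale.Agent.P050
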