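import Vale.Agent.P050.Kern

/-! Quasirandomness of the discriminant character. -/

namespace Vale.Agent.P050

open Module Matrix

noncomputable section

variable {F : Type} [Field F] [Fintype F] [DecidableEq F]

theorem chi_corr (hF : ringChar F ≠ 2) {u v : F} (h : u ≠ v) :
    |∑ t : F, chi (t + u) * chi (t + v)| ≤ 1 := by
  have hd : v - u ≠ 0 := sub_ne_zero.2 h.symm
  have hJ := jacobiSum_nontrivial_inv (quadraticChar_ne_one hF)
  rw [(quadraticChar_isQuadratic F).inv, jacobiSum] at hJ
  have hJ' : ∑ x : F, chi x * chi (1 - x) = - chi (-1 : F) := by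
    unfold chi; exact_mod_cast hJ
  let e : F ≃ F := (Equiv.mulLeft₀ (-(v - u)) (neg_ne_zero.2 hd)).trans (Equiv.subRight u)
  rw [← Equiv.sum_comp e]
  have : ∀ x, chi (e x + u) * chi (e x + v) = chi (-1 : F) * (chi x * chi (1 - x)) := by
    intro x
    have e1 : e x + u = (-1) * (v - u) * x := by simp [e]
    have e2 : e x + v = (v - u) * (1 - x) := by simp [e]; ring
    rw [e1, e2, chi_mul, chi_mul, chi_mul]
    linear_combination (chi (-1 : F) * chi x * chi (1 - x)) * chi_sq hd
  simp only [this]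
  rw [← Finset.mul_sum, hJ', mul_neg, chi_sq (by simp)]
  simp

theorem sq_ex_le {Ω : Type} [Fintype Ω] [Nonempty Ω] (f : Ω → ℝ) :
    ex f ^ 2 ≤ ex (fun ω => f ω ^ 2) := by
  have h1 : 0 ≤ ex (fun ω => (f ω - ex f) ^ 2) := ex_nonneg fun _ => sq_nonneg _
  have h2 : ex (fun ω => (f ω - ex f) ^ 2) =
      ex (fun ω => f ω ^ 2 + ((-2 * ex f) * f ω + ex f ^ 2)) := ex_congr fun _ => by ring
  rw [h2, ex_add, ex_add, ex_mul_left, ex_const] at h1
  nlinarith

theorem paley (hF : ringChar F ≠ 2) (r : F) (a b : F → ℝ) (ha : ∀ t, |a t| ≤ 1)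
    (hb : ∀ t, |b t| ≤ 1) {δ : ℝ} (h0 : 0 ≤ δ) (hδ : 2 / Fintype.card F ≤ δ ^ 2) :
    |ex (fun t => ex (fun t' => chi (t - t' + r) * a t * b t'))| ≤ δ := by
  have hq : (0 : ℝ) < Fintype.card F := card_pos'
  let S : F → ℝ := fun t => ex (fun t' => chi (t - t' + r) * b t')
  have h1 : ∀ t, ex (fun t' => chi (t - t' + r) * a t * b t') = a t * S t := by
    intro t
    rw [← ex_mul_left]; exact ex_congr fun _ => by ring
  simp only [h1]
  have h2 : ex (fun t => S t ^ 2) ≤ 2 / Fintype.card F := by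
    have e1 : ∀ t, S t ^ 2 = ex (fun p : F × F =>
        (chi (t - p.1 + r) * b p.1) * (chi (t - p.2 + r) * b p.2)) := by
      intro t
      rw [ex_mul_ex (fun t' => chi (t - t' + r) * b t') (fun t' => chi (t - t' + r) * b t'), sq]
    simp only [e1]
    rw [ex_comm]
    have e2 : ex (fun p : F × F => ind (p.2 = p.1) + 1 / Fintype.card F) = 2 / Fintype.card F := by
      rw [ex_add, ex_const, ex_prod]
      have : ∀ x : F, ex (fun y : F => ind (y = x)) = 1 / Fintype.card F := by
        intro x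
        rw [ex_ind, cnt_eq_sum]; simp
      simp only [this, ex_const]; ring
    rw [← e2]
    apply ex_mono
    rintro ⟨u, v⟩
    have e3 : ex (fun t => (chi (t - u + r) * b u) * (chi (t - v + r) * b v)) =
        (b u * b v) * ex (fun t => chi (t + (r - u)) * chi (t + (r - v))) := by
      rw [← ex_mul_left]
      refine ex_congr fun t => ?_
      rw [show t - u + r = t + (r - u) by ring, show t - v + r = t + (r - v) by ring]; ring
    simp only
    rw [e3]
    have e4 : |b u * b v| ≤ 1 := by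
      rw [abs_mul]; exact mul_le_one₀ (hb u) (abs_nonneg _) (hb v)
    refine (le_abs_self _).trans ?_
    rw [abs_mul]
    refine (mul_le_of_le_one_left (abs_nonneg _) e4).trans ?_
    by_cases huv : v = u
    · rw [ind_pos huv]
      refine (abs_ex_le _).trans ((ex_le (c := 1) fun t => ?_).trans (le_add_of_nonneg_right
        (by positivity)))
      rw [abs_mul]; exact mul_le_one₀ (abs_chi_le _) (abs_nonneg _) (abs_chi_le _)
    · rw [ind_neg huv, zero_add, ex, abs_div, Nat.abs_cast]
      gcongr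
      exact chi_corr hF (fun h => huv (by linear_combination h))
  apply abs_le_of_sq_le_sq' _ h0 |> fun h => abs_le.2 h
  refine (sq_ex_le _).trans (le_trans (ex_mono fun t => ?_) (h2.trans hδ))
  rw [mul_pow]
  apply mul_le_of_le_one_left (sq_nonneg _)
  rw [sq_le_one_iff_abs_le_one]; exact ha t

def i0 : II := Sum.inl 0

def EE0 (F : Type) [Field F] : Sym2 II → F := Pi.single s(i0, i0) 1

def bet (z : Sym2 II → F) : F := ((toM z).updateRow i0 (Pi.single i0 1)).det

omit [Fintype F] [DecidableEq F] in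
theorem toM_line (z : Sym2 II → F) (t : F) :
    toM (z + t • EE0 F) = (toM z).updateRow i0 (toM z i0 + t • Pi.single i0 1) := by
  ext i j
  by_cases hi : i = i0
  · subst hi
    by_cases hj : j = i0
    · subst hj; simp [toM, EE0]
    · have : s(i0, j) ≠ s(i0, i0) := by simpa using hj
      simp [toM, EE0, Pi.single_eq_of_ne this, Pi.single_eq_of_ne hj]
  · have : s(i, j) ≠ s(i0, i0) := by simp [hi]
    simp [toM, EE0, updateRow_ne hi, Pi.single_eq_of_ne this]

omit [Fintype F] [DecidableEq F] in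
theorem det_line (z : Sym2 II → F) (t : F) :
    (toM (z + t • EE0 F)).det = (toM z).det + t * bet z := by
  rw [toM_line, det_updateRow_add, det_updateRow_smul, updateRow_eq_self]; rfl

theorem sing10 : leE (EE tab 0 0 0 10 10 1 0 0 0) 54 = true := by decide +kernel

/-- the auxiliary Lagrangian -/
def Lst (F : Type) [Field F] : Submodule F ((II → F) × (II → F)) where
  carrier := {v | v.1 i0 = 0 ∧ ∀ j, j ≠ i0 → v.2 j = 0}
  add_mem' := fun ha hb => ⟨by simp [ha.1, hb.1], fun j hj => by simp [ha.2 j hj, hb.2 j hj]⟩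
  zero_mem' := ⟨rfl, fun _ _ => rfl⟩
  smul_mem' := fun c _ ha => ⟨by simp [ha.1], fun j hj => by simp [ha.2 j hj]⟩

omit [Fintype F] [DecidableEq F] in
theorem lag_Lst : Lag (om F II) (Lst F) := by
  have h : ∀ v ∈ Lst F, ∀ w ∈ Lst F, v.1 ⬝ᵥ w.2 = 0 := by
    intro v hv w hw
    apply Finset.sum_eq_zero
    intro j _
    by_cases hj : j = i0
    · rw [hj, hv.1, zero_mul]
    · rw [hw.2 j hj, mul_zero]
  intro v
  constructor
  · intro hv w hw
    rw [om_apply, h w hw v hv, dotProduct_comm, h v hv w hw, sub_zero]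
  · intro hv
    constructor
    · have := hv (0, Pi.single i0 1) ⟨rfl, fun j hj => Pi.single_eq_of_ne hj _⟩
      simpa [om_apply] using this
    · intro j hj
      have := hv (Pi.single j 1, 0) ⟨Pi.single_eq_of_ne hj.symm _, fun _ _ => rfl⟩
      simpa [om_apply] using this

theorem cnt_bet : ∃ C : ℝ, 0 ≤ C ∧ ∀ (F : Type) [Field F] [Fintype F], (2 : F) ≠ 0 →
    cnt (fun z : Sym2 II → F => bet z = 0) ≤ C * (Fintype.card F : ℝ) ^ 54 := by
  obtain ⟨f, h1, -, h3⟩ := good_EE tab tab_ok 0 0 0 10 10 1 0 0 0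
  obtain ⟨C, h0, hC⟩ := h1.bd sing10
  refine ⟨C, h0, fun F _ _ h2 => ?_⟩
  have := finS (F := F) (V := (II → F) × (II → F))
  have hr : finrank F (Lst F) = 10 := by
    have := (lag_Lst (F := F)).finrank om_nd
    simp only [finrank_prod, finrank_fintype_fun_eq_card, card_II] at this
    omega
  refine le_trans (cnt_inj _ _ gr (fun _ _ => gr_inj) ?_) ((h3 F _ _ h2 om_alt om_nd ⊥ _ _ _
    ⟨lag_Lst, lag_Lst, lag_Lst, bot_le, bot_le, bot_le, by simp [hr],
      by rw [inf_idem, inf_idem]; simp [hr], by rw [inf_idem]; simp [hr],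
      by rw [inf_idem]; simp [hr], by rw [inf_idem]; simp [hr]⟩).trans (hC _ two_le_q))
  intro z hz
  refine ⟨lag_gr z, bot_le, ?_, by simp, by simp, by simp⟩
  obtain ⟨v, hv, hv0⟩ := Matrix.exists_mulVec_eq_zero_iff.2 hz
  have h4 : ((v, toM z *ᵥ v) : (II → F) × (II → F)) ∈ gr z ⊓ Lst F := by
    refine ⟨mem_gr.2 rfl, ?_, fun j hj => ?_⟩
    · simpa [mulVec] using congrFun hv0 i0
    · simpa [mulVec, updateRow_ne hj] using congrFun hv0 j
  exact rk_succ (fun h => hv (congrArg Prod.fst ((Submodule.mem_bot F).1 h))) bot_le h4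

theorem ex_shift {G T : Type} [Fintype G] [AddGroup G] [Fintype T] [Nonempty T] (a : T → G)
    (f : G → ℝ) : ex f = ex (fun x => ex (fun t => f (x + a t))) := by
  rw [ex_comm]
  simp only [ex_add_right, ex_const]

theorem cut_X (hF : ringChar F ≠ 2) {C δ : ℝ} (h0 : 0 ≤ δ) (hδ : 2 / Fintype.card F ≤ δ ^ 2)
    (hC : cnt (fun z : Sym2 II → F => bet z = 0) ≤ C * (Fintype.card F : ℝ) ^ 54)
    (f g : (Sym2 II → F) → ℝ) (hf : ∀ x, |f x| ≤ 1) (hg : ∀ x, |g x| ≤ 1) :
    |ex (fun x => ex (fun y => chi (toM (x - y)).det * f x * g y))| ≤ δ + C / Fintype.card F := by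
  have hq : (0 : ℝ) < Fintype.card F := card_pos'
  have e1 : ex (fun x => ex (fun y => chi (toM (x - y)).det * f x * g y)) =
      ex (fun x => ex (fun y => ex (fun t : F => ex (fun t' : F =>
        chi ((toM (x - y)).det + (t - t') * bet (x - y)) * f (x + t • EE0 F) *
          g (y + t' • EE0 F))))) := by
    rw [ex_shift (fun t : F => t • EE0 F)]
    refine ex_congr fun x => ?_
    refine Eq.trans (ex_congr fun t => ?_) (ex_comm _)
    rw [ex_shift (fun t : F => t • EE0 F)]
    refine ex_congr fun y => ex_congr fun t' => ?_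
    rw [← det_line, show x + t • EE0 F - (y + t' • EE0 F) = x - y + (t - t') • EE0 F by module]
  have e2 : ex (fun x : Sym2 II → F => ex (fun y => δ + ind (bet (x - y) = 0))) ≤
      δ + C / Fintype.card F := by
    apply ex_le
    intro x
    rw [ex_add, ex_const, ex_sub_left x (fun z => ind (bet z = 0)), ex_ind,
      card_X F II 10 card_II, show tri 10 = 55 from rfl]
    apply add_le_add le_rfl
    rw [div_le_div_iff₀ (by positivity) hq]
    calc _ ≤ C * (Fintype.card F : ℝ) ^ 54 * Fintype.card F := by gcongr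
      _ = _ := by ring
  rw [e1]
  refine (abs_ex_le _).trans (le_trans (ex_mono fun x => (abs_ex_le _).trans
    (ex_mono fun y => ?_)) e2)
  by_cases hb : bet (x - y) = 0
  · rw [ind_pos hb]
    refine (abs_ex_le _).trans ((ex_le (c := 1) fun t => (abs_ex_le _).trans
      (ex_le fun t' => ?_)).trans (by linarith))
    rw [abs_mul, abs_mul]
    exact mul_le_one₀ (mul_le_one₀ (abs_chi_le _) (abs_nonneg _) (hf _)) (abs_nonneg _) (hg _)
  · rw [ind_neg hb, add_zero]
    have := paley hF ((toM (x - y)).det / bet (x - y))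
      (fun t => chi (bet (x - y)) * f (x + t • EE0 F)) (fun t => g (y + t • EE0 F))
      (fun t => by
        rw [abs_mul]; exact mul_le_one₀ (abs_chi_le _) (abs_nonneg _) (hf _))
      (fun t => hg _) h0 hδ
    refine le_trans (le_of_eq ?_) this
    congr 1
    refine ex_congr fun t => ex_congr fun t' => ?_
    rw [show (toM (x - y)).det + (t - t') * bet (x - y) =
      (t - t' + (toM (x - y)).det / bet (x - y)) * bet (x - y) by field_simp; ring, chi_mul]
    ring

theorem cut_Y (hF : ringChar F ≠ 2) {C δ : ℝ} (h0 : 0 ≤ δ) (hδ : 2 / Fintype.card F ≤ δ ^ 2)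
    (hC : cnt (fun z : Sym2 II → F => bet z = 0) ≤ C * (Fintype.card F : ℝ) ^ 54)
    (f g : YY F → ℝ) (hf : ∀ x, |f x| ≤ 1) (hg : ∀ x, |g x| ≤ 1) :
    |ex (fun x => ex (fun y => sig x y * f x * g y))| ≤ δ + C / Fintype.card F := by
  have e1 : ex (fun x => ex (fun y => sig x y * f x * g y)) = ex (fun a : Bool => ex (fun b : Bool =>
      ex (fun x => ex (fun y => chi (toM (x - y)).det * (sg a * f (x, a)) * (sg b * g (y, b)))))) := by
    rw [ex_prod, ex_comm]
    refine ex_congr fun a => ?_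
    rw [ex_comm (Ω := Bool)]
    refine ex_congr fun x => ?_
    rw [ex_prod, ex_comm]
    refine ex_congr fun b => ex_congr fun y => ?_
    simp only [sig]; ring
  rw [e1]
  refine (abs_ex_le _).trans (ex_le fun a => (abs_ex_le _).trans (ex_le fun b => ?_))
  apply cut_X hF h0 hδ hC
  · intro x; rw [abs_mul, abs_sg, one_mul]; exact hf _
  · intro x; rw [abs_mul, abs_sg, one_mul]; exact hg _

end

end Vale.Agent.P050
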