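import Vale.Agent.P050.Lag

/-! Recursion steps for counting Lagrangians. -/

namespace Vale.Agent.P050

open Module Submodule

noncomputable section

variable {F V : Type} [Field F] [AddCommGroup V] [Module F V]

/-- configuration of three Lagrangians over an isotropic base -/
structure Cfg (B : LinearMap.BilinForm F V) (G L1 L2 L3 : Submodule F V) (n c a b d : ℕ) :
    Prop where
  l1 : Lag B L1
  l2 : Lag B L2
  l3 : Lag B L3
  g1 : G ≤ L1
  g2 : G ≤ L2
  g3 : G ≤ L3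
  hn : finrank F L1 = finrank F G + n
  hc : finrank F (L1 ⊓ L2 ⊓ L3 : Submodule F V) = finrank F G + c
  ha : finrank F (L1 ⊓ L2 : Submodule F V) = finrank F G + c + a
  hb : finrank F (L1 ⊓ L3 : Submodule F V) = finrank F G + c + b
  hd : finrank F (L2 ⊓ L3 : Submodule F V) = finrank F G + c + d

/-- the Lagrangians being counted -/
def Tgt (B : LinearMap.BilinForm F V) (G L1 L2 L3 : Submodule F V) (k1 k2 k3 g : ℕ)
    (y : Submodule F V) : Prop :=
  Lag B y ∧ G ≤ y ∧ finrank F G + k1 ≤ finrank F (y ⊓ L1 : Submodule F V) ∧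
    finrank F G + k2 ≤ finrank F (y ⊓ L2 : Submodule F V) ∧
    finrank F G + k3 ≤ finrank F (y ⊓ L3 : Submodule F V) ∧
    finrank F G + g ≤ finrank F (y ⊓ (L1 ⊓ L2 ⊓ L3) : Submodule F V)

variable {B : LinearMap.BilinForm F V} [FiniteDimensional F V]

theorem exists_not_mem {G W : Submodule F V} (h : finrank F G < finrank F W) :
    ∃ u ∈ W, u ∉ G := by
  by_contra hc
  push Not at hc
  have : finrank F W ≤ finrank F G := Submodule.finrank_mono hc
  omega

theorem rk_succ {W M : Submodule F V} {u : V} (hu : u ∉ W) (h : W ≤ M) (hM : u ∈ M) :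
    finrank F W + 1 ≤ finrank F M := by
  rw [← Submodule.finrank_sup_span_singleton hu]
  exact Submodule.finrank_mono (sup_le h ((Submodule.span_singleton_le_iff_mem _ _).2 hM))

omit [FiniteDimensional F V] in
theorem sup_le' {G M : Submodule F V} {u : V} (h : G ≤ M) (hM : u ∈ M) : G ⊔ F ∙ u ≤ M :=
  sup_le h ((Submodule.span_singleton_le_iff_mem _ _).2 hM)

theorem rk_pred {G M : Submodule F V} {u : V} (hu : u ∉ G) (h : G ≤ M) (hM : u ∈ M) {k : ℕ}
    (hk : finrank F G + k ≤ finrank F M) :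
    finrank F (G ⊔ F ∙ u : Submodule F V) + (k - 1) ≤ finrank F M := by
  have := rk_succ hu h hM
  rw [Submodule.finrank_sup_span_singleton hu]
  omega

omit [FiniteDimensional F V] in
theorem inf_red {W M : Submodule F V} {u : V} (hu : u ∈ W) (hW : ∀ x ∈ W, B u x = 0) :
    W ⊓ red B u M = (W ⊓ M) ⊔ F ∙ u := by
  apply le_antisymm
  · rintro v ⟨hv, hv'⟩
    obtain ⟨x, hx, -, s, rfl⟩ := mem_red.1 hv'
    have : x ∈ W := by
      have := W.sub_mem hv (W.smul_mem s hu)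
      simpa using this
    exact Submodule.add_mem_sup ⟨this, hx⟩ (Submodule.mem_span_singleton.2 ⟨s, rfl⟩)
  · apply sup_le
    · rintro v ⟨hv, hv'⟩
      exact ⟨hv, mem_red_of hv' (hW v hv)⟩
    · exact (Submodule.span_singleton_le_iff_mem _ _).2 ⟨hu, self_mem_red⟩

theorem rk_inf_red {W M : Submodule F V} {u : V} (hu : u ∈ W) (hW : ∀ x ∈ W, B u x = 0)
    (hM : u ∉ M) : finrank F (W ⊓ red B u M : Submodule F V) =
      finrank F (W ⊓ M : Submodule F V) + 1 := by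
  rw [inf_red hu hW, Submodule.finrank_sup_span_singleton (p := W ⊓ M) (fun h => hM h.2)]

/-- reduction of `y` against a subspace containing `u` -/
theorem rk_red_inf {W y : Submodule F V} {u : V} (hu : u ∈ W) (hW : ∀ x ∈ W, B u x = 0)
    (hy : u ∉ y) : finrank F (red B u y ⊓ W : Submodule F V) =
      finrank F (y ⊓ W : Submodule F V) + 1 := by
  rw [inf_comm, rk_inf_red hu hW hy, inf_comm]

theorem Cfg.n2 (hN : B.Nondegenerate) {G L1 L2 L3 : Submodule F V} {n c a b d : ℕ}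
    (h : Cfg B G L1 L2 L3 n c a b d) {y : Submodule F V} (hy : Lag B y) :
    finrank F y = finrank F G + n := by
  have := h.l1.finrank hN
  have := hy.finrank hN
  have := h.hn
  omega

variable [Fintype F]

include F in
theorem finV : Finite V := Module.finite_of_finite F

theorem finS : Finite (Submodule F V) := by
  have : Finite V := finV (F := F)
  exact Finite.of_injective (fun U : Submodule F V => (U : Set V)) SetLike.coe_injective

theorem fibA (hB : B.IsAlt) (hN : B.Nondegenerate) (u : V) (A y' : Submodule F V) (N : ℕ)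
    (hV : finrank F V = 2 * N) :
    cnt (fun y => Lag B y ∧ red B u y = y' ∧ u ∉ y ∧ A ≤ y) ≤
      (Fintype.card F : ℝ) ^ (N - finrank F A) := by
  have := finS (F := F) (V := V)
  have h1 := fib hB u (B.orthogonal A) y' N
  rw [LinearMap.BilinForm.finrank_orthogonal hN, hV] at h1
  have h2 : 2 * N - finrank F A - N = N - finrank F A := by omega
  rw [h2] at h1
  refine le_trans (cnt_mono ?_) h1
  rintro y ⟨hy, hr, hu, hA⟩
  have hle : y ≤ B.orthogonal A := by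
    intro v hv
    rw [LinearMap.BilinForm.mem_orthogonal_iff]
    intro x hx
    exact hy.iso (hA hx) hv
  refine ⟨hy, hr, ?_, ?_⟩
  · obtain ⟨z, hz, h0⟩ := hy.exists_ne hB hu
    exact ⟨z, ⟨hz, hle hz⟩, h0⟩
  · rw [inf_eq_left.2 hle]
    have := hy.finrank hN
    omega

theorem cstep (hB : B.IsAlt) (hN : B.Nondegenerate) {G L1 L2 L3 : Submodule F V} {n c a b d : ℕ}
    (h : Cfg B G L1 L2 L3 (n + 1) (c + 1) a b d) :
    ∃ G', Cfg B G' L1 L2 L3 n c a b d ∧ ∀ k1 k2 k3 g,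
      cnt (Tgt B G L1 L2 L3 k1 k2 k3 g) ≤
        cnt (Tgt B G' L1 L2 L3 (k1 - 1) (k2 - 1) (k3 - 1) (g - 1)) +
          (Fintype.card F : ℝ) ^ (n + 1) * cnt (Tgt B G' L1 L2 L3 k1 k2 k3 g) := by
  have := finS (F := F) (V := V)
  obtain ⟨u, ⟨⟨hu1, hu2⟩, hu3⟩, huG⟩ := exists_not_mem (G := G) (W := L1 ⊓ L2 ⊓ L3)
    (by rw [h.hc]; omega)
  have hr : finrank F (G ⊔ F ∙ u : Submodule F V) = finrank F G + 1 :=
    Submodule.finrank_sup_span_singleton huG
  refine ⟨G ⊔ F ∙ u, ⟨h.l1, h.l2, h.l3, sup_le' h.g1 hu1, sup_le' h.g2 hu2, sup_le' h.g3 hu3,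
    by rw [h.hn]; omega, by rw [h.hc]; omega, by rw [h.ha]; omega, by rw [h.hb]; omega,
    by rw [h.hd]; omega⟩, ?_⟩
  intro k1 k2 k3 g
  rw [cnt_split _ (fun y => u ∈ y)]
  apply add_le_add
  · apply cnt_mono
    rintro y ⟨⟨hy, hG, h1, h2, h3, h4⟩, hu⟩
    exact ⟨hy, sup_le' hG hu, rk_pred huG (le_inf hG h.g1) ⟨hu, hu1⟩ h1,
      rk_pred huG (le_inf hG h.g2) ⟨hu, hu2⟩ h2, rk_pred huG (le_inf hG h.g3) ⟨hu, hu3⟩ h3,
      rk_pred huG (le_inf hG (le_inf (le_inf h.g1 h.g2) h.g3)) ⟨hu, ⟨hu1, hu2⟩, hu3⟩ h4⟩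
  · apply cnt_fib _ _ (red B u) _ (by positivity)
    · rintro y ⟨⟨hy, hG, h1, h2, h3, h4⟩, hu⟩
      refine ⟨hy.red hB u, sup_le' (fun x hx => mem_red_of (hG hx) (h.l1.iso hu1 (h.g1 hx)))
        self_mem_red, ?_, ?_, ?_, ?_⟩
      · rw [rk_red_inf hu1 (fun x hx => h.l1.iso hu1 hx) hu]; omega
      · rw [rk_red_inf hu2 (fun x hx => h.l2.iso hu2 hx) hu]; omega
      · rw [rk_red_inf hu3 (fun x hx => h.l3.iso hu3 hx) hu]; omega
      · rw [rk_red_inf (W := L1 ⊓ L2 ⊓ L3) ⟨⟨hu1, hu2⟩, hu3⟩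
          (fun x hx => h.l3.iso hu3 hx.2) hu]; omega
    · intro y' _
      have h1 := fibA hB hN u G y' (finrank F G + (n + 1))
        (by rw [← h.l1.finrank hN, h.hn])
      rw [Nat.add_sub_cancel_left] at h1
      refine le_trans (cnt_mono ?_) h1
      rintro y ⟨⟨⟨hy, hG, -⟩, hu⟩, hr⟩
      exact ⟨hy, hr, hu, hG⟩

theorem astep (hB : B.IsAlt) (hN : B.Nondegenerate) {G L1 L2 L3 : Submodule F V} {n a b d : ℕ}
    (h : Cfg B G L1 L2 L3 (n + 1) 0 (a + 1) b d) :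
    ∃ G' L3', Cfg B G' L1 L2 L3' n 0 a b d ∧ ∀ k1 k2 k3,
      cnt (Tgt B G L1 L2 L3 k1 k2 k3 0) ≤
        (cnt (Tgt B G' L1 L2 L3' (k1 - 1) (k2 - 1) k3 0) +
          (Fintype.card F : ℝ) ^ (n + 1) * cnt (Tgt B G' L1 L2 L3' k1 k2 (k3 + 1) 0)) +
        ((Fintype.card F : ℝ) ^ (n + 1 - k3) * cnt (Tgt B G' L1 L2 L3' k1 k2 k3 0) +
          (Fintype.card F : ℝ) ^ (n + 1 - k3) * cnt (Tgt B G' L1 L2 L3' k1 k2 (k3 - 1) 0)) := by
  have := finS (F := F) (V := V)
  obtain ⟨u, ⟨hu1, hu2⟩, huG⟩ := exists_not_mem (G := G) (W := L1 ⊓ L2)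
    (by rw [h.ha]; omega)
  have hT : G = L1 ⊓ L2 ⊓ L3 :=
    Submodule.eq_of_le_of_finrank_le (le_inf (le_inf h.g1 h.g2) h.g3) (by rw [h.hc]; omega)
  have hu3 : u ∉ L3 := fun h3 => huG (by rw [hT]; exact ⟨⟨hu1, hu2⟩, h3⟩)
  have hr : finrank F (G ⊔ F ∙ u : Submodule F V) = finrank F G + 1 :=
    Submodule.finrank_sup_span_singleton huG
  have hG3 : G ≤ red B u L3 := fun x hx => mem_red_of (h.g3 hx) (h.l1.iso hu1 (h.g1 hx))
  have hV : finrank F V = 2 * (finrank F G + (n + 1)) := by rw [← h.l1.finrank hN, h.hn]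
  have hG' : ∀ y : Submodule F V, G ≤ y → u ∈ y → finrank F (G ⊔ F ∙ u : Submodule F V) + 0 ≤
      finrank F (y ⊓ (L1 ⊓ L2 ⊓ red B u L3) : Submodule F V) := by
    intro y hG hu
    exact Submodule.finrank_mono (sup_le' (le_inf hG (le_inf (le_inf h.g1 h.g2) hG3))
      ⟨hu, ⟨hu1, hu2⟩, self_mem_red⟩)
  have base : ∀ (y : Submodule F V) (k1 k2 k3 j : ℕ), Tgt B G L1 L2 L3 k1 k2 k3 0 y → u ∉ y →
      finrank F G + 1 + j ≤ finrank F (red B u y ⊓ red B u L3 : Submodule F V) →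
      Tgt B (G ⊔ F ∙ u) L1 L2 (red B u L3) k1 k2 j 0 (red B u y) := by
    rintro y k1 k2 k3 j ⟨hy, hG, h1, h2, h3, h4⟩ hu hj
    have hGy : G ≤ red B u y := fun x hx => mem_red_of (hG hx) (h.l1.iso hu1 (h.g1 hx))
    refine ⟨hy.red hB u, sup_le' hGy self_mem_red, ?_, ?_, by rw [hr]; exact hj,
      hG' _ hGy self_mem_red⟩
    · rw [rk_red_inf hu1 (fun x hx => h.l1.iso hu1 hx) hu]; omega
    · rw [rk_red_inf hu2 (fun x hx => h.l2.iso hu2 hx) hu]; omega
  refine ⟨G ⊔ F ∙ u, red B u L3, ⟨h.l1, h.l2, h.l3.red hB u, sup_le' h.g1 hu1, sup_le' h.g2 hu2,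
    sup_le' hG3 self_mem_red, by rw [h.hn]; omega, ?_, by rw [h.ha]; omega, ?_, ?_⟩, ?_⟩
  · rw [rk_inf_red (W := L1 ⊓ L2) ⟨hu1, hu2⟩ (fun x hx => h.l1.iso hu1 hx.1) hu3, h.hc]; omega
  · rw [rk_inf_red hu1 (fun x hx => h.l1.iso hu1 hx) hu3, h.hb]; omega
  · rw [rk_inf_red hu2 (fun x hx => h.l2.iso hu2 hx) hu3, h.hd]; omega
  intro k1 k2 k3
  set T := Tgt B G L1 L2 L3 k1 k2 k3 0 with hTdef
  let big : Submodule F V → Prop := fun y =>
    finrank F G + 1 + (k3 + 1) ≤ finrank F (red B u y ⊓ red B u L3 : Submodule F V)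
  let out : Submodule F V → Prop := fun y => ∃ z ∈ y ⊓ L3, B u z ≠ 0
  have split : cnt T ≤ (cnt (fun y => T y ∧ u ∈ y) + cnt (fun y => T y ∧ u ∉ y ∧ big y)) +
      (cnt (fun y => T y ∧ u ∉ y ∧ ¬ big y ∧ ¬ out y) + cnt (fun y => T y ∧ u ∉ y ∧ out y)) := by
    refine le_trans (cnt_le_add (Q := fun y => (T y ∧ u ∈ y) ∨ (T y ∧ u ∉ y ∧ big y))
      (R := fun y => (T y ∧ u ∉ y ∧ ¬ big y ∧ ¬ out y) ∨ (T y ∧ u ∉ y ∧ out y)) ?_)
      (add_le_add (cnt_le_add (fun _ h => h)) (cnt_le_add (fun _ h => h)))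
    intro y hy
    tauto
  refine split.trans (add_le_add (add_le_add ?_ ?_) (add_le_add ?_ ?_))
  · apply cnt_mono
    rintro y ⟨⟨hy, hG, h1, h2, h3, h4⟩, hu⟩
    refine ⟨hy, sup_le' hG hu, rk_pred huG (le_inf hG h.g1) ⟨hu, hu1⟩ h1,
      rk_pred huG (le_inf hG h.g2) ⟨hu, hu2⟩ h2, ?_, hG' y hG hu⟩
    rw [rk_inf_red hu (fun x hx => hy.iso hu hx) hu3]; omega
  · apply cnt_fib _ _ (red B u) _ (by positivity)
    · rintro y ⟨hy, hu, hb⟩
      exact base y _ _ _ _ hy hu hb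
    · intro y' _
      have h1 := fibA hB hN u G y' _ hV
      rw [Nat.add_sub_cancel_left] at h1
      refine le_trans (cnt_mono ?_) h1
      rintro y ⟨⟨⟨hy, hG, -⟩, hu, -⟩, hr⟩
      exact ⟨hy, hr, hu, hG⟩
  · have key : ∀ y, T y → u ∉ y → ¬ out y → y ⊓ L3 ≤ red B u y ⊓ L3 ∧
        finrank F (red B u y ⊓ L3 : Submodule F V) + 1 ≤
          finrank F (red B u y ⊓ red B u L3 : Submodule F V) := by
      rintro y ⟨hy, hG, h1, h2, h3, h4⟩ hu ho
      simp only [out, not_exists, not_and, not_not] at ho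
      refine ⟨fun x hx => ⟨mem_red_of hx.1 (ho x hx), hx.2⟩, ?_⟩
      rw [rk_inf_red self_mem_red (fun x hx => (hy.red hB u).iso self_mem_red hx) hu3]
    apply cnt_fib _ _ (red B u) _ (by positivity)
    · rintro y ⟨hy, hu, hb, ho⟩
      apply base y _ _ _ _ hy hu
      obtain ⟨e1, e2⟩ := key y hy hu ho
      have := Submodule.finrank_mono e1
      have := hy.2.2.2.2.1
      omega
    · intro y' _
      by_cases hA : finrank F G + k3 ≤ finrank F (y' ⊓ L3 : Submodule F V)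
      · have h1 := fibA hB hN u (y' ⊓ L3) y' _ hV
        refine le_trans (cnt_mono ?_) (h1.trans (pow_le_pow_right₀
          (by linarith [two_le_q (F := F)]) (by omega)))
        rintro y ⟨⟨hy, hu, hb, ho⟩, hr⟩
        refine ⟨hy.1, hr, hu, ?_⟩
        obtain ⟨e1, e2⟩ := key y hy hu ho
        have e3 := hy.2.2.2.2.1
        have e4 : y ⊓ L3 = red B u y ⊓ L3 := Submodule.eq_of_le_of_finrank_le e1 (by
          simp only [big] at hb; omega)
        rw [← hr, ← e4]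
        exact inf_le_left
      · rw [cnt_eq_zero]
        · positivity
        rintro y ⟨⟨hy, hu, hb, ho⟩, hr⟩
        obtain ⟨e1, e2⟩ := key y hy hu ho
        have := Submodule.finrank_mono e1
        have e3 := hy.2.2.2.2.1
        rw [hr] at this
        omega
  · apply cnt_fib _ _ (red B u) _ (by positivity)
    · rintro y ⟨hy, hu, z, hz, hz0⟩
      apply base y _ _ _ _ hy hu
      have e1 := finrank_inf_ker (y ⊓ L3) (B u) hz hz0
      have e2 : finrank F (y ⊓ L3 ⊓ LinearMap.ker (B u) : Submodule F V) + 1 ≤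
          finrank F (red B u y ⊓ red B u L3 : Submodule F V) :=
        rk_succ (u := u) (fun h' => hu h'.1.1)
          (fun x hx => ⟨mem_red_of hx.1.1 hx.2, mem_red_of hx.1.2 hx.2⟩)
          ⟨self_mem_red, self_mem_red⟩
      have e3 := hy.2.2.2.2.1
      have e4 : finrank F G + 1 ≤ finrank F (red B u y ⊓ red B u L3 : Submodule F V) :=
        rk_succ huG (le_inf (fun x hx => mem_red_of (hy.2.1 hx) (h.l1.iso hu1 (h.g1 hx))) hG3)
          ⟨self_mem_red, self_mem_red⟩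
      omega
    · intro y' _
      have h1 := fib hB u L3 y' (finrank F G + k3)
      have h2 : finrank F L3 - (finrank F G + k3) = n + 1 - k3 := by
        rw [h.n2 hN h.l3]; omega
      rw [h2] at h1
      refine le_trans (cnt_mono ?_) h1
      rintro y ⟨⟨hy, hu, ho⟩, hr⟩
      exact ⟨hy.1, hr, ho, hy.2.2.2.2.1⟩

end

end Vale.Agent.P050
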