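import Vale.Agent.P050.TabChk

/-! Symmetric matrices as Lagrangians, and the resulting counts. -/

namespace Vale.Agent.P050

open Module Submodule Matrix

noncomputable section

variable {F : Type} [Field F] {ι : Type} [Fintype ι] [DecidableEq ι]

/-- symmetric matrix attached to a function on unordered pairs -/
def toM (x : Sym2 ι → F) : Matrix ι ι F := Matrix.of fun i j => x s(i, j)

omit [Fintype ι] [DecidableEq ι] in
theorem toM_sub (x y : Sym2 ι → F) : toM (x - y) = toM x - toM y := rfl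

omit [Fintype ι] [DecidableEq ι] [Field F] in
theorem toM_T (x : Sym2 ι → F) : (toM x)ᵀ = toM x := by
  ext i j; simp [toM, Sym2.eq_swap]

omit [Fintype ι] [DecidableEq ι] [Field F] in
theorem toM_inj {x y : Sym2 ι → F} (h : toM x = toM y) : x = y := by
  ext s
  induction s using Sym2.ind with
  | _ i j => exact congrFun (congrFun h i) j

/-- the standard symplectic form -/
def om (F ι : Type) [Field F] [Fintype ι] : LinearMap.BilinForm F ((ι → F) × (ι → F)) :=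
  LinearMap.mk₂ F (fun v w => v.1 ⬝ᵥ w.2 - v.2 ⬝ᵥ w.1)
    (fun a b c => by simp [add_dotProduct]; ring)
    (fun s a b => by simp [smul_dotProduct]; ring)
    (fun a b c => by simp [dotProduct_add]; ring)
    (fun s a b => by simp [dotProduct_smul]; ring)

omit [DecidableEq ι] in
theorem om_apply (v w : (ι → F) × (ι → F)) : om F ι v w = v.1 ⬝ᵥ w.2 - v.2 ⬝ᵥ w.1 := rfl

omit [DecidableEq ι] in
theorem om_alt : (om F ι).IsAlt := by
  intro v; rw [om_apply, dotProduct_comm]; simp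

theorem om_nd : (om F ι).Nondegenerate := by
  have h : ∀ v : (ι → F) × (ι → F), (∀ w, om F ι v w = 0) → v = 0 := by
    intro v hv
    ext i
    · simpa [om_apply] using hv (0, Pi.single i 1)
    · simpa [om_apply] using hv (Pi.single i 1, 0)
  refine ⟨h, fun v hv => h v fun w => ?_⟩
  rw [skew om_alt, hv w]; simp

/-- graph of a symmetric matrix -/
def gr (x : Sym2 ι → F) : Submodule F ((ι → F) × (ι → F)) := (toM x).mulVecLin.graph

omit [DecidableEq ι] in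
theorem mem_gr {x : Sym2 ι → F} {v : (ι → F) × (ι → F)} : v ∈ gr x ↔ v.2 = toM x *ᵥ v.1 :=
  LinearMap.mem_graph_iff _ _

omit [DecidableEq ι] in
theorem dot_sym (x : Sym2 ι → F) (a b : ι → F) : (toM x *ᵥ a) ⬝ᵥ b = a ⬝ᵥ (toM x *ᵥ b) := by
  rw [dotProduct_mulVec, ← mulVec_transpose, toM_T]

theorem lag_gr (x : Sym2 ι → F) : Lag (om F ι) (gr x) := by
  intro v
  constructor
  · intro hv w hw
    rw [om_apply, mem_gr.1 hv, mem_gr.1 hw, dot_sym]; simp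
  · intro h
    rw [mem_gr]
    ext i
    have := h (Pi.single i 1, toM x *ᵥ Pi.single i 1) (mem_gr.2 rfl)
    rw [om_apply, dot_sym] at this
    simpa [sub_eq_zero] using this

theorem gr_inj {x y : Sym2 ι → F} (h : gr x = gr y) : x = y := by
  apply toM_inj
  ext i j
  have h1 : ((Pi.single j 1, toM x *ᵥ Pi.single j 1) : (ι → F) × (ι → F)) ∈ gr x := mem_gr.2 rfl
  rw [h, mem_gr] at h1
  simpa using congrFun h1 i

theorem rk_gr (x : Sym2 ι → F) : finrank F (gr x) = Fintype.card ι := by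
  have := (lag_gr x).finrank om_nd
  simp only [finrank_prod, finrank_fintype_fun_eq_card] at this
  omega

/-- dimension of the intersection of two graphs -/
def dm (x y : Sym2 ι → F) : ℕ := finrank F (gr x ⊓ gr y : Submodule F _)

/-- dimension of the intersection of three graphs -/
def tm (x y z : Sym2 ι → F) : ℕ := finrank F (gr x ⊓ gr y ⊓ gr z : Submodule F _)

omit [DecidableEq ι] in
theorem dm_comm (x y : Sym2 ι → F) : dm x y = dm y x := by unfold dm; rw [inf_comm]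

omit [DecidableEq ι] in
theorem tm_12 (x y z : Sym2 ι → F) : tm x y z = tm y x z := by unfold tm; rw [inf_comm (gr x)]

omit [DecidableEq ι] in
theorem tm_23 (x y z : Sym2 ι → F) : tm x y z = tm x z y := by unfold tm; rw [inf_right_comm]

omit [DecidableEq ι] in
theorem tm_self (x z : Sym2 ι → F) : tm x x z = dm x z := by unfold tm dm; rw [inf_idem]

theorem dm_self (x : Sym2 ι → F) : dm x x = Fintype.card ι := by
  unfold dm; rw [inf_idem, rk_gr]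

omit [DecidableEq ι] in
theorem tm_le (x y z : Sym2 ι → F) : tm x y z ≤ dm x y := Submodule.finrank_mono inf_le_left

theorem tm_bound (x y z : Sym2 ι → F) :
    dm x y + dm x z + dm y z ≤ Fintype.card ι + 2 * tm x y z := by
  have e1 := Submodule.finrank_sup_add_finrank_inf_eq (gr x ⊓ gr y) (gr x ⊓ gr z)
  have e2 := Submodule.finrank_sup_add_finrank_inf_eq (gr x ⊓ gr y ⊔ gr x ⊓ gr z) (gr y ⊓ gr z)
  have e3 : finrank F (gr x ⊓ gr y ⊓ (gr x ⊓ gr z) : Submodule F _) ≤ tm x y z :=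
    Submodule.finrank_mono (fun v hv => ⟨hv.1, hv.2.2⟩)
  have e4 : finrank F ((gr x ⊓ gr y ⊔ gr x ⊓ gr z) ⊓ (gr y ⊓ gr z) : Submodule F _) ≤ tm x y z :=
    Submodule.finrank_mono (fun v hv =>
      ⟨⟨(sup_le inf_le_left inf_le_left : gr x ⊓ gr y ⊔ gr x ⊓ gr z ≤ gr x) hv.1, hv.2.1⟩, hv.2.2⟩)
  set W := (gr x ⊓ gr y ⊔ gr x ⊓ gr z) ⊔ gr y ⊓ gr z with hW
  have e5 : W ≤ (om F ι).orthogonal W := by
    intro v hv w hw
    obtain ⟨v', hv', v3, hv3, rfl⟩ := Submodule.mem_sup.1 hv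
    obtain ⟨v1, hv1, v2, hv2, rfl⟩ := Submodule.mem_sup.1 hv'
    obtain ⟨w', hw', w3, hw3, rfl⟩ := Submodule.mem_sup.1 hw
    obtain ⟨w1, hw1, w2, hw2, rfl⟩ := Submodule.mem_sup.1 hw'
    have hx := lag_gr x
    have hy := lag_gr y
    have hz := lag_gr z
    show om F ι (w1 + w2 + w3) (v1 + v2 + v3) = 0
    simp only [map_add, LinearMap.add_apply, hx.iso hw1.1 hv1.1, hx.iso hw1.1 hv2.1,
      hx.iso hw2.1 hv1.1, hx.iso hw2.1 hv2.1, hy.iso hw1.2 hv3.1, hy.iso hw3.1 hv1.2,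
      hy.iso hw3.1 hv3.1, hz.iso hw2.2 hv3.2, hz.iso hw3.2 hv2.2, add_zero]
  have e6 := Submodule.finrank_mono e5
  rw [LinearMap.BilinForm.finrank_orthogonal om_nd] at e6
  simp only [finrank_prod, finrank_fintype_fun_eq_card] at e6
  unfold dm
  omega

theorem det_ne_of_dm {x y : Sym2 ι → F} (h : dm x y = 0) : (toM (x - y)).det ≠ 0 := by
  intro h0
  obtain ⟨v, hv, hv0⟩ := Matrix.exists_mulVec_eq_zero_iff.2 h0
  rw [toM_sub, sub_mulVec, sub_eq_zero] at hv0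
  have h1 : gr x ⊓ gr y = ⊥ := Submodule.finrank_eq_zero.1 h
  have h2 : ((v, toM x *ᵥ v) : (ι → F) × (ι → F)) ∈ gr x ⊓ gr y := ⟨mem_gr.2 rfl, mem_gr.2 hv0⟩
  rw [h1, Submodule.mem_bot] at h2
  exact hv (congrArg Prod.fst h2)

theorem cfg_gr (x y z : Sym2 ι → F) : Cfg (om F ι) ⊥ (gr x) (gr y) (gr z) (Fintype.card ι)
    (tm x y z) (dm x y - tm x y z) (dm x z - tm x y z) (dm y z - tm x y z) := by
  have h1 := tm_le x y z
  have h2 : tm x y z ≤ dm x z := by rw [tm_23]; exact tm_le _ _ _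
  have h3 : tm x y z ≤ dm y z := by rw [tm_12, tm_23]; exact tm_le _ _ _
  refine ⟨lag_gr x, lag_gr y, lag_gr z, bot_le, bot_le, bot_le, by simp [rk_gr], by simp [tm],
    ?_, ?_, ?_⟩
  · change dm x y = _; simp only [finrank_bot]; omega
  · change dm x z = _; simp only [finrank_bot]; omega
  · change dm y z = _; simp only [finrank_bot]; omega

theorem cnt_inj {α β : Type} [Finite α] [Finite β] (S : α → Prop) (T : β → Prop) (f : α → β)
    (hf : ∀ a b, f a = f b → a = b) (h : ∀ a, S a → T (f a)) : cnt S ≤ cnt T := by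
  have := cnt_fib S T f 1 zero_le_one h (fun b _ => cnt_le_one
    (fun a a' ha ha' => hf _ _ (ha.2.trans ha'.2.symm)))
  simpa using this

/-- transfer of a `Good` bound to symmetric matrices -/
theorem Good.sym {n c a b d k1 k2 k3 g : ℕ} {t : ℕ × ℕ} (h : Good n c a b d k1 k2 k3 g t) :
    ∃ f : ℝ → ℝ, Dom f t ∧ ∀ (F ι : Type) [Field F] [Fintype F] [Fintype ι] [DecidableEq ι],
      (2 : F) ≠ 0 → Fintype.card ι = n → ∀ x y z : Sym2 ι → F, tm x y z = c → dm x y = c + a →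
      dm x z = c + b → dm y z = c + d →
      cnt (fun w : Sym2 ι → F => k1 ≤ dm w x ∧ k2 ≤ dm w y ∧ k3 ≤ dm w z ∧
        g ≤ finrank F (gr w ⊓ (gr x ⊓ gr y ⊓ gr z) : Submodule F _)) ≤ f (Fintype.card F) := by
  obtain ⟨f, h1, -, h3⟩ := h
  refine ⟨f, h1, fun F ι _ _ _ _ h2 hn x y z hc ha hb hd => ?_⟩
  have := finS (F := F) (V := (ι → F) × (ι → F))
  have e := cfg_gr x y z
  rw [hn, hc, ha, hb, hd, Nat.add_sub_cancel_left, Nat.add_sub_cancel_left,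
    Nat.add_sub_cancel_left] at e
  refine le_trans (cnt_inj _ _ gr (fun _ _ => gr_inj) ?_) (h3 F _ _ h2 om_alt om_nd _ _ _ _ e)
  rintro w ⟨e1, e2, e3, e4⟩
  refine ⟨lag_gr w, bot_le, ?_, ?_, ?_, ?_⟩ <;> simpa only [finrank_bot, zero_add]

theorem Dom.bd {f : ℝ → ℝ} {t : ℕ × ℕ} (h : Dom f t) {e : ℕ} (he : leE t e = true) :
    ∃ C : ℝ, 0 ≤ C ∧ ∀ q : ℝ, 2 ≤ q → f q ≤ C * q ^ e := by
  obtain ⟨C, hC, h⟩ := h
  simp only [leE, Bool.or_eq_true, Nat.beq_eq, Nat.ble_eq] at he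
  refine ⟨t.1 * (1 + C), by positivity, fun q hq => (h q hq).trans ?_⟩
  rcases he with he | he
  · simp [he]
  · have e1 : C / q ≤ C := div_le_self hC (by linarith)
    have e2 : q ^ t.2 ≤ q ^ e := pow_le_pow_right₀ (by linarith) he
    gcongr

theorem unif {κ : Type} [Finite κ] (P : κ → ℝ → Prop)
    (hm : ∀ i C C', C ≤ C' → P i C → P i C') (h : ∀ i, ∃ C, 0 ≤ C ∧ P i C) :
    ∃ C, 0 ≤ C ∧ ∀ i, P i C := by
  have := Fintype.ofFinite κ
  choose C h0 hC using h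
  exact ⟨∑ i, C i, Finset.sum_nonneg (fun i _ => h0 i), fun i => hm i _ _
    (Finset.single_le_sum (fun i _ => h0 i) (Finset.mem_univ i)) (hC i)⟩

theorem unif4 (P : ℕ → ℕ → ℕ → ℕ → ℝ → Prop)
    (hm : ∀ c a b d C C', C ≤ C' → P c a b d C → P c a b d C')
    (h : ∀ c a b d, c + a + b + d ≤ 10 → ∃ C, 0 ≤ C ∧ P c a b d C) :
    ∃ C, 0 ≤ C ∧ ∀ c a b d, c + a + b + d ≤ 10 → P c a b d C := by
  obtain ⟨C, h0, hC⟩ := unif (κ := Fin 11 × Fin 11 × Fin 11 × Fin 11)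
    (fun i C => i.1.1 + i.2.1.1 + i.2.2.1.1 + i.2.2.2.1 ≤ 10 → P i.1 i.2.1 i.2.2.1 i.2.2.2 C)
    (fun i C C' hC h1 h2 => hm _ _ _ _ _ _ hC (h1 h2)) (fun i => by
      by_cases hi : i.1.1 + i.2.1.1 + i.2.2.1.1 + i.2.2.2.1 ≤ 10
      · obtain ⟨C, h0, hC⟩ := h _ _ _ _ hi
        exact ⟨C, h0, fun _ => hC⟩
      · exact ⟨0, le_rfl, fun h => absurd h hi⟩)
  exact ⟨C, h0, fun c a b d hs =>
    hC (⟨c, by omega⟩, ⟨a, by omega⟩, ⟨b, by omega⟩, ⟨d, by omega⟩) hs⟩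

/-- exponent attached to a triple -/
def exT (x y z : Sym2 ι → F) : ℕ :=
  EX (tm x y z) (dm x y - tm x y z) (dm x z - tm x y z) (dm y z - tm x y z)

theorem pat_facts (x y z : Sym2 ι → F) : tm x y z ≤ dm x y ∧ tm x y z ≤ dm x z ∧
    tm x y z ≤ dm y z ∧ dm x y + dm x z + dm y z ≤ Fintype.card ι + 2 * tm x y z :=
  ⟨tm_le x y z, by rw [tm_23]; exact tm_le _ _ _, by rw [tm_12, tm_23]; exact tm_le _ _ _,
    tm_bound x y z⟩

theorem cnt3 : ∃ C : ℝ, 0 ≤ C ∧ ∀ (F ι : Type) [Field F] [Fintype F] [Fintype ι] [DecidableEq ι],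
    (2 : F) ≠ 0 → Fintype.card ι = 10 → ∀ x y z : Sym2 ι → F,
      cnt (fun w : Sym2 ι → F => 5 ≤ dm w x ∧ 5 ≤ dm w y ∧ 5 ≤ dm w z) ≤
        C * (Fintype.card F : ℝ) ^ (10 + exT x y z) := by
  obtain ⟨C, h0, hC⟩ := unif4 (fun c a b d C =>
    ∀ (F ι : Type) [Field F] [Fintype F] [Fintype ι] [DecidableEq ι],
      (2 : F) ≠ 0 → Fintype.card ι = 10 → ∀ x y z : Sym2 ι → F, tm x y z = c → dm x y = c + a →
      dm x z = c + b → dm y z = c + d →
      cnt (fun w : Sym2 ι → F => 5 ≤ dm w x ∧ 5 ≤ dm w y ∧ 5 ≤ dm w z) ≤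
        C * (Fintype.card F : ℝ) ^ (10 + EX c a b d))
    (fun c a b d C C' hC h F ι _ _ _ _ h2 hn x y z e1 e2 e3 e4 =>
      (h F ι h2 hn x y z e1 e2 e3 e4).trans (by gcongr))
    (fun c a b d hs => by
      obtain ⟨f, h1, h3⟩ := (good_EE tab tab_ok a b d c 10 5 5 5 0).sym
      obtain ⟨C, h0, hC⟩ := h1.bd (allP_spec chk3 c a b d hs)
      refine ⟨C, h0, fun F ι _ _ _ _ h2 hn x y z e1 e2 e3 e4 => ?_⟩
      refine le_trans (cnt_mono ?_) ((h3 F ι h2 hn x y z e1 e2 e3 e4).trans (hC _ two_le_q))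
      rintro w ⟨w1, w2, w3⟩
      exact ⟨w1, w2, w3, Nat.zero_le _⟩)
  refine ⟨C, h0, fun F ι _ _ _ _ h2 hn x y z => ?_⟩
  obtain ⟨p1, p2, p3, p4⟩ := pat_facts x y z
  exact hC _ _ _ _ (by omega) F ι h2 hn x y z rfl (by omega) (by omega) (by omega)

theorem cnt2 : ∃ C : ℝ, 0 ≤ C ∧ ∀ (F ι : Type) [Field F] [Fintype F] [Fintype ι] [DecidableEq ι],
    (2 : F) ≠ 0 → Fintype.card ι = 10 → ∀ x y : Sym2 ι → F,
      cnt (fun w : Sym2 ι → F => 5 ≤ dm w x ∧ 5 ≤ dm w y) ≤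
        C * (Fintype.card F : ℝ) ^ (E2 (dm x y)) := by
  obtain ⟨C, h0, hC⟩ := unif4 (fun c _ _ _ C =>
    ∀ (F ι : Type) [Field F] [Fintype F] [Fintype ι] [DecidableEq ι],
      (2 : F) ≠ 0 → Fintype.card ι = 10 → ∀ x y : Sym2 ι → F, dm x y = c →
      cnt (fun w : Sym2 ι → F => 5 ≤ dm w x ∧ 5 ≤ dm w y) ≤
        C * (Fintype.card F : ℝ) ^ (E2 c))
    (fun c a b d C C' hC h F ι _ _ _ _ h2 hn x y e1 =>
      (h F ι h2 hn x y e1).trans (by gcongr))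
    (fun c a b d hs => by
      obtain ⟨f, h1, h3⟩ := (good_EE tab tab_ok 0 0 (10 - c) c 10 5 5 0 0).sym
      have hk := chk2
      simp only [List.all_eq_true, List.mem_range] at hk
      obtain ⟨C, h0, hC⟩ := h1.bd (hk c (by omega))
      refine ⟨C, h0, fun F ι _ _ _ _ h2 hn x y e1 => ?_⟩
      refine le_trans (cnt_mono ?_) ((h3 F ι h2 hn x y y
        (by rw [tm_12, tm_23, tm_self, dm_comm, e1]) e1 e1
        (by rw [dm_self, hn]; omega)).trans (hC _ two_le_q))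
      rintro w ⟨w1, w2⟩
      exact ⟨w1, w2, Nat.zero_le _, Nat.zero_le _⟩)
  refine ⟨C, h0, fun F ι _ _ _ _ h2 hn x y => ?_⟩
  have : dm x y ≤ 10 := by
    rw [← hn, ← rk_gr x]; exact Submodule.finrank_mono inf_le_left
  exact hC _ 0 0 0 (by omega) F ι h2 hn x y rfl

theorem cntP : ∃ C : ℝ, 0 ≤ C ∧ ∀ c a b d, c + a + b + d ≤ 10 →
    ∀ (F ι : Type) [Field F] [Fintype F] [Fintype ι] [DecidableEq ι],
    (2 : F) ≠ 0 → Fintype.card ι = 10 → ∀ x y : Sym2 ι → F, dm x y = c + a →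
      cnt (fun w : Sym2 ι → F => c + b ≤ dm w x ∧ c + d ≤ dm w y ∧ c ≤ tm x y w) *
        (Fintype.card F : ℝ) ^ (cod c a b d) ≤
        C * (Fintype.card F : ℝ) ^ (55 + tri (c + a)) := by
  apply unif4
  · intro c a b d C C' hC h F ι _ _ _ _ h2 hn x y e1
    exact (h F ι h2 hn x y e1).trans (by gcongr)
  · intro c a b d hs
    obtain ⟨f, h1, h3⟩ := (good_EE tab tab_ok 0 0 (10 - (c + a)) (c + a) 10 (c + b) (c + d) 0 c).sym
    have hk := allP_spec chkP c a b d hs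
    simp only [Bool.and_eq_true, Nat.ble_eq] at hk
    obtain ⟨C, h0, hC⟩ := h1.bd hk.2
    refine ⟨C, h0, fun F ι _ _ _ _ h2 hn x y e1 => ?_⟩
    have e2 := (h3 F ι h2 hn x y y (by rw [tm_12, tm_23, tm_self, dm_comm, e1]) e1 e1
        (by rw [dm_self, hn]; omega)).trans (hC _ two_le_q)
    have e3 : cnt (fun w : Sym2 ι → F => c + b ≤ dm w x ∧ c + d ≤ dm w y ∧ c ≤ tm x y w) ≤
        C * (Fintype.card F : ℝ) ^ (55 + tri (c + a) - cod c a b d) := by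
      refine le_trans (cnt_mono ?_) e2
      rintro w ⟨w1, w2, w3⟩
      refine ⟨w1, w2, Nat.zero_le _, w3.trans (Submodule.finrank_mono ?_)⟩
      exact fun v hv => ⟨hv.2, hv.1, hv.1.2⟩
    have e4 : (Fintype.card F : ℝ) ^ (55 + tri (c + a)) =
        (Fintype.card F : ℝ) ^ (55 + tri (c + a) - cod c a b d) *
          (Fintype.card F : ℝ) ^ (cod c a b d) := by
      rw [← pow_add]; congr 1; omega
    rw [e4, ← mul_assoc]
    gcongr

theorem cnt3g : ∃ C : ℝ, 0 ≤ C ∧ ∀ (F ι : Type) [Field F] [Fintype F] [Fintype ι] [DecidableEq ι],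
    (2 : F) ≠ 0 → Fintype.card ι = 10 → ∀ x y z : Sym2 ι → F, dm x y = 0 → dm x z = 0 →
      dm y z = 0 → cnt (fun w : Sym2 ι → F => 5 ≤ dm w x ∧ 5 ≤ dm w y ∧ 5 ≤ dm w z) ≤
        2 * (1 + C / Fintype.card F) * (Fintype.card F : ℝ) ^ 10 := by
  obtain ⟨f, ⟨C, h0, hC⟩, h3⟩ := ((good_EE tab tab_ok 0 0 0 0 10 5 5 5 0).le gen3).sym
  refine ⟨C, h0, fun F ι _ _ _ _ h2 hn x y z e1 e2 e3 => ?_⟩
  have e4 : tm x y z = 0 := by have := tm_le x y z; omega
  refine le_trans (cnt_mono ?_) ((h3 F ι h2 hn x y z e4 e1 e2 e3).trans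
    (by simpa using hC _ two_le_q))
  rintro w ⟨w1, w2, w3⟩
  exact ⟨w1, w2, w3, Nat.zero_le _⟩

theorem cnt2g : ∃ C : ℝ, 0 ≤ C ∧ ∀ (F ι : Type) [Field F] [Fintype F] [Fintype ι] [DecidableEq ι],
    (2 : F) ≠ 0 → Fintype.card ι = 10 → ∀ x y : Sym2 ι → F, dm x y = 0 →
      cnt (fun w : Sym2 ι → F => 5 ≤ dm w x ∧ 5 ≤ dm w y) ≤
        (1 + C / Fintype.card F) * (Fintype.card F : ℝ) ^ 25 := by
  obtain ⟨f, ⟨C, h0, hC⟩, h3⟩ := ((good_EE tab tab_ok 0 0 10 0 10 5 5 0 0).le gen2).sym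
  refine ⟨C, h0, fun F ι _ _ _ _ h2 hn x y e1 => ?_⟩
  refine le_trans (cnt_mono ?_) ((h3 F ι h2 hn x y y
    (by rw [tm_12, tm_23, tm_self, dm_comm, e1]) e1 e1 (by rw [dm_self, hn])).trans
    (by simpa using hC _ two_le_q))
  rintro w ⟨w1, w2⟩
  exact ⟨w1, w2, Nat.zero_le _, Nat.zero_le _⟩

theorem cntS (n e : ℕ) (h : leE (EE tab 0 0 0 n n 1 0 0 0) e = true) :
    ∃ C : ℝ, 0 ≤ C ∧ ∀ (F ι : Type) [Field F] [Fintype F] [Fintype ι] [DecidableEq ι],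
    (2 : F) ≠ 0 → Fintype.card ι = n →
      cnt (fun w : Sym2 ι → F => (toM w).det = 0) ≤ C * (Fintype.card F : ℝ) ^ e := by
  obtain ⟨f, h1, h3⟩ := (good_EE tab tab_ok 0 0 0 n n 1 0 0 0).sym
  obtain ⟨C, h0, hC⟩ := h1.bd h
  refine ⟨C, h0, fun F ι _ _ _ _ h2 hn => ?_⟩
  refine le_trans (cnt_mono ?_) ((h3 F ι h2 hn 0 0 0 (by rw [tm_self, dm_self, hn])
    (by rw [dm_self, hn]; rfl) (by rw [dm_self, hn]; rfl) (by rw [dm_self, hn]; rfl)).trans
    (hC _ two_le_q))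
  intro w hw
  refine ⟨?_, Nat.zero_le _, Nat.zero_le _, Nat.zero_le _⟩
  by_contra hc
  have := det_ne_of_dm (x := w) (y := 0) (by omega)
  rw [sub_zero] at this
  exact this hw

end

end Vale.Agent.P050
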