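import Vale.Agent.P050.Quasi

/-! The typed density is asymptotically at most the spin-model value. -/

namespace Vale.Agent.P050

open Module Matrix

noncomputable section

def eu : Fin 24 → Fin 10 := ![0, 0, 0, 0, 1, 1, 1, 2, 2, 2, 3, 3, 3, 3, 4, 4, 5, 5, 5, 6, 6, 7, 7, 8]
def ev : Fin 24 → Fin 10 := ![1, 2, 3, 5, 2, 3, 4, 4, 5, 6, 4, 5, 7, 8, 6, 8, 6, 7, 9, 8, 9, 8, 9, 9]
def sd0 : Fin 24 → Fin 16 × Fin 3 :=
  ![(0, 0), (0, 1), (1, 1), (2, 1), (0, 2), (1, 2), (4, 1), (4, 2), (2, 2), (6, 1), (5, 2), (3, 2),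
    (9, 1), (8, 1), (6, 2), (8, 2), (7, 2), (9, 2), (12, 1), (11, 2), (12, 2), (10, 2), (13, 2),
    (14, 2)]
def sd1 : Fin 24 → Fin 16 × Fin 3 :=
  ![(1, 0), (2, 0), (3, 0), (3, 1), (4, 0), (5, 0), (5, 1), (6, 0), (7, 0), (7, 1), (8, 0), (9, 0),
    (10, 0), (10, 1), (11, 0), (11, 1), (12, 0), (13, 0), (13, 1), (14, 0), (14, 1), (15, 0),
    (15, 1), (15, 2)]
def pa : Fin 3 → Fin 3 := ![0, 0, 1]
def pb : Fin 3 → Fin 3 := ![1, 2, 2]

theorem sd_bij : Function.Bijective (Sum.elim sd0 sd1 : Fin 24 ⊕ Fin 24 → Fin 16 × Fin 3) := by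
  decide +kernel

theorem sd_ends : ∀ Q, fv (sd0 Q).1 (pa (sd0 Q).2) = eu Q ∧ fv (sd0 Q).1 (pb (sd0 Q).2) = ev Q ∧
    fv (sd1 Q).1 (pa (sd1 Q).2) = eu Q ∧ fv (sd1 Q).1 (pb (sd1 Q).2) = ev Q := by decide +kernel

theorem edge_simple : ∀ Q0 Q : Fin 24, eu Q0 ≠ ev Q0 ∧ (Q ≠ Q0 → (eu Q = ev Q0 ∨ ev Q = ev Q0) →
    eu Q ≠ eu Q0 ∧ ev Q ≠ eu Q0) := by decide +kernel

theorem prod_sides (h : Fin 16 × Fin 3 → ℝ) :
    ∏ p, h p = ∏ Q, (h (sd0 Q) * h (sd1 Q)) := by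
  rw [← sd_bij.prod_comp h, Fintype.prod_sum_type, Finset.prod_mul_distrib]
  rfl

def al (s : Fin 16 → Fin 3 → ℝ) (p : Fin 16 × Fin 3) : ℝ := s p.1 (pa p.2) * s p.1 (pb p.2)

/-- the spin-model value -/
def ZZ (s : Fin 16 → Fin 3 → ℝ) : ℝ := ∏ Q, (1 + al s (sd0 Q) * al s (sd1 Q))

variable {F : Type} [Field F] [Fintype F] [DecidableEq F]

/-- typed homomorphism density in one coordinate -/
def tt (F : Type) [Field F] [Fintype F] [DecidableEq F] (s : Fin 16 → Fin 3 → ℝ) : ℝ :=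
  ex (fun z : Fin 10 → YY F => ∏ f : Fin 16, ex (fun y =>
    Wk (s f 0) (z (fv f 0)) y * Wk (s f 1) (z (fv f 1)) y * Wk (s f 2) (z (fv f 2)) y))

theorem abs_prod_le {ι : Type} (S : Finset ι) (f : ι → ℝ) (h : ∀ i, |f i| ≤ 1) :
    |∏ i ∈ S, f i| ≤ 1 := by
  rw [Finset.abs_prod]
  exact Finset.prod_le_one (fun _ _ => abs_nonneg _) (fun i _ => h i)

theorem sub_small {δ : ℝ}
    (hc : ∀ f g : YY F → ℝ, (∀ x, |f x| ≤ 1) → (∀ x, |g x| ≤ 1) →
      |ex (fun x => ex (fun y => sig x y * f x * g y))| ≤ δ)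
    (S : Finset (Fin 24)) (hS : S.Nonempty) :
    |ex (fun z : Fin 10 → YY F => ∏ Q ∈ S, sig (z (eu Q)) (z (ev Q)))| ≤ δ := by
  obtain ⟨Q0, hQ0⟩ := hS
  have hab := (edge_simple Q0 Q0).1
  rw [ex_update (ev Q0), ex_update (eu Q0)]
  refine (abs_ex_le _).trans (ex_le fun z => ?_)
  let p : Fin 24 → Prop := fun Q => eu Q = ev Q0 ∨ ev Q = ev Q0
  refine le_trans (le_of_eq ?_) (hc
    (fun s => ∏ Q ∈ (S.erase Q0).filter (fun Q => ¬ p Q),
      sig (Function.update z (eu Q0) s (eu Q)) (Function.update z (eu Q0) s (ev Q)))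
    (fun t => ∏ Q ∈ (S.erase Q0).filter p,
      sig (Function.update z (ev Q0) t (eu Q)) (Function.update z (ev Q0) t (ev Q)))
    (fun _ => abs_prod_le _ _ fun _ => abs_sig_le _ _)
    (fun _ => abs_prod_le _ _ fun _ => abs_sig_le _ _))
  congr 1
  refine ex_congr fun s => ex_congr fun t => ?_
  rw [← Finset.mul_prod_erase S _ hQ0, ← Finset.prod_filter_not_mul_prod_filter (S.erase Q0) p,
    mul_assoc, Function.update_self, Function.update_of_ne hab, Function.update_self]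
  congr 2
  · apply Finset.prod_congr rfl
    intro Q hQ
    have := (Finset.mem_filter.1 hQ).2
    simp only [p, not_or] at this
    rw [Function.update_of_ne this.1, Function.update_of_ne this.2]
  · apply Finset.prod_congr rfl
    intro Q hQ
    obtain ⟨h1, h2⟩ := Finset.mem_filter.1 hQ
    obtain ⟨h3, h4⟩ := (edge_simple Q0 Q).2 (Finset.mem_erase.1 h1).1 h2
    rw [Function.update_comm hab, Function.update_of_ne h3, Function.update_of_ne h4]

theorem abs_al_le {s : Fin 16 → Fin 3 → ℝ} (hs : ∀ f i, S3 (s f i)) (p : Fin 16 × Fin 3) :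
    |al s p| ≤ 1 := by
  unfold al; rw [abs_mul]
  exact mul_le_one₀ (hs _ _).abs_le (abs_nonneg _) (hs _ _).abs_le

theorem abs_u_le {a b : ℝ} (ha : |a| ≤ 1) (hb : |b| ≤ 1) : |1 + a * b| ≤ 2 ∧ 0 ≤ 1 + a * b := by
  have : |a * b| ≤ 1 := by rw [abs_mul]; exact mul_le_one₀ ha (abs_nonneg _) hb
  have := abs_le.1 this
  exact ⟨abs_le.2 ⟨by linarith, by linarith⟩, by linarith⟩

theorem ZZ_bounds {s : Fin 16 → Fin 3 → ℝ} (hs : ∀ f i, S3 (s f i)) :
    0 ≤ ZZ s ∧ ZZ s ≤ 2 ^ 24 := by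
  constructor
  · exact Finset.prod_nonneg fun Q _ => (abs_u_le (abs_al_le hs _) (abs_al_le hs _)).2
  · refine (Finset.prod_le_prod (fun Q _ => (abs_u_le (abs_al_le hs _) (abs_al_le hs _)).2)
      (g := fun _ => 2) (fun Q _ => (le_abs_self _).trans
        (abs_u_le (abs_al_le hs _) (abs_al_le hs _)).1)).trans (by simp)

theorem main_term0 {δ : ℝ} (h0 : 0 ≤ δ)
    (hc : ∀ f g : YY F → ℝ, (∀ x, |f x| ≤ 1) → (∀ x, |g x| ≤ 1) →
      |ex (fun x => ex (fun y => sig x y * f x * g y))| ≤ δ)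
    (u v : Fin 24 → ℝ) (hu : ∀ Q, |u Q| ≤ 2) (hv : ∀ Q, |v Q| ≤ 2) :
    ex (fun z : Fin 10 → YY F => ∏ Q, (v Q * sig (z (eu Q)) (z (ev Q)) + u Q)) ≤
      ∏ Q, u Q + 2 ^ 48 * δ := by
  simp only [Finset.prod_add]
  rw [ex_sum, ← Finset.add_sum_erase _ _ (Finset.empty_mem_powerset _)]
  apply add_le_add
  · simp only [Finset.prod_empty, one_mul, Finset.sdiff_empty, ex_const, le_refl]
  · refine (Finset.sum_le_card_nsmul _ _ (2 ^ 24 * δ) fun S hS => ?_).trans ?_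
    · have hne : S.Nonempty := Finset.nonempty_iff_ne_empty.2 (Finset.mem_erase.1 hS).1
      simp only [Finset.prod_mul_distrib]
      have e : ∀ a b c : ℝ, a * b * c = (a * c) * b := fun a b c => by ring
      simp only [e _ (∏ Q ∈ S, sig _ _)]
      rw [ex_mul_left]
      refine (le_abs_self _).trans ?_
      rw [abs_mul]
      apply mul_le_mul _ (sub_small hc S hne) (abs_nonneg _) (by positivity)
      rw [abs_mul, Finset.abs_prod, Finset.abs_prod]
      have h1 : ∏ Q ∈ S, |v Q| ≤ ∏ _Q ∈ S, (2 : ℝ) :=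
        Finset.prod_le_prod (fun _ _ => abs_nonneg _) fun Q _ => hv Q
      have h2 : ∏ Q ∈ Finset.univ \ S, |u Q| ≤ ∏ _Q ∈ Finset.univ \ S, (2 : ℝ) :=
        Finset.prod_le_prod (fun _ _ => abs_nonneg _) fun Q _ => hu Q
      refine (mul_le_mul h1 h2 (Finset.prod_nonneg fun _ _ => abs_nonneg _) (by positivity)).trans
        (le_of_eq ?_)
      rw [mul_comm, Finset.prod_sdiff (Finset.subset_univ S), Finset.prod_const, Finset.card_univ,
        Fintype.card_fin]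
    · have : ((Finset.univ : Finset (Fin 24)).powerset.erase ∅).card ≤ 2 ^ 24 := by
        refine (Finset.card_erase_le).trans ?_
        rw [Finset.card_powerset, Finset.card_univ, Fintype.card_fin]
      rw [nsmul_eq_mul]
      have h2 : (((Finset.univ : Finset (Fin 24)).powerset.erase ∅).card : ℝ) ≤ 2 ^ 24 := by
        exact_mod_cast this
      calc _ ≤ (2 : ℝ) ^ 24 * (2 ^ 24 * δ) := mul_le_mul_of_nonneg_right h2 (by positivity)
        _ = _ := by ring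

theorem main_term {δ : ℝ} (h0 : 0 ≤ δ)
    (hc : ∀ f g : YY F → ℝ, (∀ x, |f x| ≤ 1) → (∀ x, |g x| ≤ 1) →
      |ex (fun x => ex (fun y => sig x y * f x * g y))| ≤ δ)
    {s : Fin 16 → Fin 3 → ℝ} (hs : ∀ f i, S3 (s f i)) :
    ex (fun z : Fin 10 → YY F => ∏ Q, ((al s (sd0 Q) + al s (sd1 Q)) * sig (z (eu Q)) (z (ev Q)) +
      (1 + al s (sd0 Q) * al s (sd1 Q)))) ≤ ZZ s + 2 ^ 48 * δ :=
  main_term0 h0 hc _ _ (fun _ => (abs_u_le (abs_al_le hs _) (abs_al_le hs _)).1)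
    (fun Q => (abs_add_le _ _).trans (by linarith [abs_al_le hs (sd0 Q), abs_al_le hs (sd1 Q)]))

theorem sig_sq {z z' : YY F} (h : dm z.1 z'.1 = 0) : sig z z' * sig z z' = 1 := by
  unfold sig
  have h1 := sg_sq z.2
  have h2 := sg_sq z'.2
  have h3 := chi_sq (det_ne_of_dm h)
  calc _ = (sg z.2 * sg z.2) * (sg z'.2 * sg z'.2) *
      (chi (toM (z.1 - z'.1)).det * chi (toM (z.1 - z'.1)).det) := by ring
    _ = 1 := by rw [h1, h2, h3]; ring

theorem fac_nonneg {a b c : ℝ} (ha : |a| ≤ 1) (hb : |b| ≤ 1) (hc : |c| ≤ 1) :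
    0 ≤ (a + b) * c + (1 + a * b) := by
  obtain ⟨a1, a2⟩ := abs_le.1 ha
  obtain ⟨b1, b2⟩ := abs_le.1 hb
  obtain ⟨c1, c2⟩ := abs_le.1 hc
  have h1 : 0 ≤ (1 + a) * (1 + b) * (1 + c) := by
    apply mul_nonneg (mul_nonneg _ _) <;> linarith
  have h2 : 0 ≤ (1 - a) * (1 - b) * (1 - c) := by
    apply mul_nonneg (mul_nonneg _ _) <;> linarith
  nlinarith

theorem tt_le {r C Cs δ : ℝ} (I : Inp F r C) (h0 : 0 ≤ δ)
    (hc : ∀ f g : YY F → ℝ, (∀ x, |f x| ≤ 1) → (∀ x, |g x| ≤ 1) →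
      |ex (fun x => ex (fun y => sig x y * f x * g y))| ≤ δ)
    (hS : ex (fun x : Fin 10 → Sym2 II → F => ind (¬ Gen x) *
      ∏ f : Fin 16, (Fintype.card F : ℝ) ^ exT (x (fv f 0)) (x (fv f 1)) (x (fv f 2))) ≤ Cs)
    {s : Fin 16 → Fin 3 → ℝ} (hs : ∀ f i, S3 (s f i)) :
    tt F s ≤ r ^ 64 * (ZZ s + 2 ^ 48 * δ) + (1 + 32 * C) ^ 16 * Cs := by
  have hr := I.r1
  have hC := I.C0
  have e1 := ex_fun_prod (ι := Fin 10) (A := Sym2 II → F) (B := Bool) (fun x _ => ind (¬ Gen x) *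
      ∏ f : Fin 16, (Fintype.card F : ℝ) ^ exT (x (fv f 0)) (x (fv f 1)) (x (fv f 2)))
  simp only [ex_const] at e1
  rw [← e1] at hS
  refine le_trans ?_ (add_le_add (mul_le_mul_of_nonneg_left (main_term h0 hc hs) (by positivity))
    (mul_le_mul_of_nonneg_left hS (by positivity)))
  rw [← ex_mul_left, ← ex_mul_left, ← ex_add]
  refine ex_mono fun z => ?_
  have hK : ∀ f : Fin 16, 0 ≤ ex (fun y =>
      Wk (s f 0) (z (fv f 0)) y * Wk (s f 1) (z (fv f 1)) y * Wk (s f 2) (z (fv f 2)) y) :=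
    fun f => ex_nonneg fun y => mul_nonneg (mul_nonneg (Wk_nonneg (hs _ _) _ _)
      (Wk_nonneg (hs _ _) _ _)) (Wk_nonneg (hs _ _) _ _)
  by_cases hz : Gen (fun i => (z i).1)
  · rw [ind_neg (not_not.2 hz), zero_mul, mul_zero, add_zero]
    refine (Finset.prod_le_prod (fun f _ => hK f) fun f _ => face_gen I (hs f 0) (hs f 1) (hs f 2)
      _ _ _ (hz f).1 (hz f).2.1 (hz f).2.2).trans (le_of_eq ?_)
    rw [Finset.prod_mul_distrib, Finset.prod_const, Finset.card_univ, Fintype.card_fin, ← pow_mul]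
    congr 1
    have e2 := prod_sides (fun p => 1 + al s p * sig (z (fv p.1 (pa p.2))) (z (fv p.1 (pb p.2))))
    rw [Fintype.prod_prod_type] at e2
    simp only [Fin.prod_univ_three] at e2
    refine Eq.trans e2 (Finset.prod_congr rfl fun Q _ => ?_)
    obtain ⟨q1, q2, q3, q4⟩ := sd_ends Q
    have e3 : dm (z (fv (sd0 Q).1 (pa (sd0 Q).2))).1 (z (fv (sd0 Q).1 (pb (sd0 Q).2))).1 = 0 := by
      generalize sd0 Q = p
      obtain ⟨f, j⟩ := p
      fin_cases j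
      · exact (hz f).1
      · exact (hz f).2.1
      · exact (hz f).2.2
    rw [q1, q2] at e3
    rw [q1, q2, q3, q4]
    linear_combination (al s (sd0 Q) * al s (sd1 Q)) * sig_sq e3
  · rw [ind_pos hz, one_mul]
    refine le_trans ?_ (le_add_of_nonneg_left (mul_nonneg (by positivity)
      (Finset.prod_nonneg fun Q _ => fac_nonneg (abs_al_le hs _) (abs_al_le hs _)
        (abs_sig_le _ _))))
    refine (Finset.prod_le_prod (fun f _ => hK f) fun f _ => face_sing I (hs f 0) (hs f 1) (hs f 2)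
      _ _ _).trans (le_of_eq ?_)
    rw [Finset.prod_mul_distrib, Finset.prod_const, Finset.card_univ, Fintype.card_fin]

theorem fin_arith {R K Z δ c η : ℝ} (h1 : 1 ≤ R) (h2 : Z ≤ 2 ^ 24)
    (h3 : (R - 1) * 2 ^ 24 + R * (2 ^ 48 * δ) + K * c < η) :
    R * (Z + 2 ^ 48 * δ) + K * c ≤ Z + η := by
  have := mul_le_mul_of_nonneg_left h2 (sub_nonneg.2 h1)
  linarith

theorem tbound {η : ℝ} (hη : 0 < η) : ∃ q0 : ℝ, ∀ (F : Type) [Field F] [Fintype F] [DecidableEq F],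
    q0 ≤ Fintype.card F → ringChar F ≠ 2 → chi (-1 : F) = 1 → 0 < cnt (InO (F := F)) ∧
      ∀ s : Fin 16 → Fin 3 → ℝ, (∀ f i, S3 (s f i)) → tt F s ≤ ZZ s + η := by
  obtain ⟨C3, p3, h3⟩ := cnt3
  obtain ⟨C2, p2, h2⟩ := cnt2
  obtain ⟨G3, r3, g3⟩ := cnt3g
  obtain ⟨G2, r2, g2⟩ := cnt2g
  obtain ⟨C5, p5, h5⟩ := cntS 5 14 sing5
  obtain ⟨Cb, pb, hb⟩ := cnt_bet
  obtain ⟨Cs, ps, hs⟩ := sing_bound
  set A := G3 + G2 + 2 * C5 with hA
  let h : ℝ → ℝ := fun w => ((1 + A * w) ^ 64 - 1) * 2 ^ 24 +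
    (1 + A * w) ^ 64 * (2 ^ 48 * (√(2 * w) + Cb * w)) + (1 + 32 * (C3 + C2)) ^ 16 * (Cs * w)
  have hcont : Continuous h := by fun_prop
  have h00 : h 0 = 0 := by simp [h]
  obtain ⟨ε, hε, hh⟩ := Metric.continuous_iff.1 hcont 0 η hη
  refine ⟨max (2 / ε) (A + 1), fun F _ _ _ hq hF hm => ?_⟩
  have h2' : (2 : F) ≠ 0 := by
    intro h
    exact hF (CharP.ringChar_of_prime_eq_zero Nat.prime_two (by exact_mod_cast h))
  have hq2 : (2 : ℝ) ≤ Fintype.card F := two_le_q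
  have hq1 : 2 / ε ≤ Fintype.card F := (le_max_left _ _).trans hq
  have hqA : A + 1 ≤ Fintype.card F := (le_max_right _ _).trans hq
  have hO := cnt_O (F := F)
  have h5' := h5 F (Fin 5) h2' (by simp)
  have h3' := h3 F II h2' card_II
  have h2'' := h2 F II h2' card_II
  have g3' := g3 F II h2' card_II
  have g2' := g2 F II h2' card_II
  have hb' := hb F h2'
  have hs' := hs F II h2' card_II
  have hcut := cut_Y (F := F) hF (C := Cb) (δ := √(2 * (1 / Fintype.card F))) (Real.sqrt_nonneg _)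
    (by rw [Real.sq_sqrt (by positivity)]; exact le_of_eq (by ring)) hb'
  have hc0 : c0 F = (Fintype.card F : ℝ) ^ 55 / cnt (InO (F := F)) := rfl
  set q := (Fintype.card F : ℝ) with hqdef
  have hq0 : 0 < q := by linarith
  have hw : |h (1 / q) - h 0| < η := by
    apply hh
    rw [Real.dist_eq, sub_zero, abs_of_pos (by positivity), div_lt_iff₀ hq0]
    rw [div_le_iff₀ hε] at hq1
    linarith
  have hO1 : (q - C5) * q ^ 39 ≤ cnt (InO (F := F)) := by
    refine le_trans ?_ hO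
    have : (q - C5) * q ^ 39 = (q ^ 15 - C5 * q ^ 14) * q ^ 25 := by ring
    rw [this]; gcongr
  have hqC : 2 * C5 < q := by linarith
  have hO2 : 0 < cnt (InO (F := F)) := lt_of_lt_of_le (by
    have : 0 < q - C5 := by linarith
    positivity) hO1
  have hA0 : 0 ≤ A := by positivity
  have hAq : A * (1 / q) ≤ 1 := by rw [mul_one_div, div_le_one hq0]; linarith
  have mono : ∀ G, G ≤ A → 1 + G / q ≤ 1 + A * (1 / q) := by
    intro G hG
    rw [mul_one_div]; gcongr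
  have I : Inp F (1 + A * (1 / q)) (C3 + C2) := by
    refine ⟨hm, hO2, le_add_of_nonneg_right (by positivity), by linarith, by positivity, ?_,
      fun x y z e1 e2 e3 => (g3' x y z e1 e2 e3).trans ?_, fun x y e1 => (g2' x y e1).trans ?_,
      fun x y z => (h3' x y z).trans ?_, fun x y => (h2'' x y).trans ?_⟩
    · rw [hc0, div_le_iff₀ hO2]
      have e1 : 1 + 2 * C5 / q ≤ 1 + A * (1 / q) := mono _ (by linarith)
      have e2 : q ≤ (1 + 2 * C5 / q) * (q - C5) := by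
        have : (1 + 2 * C5 / q) * (q - C5) = q + C5 * (q - 2 * C5) / q := by field_simp; ring
        rw [this]
        have : 0 ≤ q - 2 * C5 := by linarith
        exact le_add_of_nonneg_right (by positivity)
      have e3 : 0 ≤ q - C5 := by linarith
      calc q ^ 55 = q * q ^ 54 := by ring
        _ ≤ ((1 + 2 * C5 / q) * (q - C5)) * q ^ 54 := by gcongr
        _ = (1 + 2 * C5 / q) * q ^ 15 * ((q - C5) * q ^ 39) := by ring
        _ ≤ _ := by gcongr
    · have := mono G3 (by linarith)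
      gcongr
    · have := mono G2 (by linarith)
      gcongr
    · gcongr; linarith
    · gcongr; linarith
  refine ⟨hO2, fun s hs => ?_⟩
  have hδ : 0 ≤ √(2 * (1 / q)) + Cb / q := by positivity
  refine (tt_le I hδ hcut hs' hs).trans ?_
  rw [h00, sub_zero] at hw
  have hw2 := (abs_lt.1 hw).2
  apply fin_arith (one_le_pow₀ I.r1) (ZZ_bounds hs).2
  rw [div_eq_mul_one_div Cb, div_eq_mul_one_div Cs]
  exact hw2

end

end Vale.Agent.P050
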