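import Vale.Agent.P050.Good

/-! Certified table of exponents. -/

namespace Vale.Agent.P050

noncomputable section

inductive Tr : Type
  | leaf : Tr
  | node : Tr → ℕ → ℕ → Tr → Tr

def Tr.find (t : Tr) (k : ℕ) : ℕ :=
  Tr.rec (motive := fun _ => ℕ) 0
    (fun _ key v _ il ir => bif Nat.blt k key then il else bif Nat.beq k key then v else ir) t

def Tr.all (t : Tr) (p : ℕ → ℕ → Bool) : Bool :=
  Tr.rec (motive := fun _ => Bool) true (fun _ key v _ il ir => p key v && (il && ir)) t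

theorem Tr.find_all (t : Tr) (p : ℕ → ℕ → Bool) (h : t.all p = true) (k : ℕ)
    (h0 : t.find k ≠ 0) : p k (t.find k) = true := by
  induction t with
  | leaf => exact absurd rfl h0
  | node l key v r il ir =>
    have e1 : (Tr.node l key v r).all p = (p key v && (l.all p && r.all p)) := rfl
    have e2 : (Tr.node l key v r).find k =
      bif Nat.blt k key then l.find k else bif Nat.beq k key then v else r.find k := rfl
    rw [e1] at h
    simp only [Bool.and_eq_true] at h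
    rw [e2] at h0 ⊢
    cases h1 : Nat.blt k key
    · cases h2 : Nat.beq k key
      · rw [h1, h2] at h0
        exact ir h.2.2 h0
      · rw [Nat.eq_of_beq_eq_true h2]
        exact h.1
    · rw [h1] at h0
      exact il h.2.1 h0

def prune (n c a b d k1 k2 k3 : ℕ) : Bool :=
  Nat.blt n k1 || (Nat.blt n k2 || (Nat.blt n k3 || (Nat.blt (n + c + a) (k1 + k2) ||
    (Nat.blt (n + c + b) (k1 + k3) || Nat.blt (n + c + d) (k2 + k3)))))

theorem good_prune {n c a b d k1 k2 k3 : ℕ} (g : ℕ) (t : ℕ × ℕ)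
    (h : prune n c a b d k1 k2 k3 = true) : Good n c a b d k1 k2 k3 g t := by
  simp only [prune, Bool.or_eq_true, Nat.blt_eq] at h
  rcases h with h | h | h | h | h | h
  · exact Good.pr1 t h
  · exact (Good.pr1 t h).swap12
  · exact (Good.pr1 t h).swap13
  · exact Good.pr12 t h
  · exact (Good.pr12 t h).swap23
  · exact (Good.pr12 t (by omega)).swap13

def key (n a b d k1 k2 k3 : ℕ) : ℕ :=
  (((((n * 32 + a) * 32 + b) * 32 + d) * 32 + k1) * 32 + k2) * 32 + k3

def dec (n v : ℕ) : ℕ × ℕ := bif Nat.beq v 0 then (1, tri n) else (v / 64, v % 64)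

def lkS (T : Tr) (n a b d k1 k2 k3 : ℕ) : ℕ × ℕ :=
  bif prune n 0 a b d k1 k2 k3 then (0, 0) else
    bif Nat.beq (k1 + k2 + k3) 0 || Nat.ble 32 (n + a + b + d) then (1, tri n) else
      dec n (T.find (key n a b d k1 k2 k3))

def lk3 (T : Tr) (n a b d k1 k2 k3 : ℕ) : ℕ × ℕ :=
  bif Nat.blt b d then lkS T n a d b k2 k1 k3 else lkS T n a b d k1 k2 k3

def lk2 (T : Tr) (n a b d k1 k2 k3 : ℕ) : ℕ × ℕ :=
  bif Nat.blt a d then lk3 T n d b a k3 k2 k1 else lk3 T n a b d k1 k2 k3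

def lk (T : Tr) (n a b d k1 k2 k3 : ℕ) : ℕ × ℕ :=
  bif Nat.blt a b then lk2 T n b a d k1 k3 k2 else lk2 T n a b d k1 k2 k3

def kT (T : Tr) (m x y z : ℕ) : ℕ × ℕ :=
  addT (shT (m + 1 - (x + 1)) 1 (lk T m 0 0 0 x y z))
    (shT (m - (x + 1)) (if m ≤ 1 then 2 else 1) (lk T m 0 0 1 x y z))

def aT (T : Tr) (m a b d k1 k2 k3 : ℕ) : ℕ × ℕ :=
  addT (addT (lk T m a b d (k1 - 1) (k2 - 1) k3) (shT (m + 1) 1 (lk T m a b d k1 k2 (k3 + 1))))
    (addT (shT (m + 1 - k3) 1 (lk T m a b d k1 k2 k3))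
      (shT (m + 1 - k3) 1 (lk T m a b d k1 k2 (k3 - 1))))

def stepT (T : Tr) (m a b d k1 k2 k3 : ℕ) : ℕ × ℕ :=
  bif Nat.blt 0 a then aT T m (a - 1) b d k1 k2 k3 else
    bif Nat.blt 0 (b + d) then (1, tri (m + 1)) else
      bif Nat.blt 0 k1 then kT T m (k1 - 1) k2 k3 else
        bif Nat.blt 0 k2 then kT T m (k2 - 1) k1 k3 else
          bif Nat.blt 0 k3 then kT T m (k3 - 1) k2 k1 else (1, tri (m + 1))

def chk (T : Tr) (k v : ℕ) : Bool :=
  leT (stepT T (k / 32 / 32 / 32 / 32 / 32 / 32 - 1) (k / 32 / 32 / 32 / 32 / 32 % 32)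
    (k / 32 / 32 / 32 / 32 % 32) (k / 32 / 32 / 32 % 32)
    (k / 32 / 32 % 32) (k / 32 % 32) (k % 32)) (v / 64, v % 64)

theorem good_lk_of (T : Tr) (n : ℕ)
    (h : ∀ a b d k1 k2 k3, Good n 0 a b d k1 k2 k3 0 (lkS T n a b d k1 k2 k3)) :
    ∀ a b d k1 k2 k3, Good n 0 a b d k1 k2 k3 0 (lk T n a b d k1 k2 k3) := by
  have h3 : ∀ a b d k1 k2 k3, Good n 0 a b d k1 k2 k3 0 (lk3 T n a b d k1 k2 k3) := by
    intro a b d k1 k2 k3
    unfold lk3
    cases Nat.blt b d
    · exact h _ _ _ _ _ _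
    · exact (h _ _ _ _ _ _).swap12
  have h2 : ∀ a b d k1 k2 k3, Good n 0 a b d k1 k2 k3 0 (lk2 T n a b d k1 k2 k3) := by
    intro a b d k1 k2 k3
    unfold lk2
    cases Nat.blt a d
    · exact h3 _ _ _ _ _ _
    · exact (h3 _ _ _ _ _ _).swap13
  intro a b d k1 k2 k3
  unfold lk
  cases Nat.blt a b
  · exact h2 _ _ _ _ _ _
  · exact (h2 _ _ _ _ _ _).swap23

theorem good_step (T : Tr) (m : ℕ)
    (h : ∀ a b d k1 k2 k3, Good m 0 a b d k1 k2 k3 0 (lk T m a b d k1 k2 k3))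
    (a b d k1 k2 k3 : ℕ) : Good (m + 1) 0 a b d k1 k2 k3 0 (stepT T m a b d k1 k2 k3) := by
  have hk : ∀ x y z, Good (m + 1) 0 0 0 0 (x + 1) y z 0 (kT T m x y z) :=
    fun x y z => Good.kst (h _ _ _ _ _ _) (h _ _ _ _ _ _)
  unfold stepT
  rcases a with _ | a
  swap
  · exact Good.ast (h _ _ _ _ _ _) (h _ _ _ _ _ _) (h _ _ _ _ _ _) (h _ _ _ _ _ _)
  cases h1 : Nat.blt 0 (b + d)
  swap
  · exact good_tot _ _ _ _ _ _ _ _ _
  have h2 : ¬ 0 < b + d := by rw [← Nat.blt_eq]; simp [h1]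
  obtain rfl : b = 0 := by omega
  obtain rfl : d = 0 := by omega
  rcases k1 with _ | k1
  swap
  · exact hk _ _ _
  rcases k2 with _ | k2
  swap
  · exact (hk _ _ _).swap12
  rcases k3 with _ | k3
  swap
  · exact (hk _ _ _).swap13
  exact good_tot _ _ _ _ _ _ _ _ _

theorem good_lk (T : Tr) (hT : T.all (chk T) = true) (n : ℕ) :
    ∀ a b d k1 k2 k3, Good n 0 a b d k1 k2 k3 0 (lk T n a b d k1 k2 k3) := by
  induction n with
  | zero =>
    apply good_lk_of
    intro a b d k1 k2 k3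
    unfold lkS
    cases h1 : prune 0 0 a b d k1 k2 k3
    swap
    · exact good_prune _ _ h1
    simp only [prune, Bool.or_eq_false_iff] at h1
    obtain ⟨e1, e2, e3, -⟩ := h1
    have f : ∀ k, Nat.blt 0 k = false → k = 0 := by
      intro k hk
      have : ¬ 0 < k := by rw [← Nat.blt_eq]; simp [hk]
      omega
    rw [f _ e1, f _ e2, f _ e3]
    exact good_tot _ _ _ _ _ _ _ _ _
  | succ m ih =>
    apply good_lk_of
    intro a b d k1 k2 k3
    unfold lkS
    cases h1 : prune (m + 1) 0 a b d k1 k2 k3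
    swap
    · exact good_prune _ _ h1
    cases h2 : (Nat.beq (k1 + k2 + k3) 0 || Nat.ble 32 (m + 1 + a + b + d))
    swap
    · exact good_tot _ _ _ _ _ _ _ _ _
    unfold dec
    cases h3 : Nat.beq (T.find (key (m + 1) a b d k1 k2 k3)) 0
    swap
    · exact good_tot _ _ _ _ _ _ _ _ _
    have h4 := T.find_all _ hT _ (Nat.ne_of_beq_eq_false h3)
    simp only [prune, Bool.or_eq_false_iff] at h1 h2
    obtain ⟨e1, e2, e3, -⟩ := h1
    have f : ∀ x k, Nat.blt x k = false → k ≤ x := by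
      intro x k hk
      have : ¬ x < k := by rw [← Nat.blt_eq]; simp [hk]
      omega
    have e1 := f _ _ e1
    have e2 := f _ _ e2
    have e3 := f _ _ e3
    have e4 : ¬ 32 ≤ m + 1 + a + b + d := by rw [← Nat.ble_eq]; simp [h2.2]
    unfold chk at h4
    have r1 : ∀ x y : ℕ, y < 32 → (x * 32 + y) / 32 = x := by intro x y h; omega
    have r2 : ∀ x y : ℕ, y < 32 → (x * 32 + y) % 32 = y := by intro x y h; omega
    have ha : a < 32 := by omega
    have hb : b < 32 := by omega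
    have hd : d < 32 := by omega
    have hk1 : k1 < 32 := by omega
    have hk2 : k2 < 32 := by omega
    have hk3 : k3 < 32 := by omega
    generalize T.find (key (m + 1) a b d k1 k2 k3) = v at h4 ⊢
    unfold key at h4
    rw [r1 _ _ hk3, r2 _ _ hk3, r1 _ _ hk2, r2 _ _ hk2, r1 _ _ hk1, r2 _ _ hk1, r1 _ _ hd,
      r2 _ _ hd, r1 _ _ hb, r2 _ _ hb, r1 _ _ ha, r2 _ _ ha] at h4
    exact (good_step T m ih a b d k1 k2 k3).le h4

def EE (T : Tr) (a b d c : ℕ) : ℕ → ℕ → ℕ → ℕ → ℕ → ℕ × ℕ :=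
  Nat.rec (motive := fun _ => ℕ → ℕ → ℕ → ℕ → ℕ → ℕ × ℕ)
    (fun n k1 k2 k3 g => bif Nat.blt 0 g then (0, 0) else lk T n a b d k1 k2 k3)
    (fun c ih n k1 k2 k3 g =>
      bif Nat.blt (c + 1) g || prune n (c + 1) a b d k1 k2 k3 then (0, 0) else
        bif Nat.beq (k1 + k2 + k3 + g) 0 then (1, tri n) else
          addT (ih (n - 1) (k1 - 1) (k2 - 1) (k3 - 1) (g - 1))
            (shT n 1 (ih (n - 1) k1 k2 k3 g))) c

theorem good_EE (T : Tr) (hT : T.all (chk T) = true) (a b d c : ℕ) :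
    ∀ n k1 k2 k3 g, Good n c a b d k1 k2 k3 g (EE T a b d c n k1 k2 k3 g) := by
  induction c with
  | zero =>
    intro n k1 k2 k3 g
    rcases g with _ | g
    · exact good_lk T hT n a b d k1 k2 k3
    · exact Good.prg _ (by omega)
  | succ c ih =>
    intro n k1 k2 k3 g
    have e : EE T a b d (c + 1) n k1 k2 k3 g =
      bif Nat.blt (c + 1) g || prune n (c + 1) a b d k1 k2 k3 then (0, 0) else
        bif Nat.beq (k1 + k2 + k3 + g) 0 then (1, tri n) else
          addT (EE T a b d c (n - 1) (k1 - 1) (k2 - 1) (k3 - 1) (g - 1))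
            (shT n 1 (EE T a b d c (n - 1) k1 k2 k3 g)) := rfl
    rw [e]
    cases h1 : Nat.blt (c + 1) g
    swap
    · exact Good.prg _ (by simpa [Nat.blt_eq] using h1)
    cases h2 : prune n (c + 1) a b d k1 k2 k3
    swap
    · exact good_prune _ _ h2
    cases h3 : Nat.beq (k1 + k2 + k3 + g) 0
    swap
    · exact good_tot _ _ _ _ _ _ _ _ _
    rcases n with _ | n
    · exact Good.prc _ (by omega)
    · exact Good.cst (ih _ _ _ _ _) (ih _ _ _ _ _)

end

end Vale.Agent.P050
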