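import Vale.Agent.P050.TyData

/-! The labelled spin model has value below one. -/

namespace Vale.Agent.P050

noncomputable section

theorem conn_gen {α ε : Type} (s t : ε → α) (good : ε → Prop) (dom : α → Prop) (root : α)
    (rk : α → ℕ) (h : ∀ a, dom a → a = root ∨ ∃ e, good e ∧
      ((s e = a ∧ dom (t e) ∧ rk (t e) < rk a) ∨ (t e = a ∧ dom (s e) ∧ rk (s e) < rk a)))
    {β : Type} (U : α → β) (hU : ∀ e, good e → U (s e) = U (t e)) :
    ∀ a, dom a → U a = U root := by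
  intro a
  induction hn : rk a using Nat.strong_induction_on generalizing a with
  | _ n ih =>
    intro ha
    rcases h a ha with rfl | ⟨e, he, ⟨h1, h2, h3⟩ | ⟨h1, h2, h3⟩⟩
    · rfl
    · rw [← h1, hU e he]; exact ih _ (hn ▸ h3) _ rfl h2
    · rw [← h1, ← hU e he]; exact ih _ (hn ▸ h3) _ rfl h2

theorem mz_normal : ∀ a b c d : Bool, mz 1 (a.toNat + b.toNat) (c.toNat + d.toNat) ≠ 0 →
    a = b ∧ c = d := by decide

theorem PZ_nonpos (φ : HV → Fin 26) (d1 d2 d3 d4 root : Fin 24) (rk : Fin 24 → ℕ)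
    (hc : ∀ a : Fin 24, (a ≠ d1 ∧ a ≠ d2 ∧ a ≠ d3 ∧ a ≠ d4) → a = root ∨
      ∃ e, ty (φ (pt e)) (φ (fc e)) = 1 ∧
      ((q1 e = a ∧ (q2 e ≠ d1 ∧ q2 e ≠ d2 ∧ q2 e ≠ d3 ∧ q2 e ≠ d4) ∧ rk (q2 e) < rk a) ∨
        (q2 e = a ∧ (q1 e ≠ d1 ∧ q1 e ≠ d2 ∧ q1 e ≠ d3 ∧ q1 e ≠ d4) ∧ rk (q1 e) < rk a)))
    (hs : ∀ b0 b1 b2 b3 b4 c0 c1 c2 c3 c4 : Bool,
      PZ φ (bld d1 d2 d3 d4 b0 b1 b2 b3 b4) (bld d1 d2 d3 d4 c0 c1 c2 c3 c4) ≤ 0)
    (A B : Fin 24 → Bool) : PZ φ A B ≤ 0 := by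
  by_cases h0 : PZ φ A B = 0
  · exact h0.le
  have h1 : ∀ e, ty (φ (pt e)) (φ (fc e)) = 1 → A (q1 e) = A (q2 e) ∧ B (q1 e) = B (q2 e) := by
    intro e he
    apply mz_normal
    have := Finset.prod_ne_zero_iff.1 h0 e (Finset.mem_univ e)
    rwa [he] at this
  have key : ∀ A : Fin 24 → Bool, (∀ e, ty (φ (pt e)) (φ (fc e)) = 1 → A (q1 e) = A (q2 e)) →
      A = bld d1 d2 d3 d4 (A root) (A d1) (A d2) (A d3) (A d4) := by
    intro A hA
    funext Q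
    unfold bld
    split_ifs with e1 e2 e3 e4
    · rw [e1]
    · rw [e2]
    · rw [e3]
    · rw [e4]
    · exact conn_gen q1 q2 _ (fun a => a ≠ d1 ∧ a ≠ d2 ∧ a ≠ d3 ∧ a ≠ d4) root rk hc A hA Q
        ⟨e1, e2, e3, e4⟩
  rw [key A (fun e he => (h1 e he).1), key B (fun e he => (h1 e he).2)]
  apply hs

theorem PZ_id (A B : Fin 24 → Bool) : PZ idL A B ≤ 0 := PZ_nonpos _ _ _ _ _ _ _ connid signid A B

theorem PZ_rh (A B : Fin 24 → Bool) : PZ rhL A B ≤ 0 := PZ_nonpos _ _ _ _ _ _ _ connrh signrh A B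

theorem id_ne_rh : ∀ v, idL v ≠ rhL v := by decide +kernel

theorem cost_ge (φ : HV → Fin 26) : ∑ e : EE3, ((cc (φ (pt e)) (φ (fc e)) : ℤ) +
    lamP e (φ (pt e)) + lamF e (φ (fc e))) ≤ cost φ := by
  have h1 : ∑ e : EE3, lamP e (φ (pt e)) ≤ ∑ v : Fin 10, (aa (φ (Sum.inl v)) : ℤ) := by
    refine le_trans (le_of_eq ?_) (Finset.sum_le_sum fun v _ => certP v (φ (Sum.inl v)))
    rw [Finset.sum_comm]
    apply Finset.sum_congr rfl
    intro e _
    rw [Finset.sum_ite_eq Finset.univ (fv e.1 e.2) (fun v => lamP e (φ (Sum.inl v)))]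
    simp [pt]
  have h2 : ∑ e : EE3, lamF e (φ (fc e)) ≤ ∑ f : Fin 16, (aa (φ (Sum.inr f)) : ℤ) := by
    rw [Fintype.sum_prod_type]
    exact Finset.sum_le_sum fun f _ => certF f (φ (Sum.inr f))
  simp only [Finset.sum_add_distrib, cost, Fintype.sum_sum_type]
  push_cast
  linarith

theorem cost_cases (φ : HV → Fin 26) (h : ∀ e, ty (φ (pt e)) (φ (fc e)) ≠ 0) :
    cost idL + 1 ≤ cost φ ∨ φ = idL ∨ φ = rhL := by
  by_cases hc : cost idL + 1 ≤ cost φ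
  · exact Or.inl hc
  right
  have h1 := cost_ge φ
  have h2 : ∀ e, bt e ≤ cc (φ (pt e)) (φ (fc e)) + lamP e (φ (pt e)) + lamF e (φ (fc e)) := by
    intro e
    rcases certE e _ _ (h e) with h3 | h3
    · omega
    · exact h3.1
  have h3 : ∀ e, (φ (pt e) = idL (pt e) ∨ φ (pt e) = rhL (pt e)) ∧
      (φ (fc e) = idL (fc e) ∨ φ (fc e) = rhL (fc e)) ∧
      (rigid e → (φ (pt e) = idL (pt e) ↔ φ (fc e) = idL (fc e))) := by
    intro e
    rcases certE e _ _ (h e) with h3 | h3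
    · exfalso
      have := Finset.sum_lt_sum (s := Finset.univ) (fun e _ => h2 e)
        ⟨e, Finset.mem_univ e, by omega⟩
      rw [certB] at this
      omega
    · exact h3.2
  have h4 : ∀ v, φ v = idL v ∨ φ v = rhL v := by
    intro v
    obtain ⟨e, rfl | rfl⟩ := cover v
    · exact (h3 e).1
    · exact (h3 e).2.1
  have h5 := conn_gen pt fc rigid (fun _ => True) (Sum.inl 0) rkH connH
    (fun v => (φ v = idL v)) (fun e he => propext ((h3 e).2.2 he))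
  by_cases h6 : φ (Sum.inl 0) = idL (Sum.inl 0)
  · left; funext v
    exact (h5 v trivial).mpr h6
  · right; funext v
    exact (h4 v).resolve_left fun h7 => h6 ((h5 v trivial).mp h7)

def vZ : Fin 3 → ℤ := ![0, 1, -1]

def vR (a : Fin 3) : ℝ := vZ a

theorem vR_S3 (a : Fin 3) : S3 (vR a) := by
  fin_cases a <;> simp [vR, vZ, S3]

/-- four times the activation laws -/
def nu4 (t : ℕ) (θ : Fin 3 × Fin 3) : ℕ :=
  (([[4, 0, 0, 0, 0, 0, 0, 0, 0], [0, 0, 0, 0, 1, 1, 0, 1, 1], [0, 2, 2, 0, 0, 0, 0, 0, 0],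
    [0, 0, 0, 2, 0, 0, 2, 0, 0], [0, 0, 0, 0, 1, 1, 2, 0, 0], [0, 0, 0, 2, 0, 0, 0, 1, 1],
    [0, 0, 2, 0, 1, 0, 0, 1, 0]] : List (List ℕ)).getD t []).getD (3 * θ.1 + θ.2) 0

theorem nu4_mom : ∀ t < 7, ∀ i < 3, ∀ j < 3, ∑ θ : Fin 3 × Fin 3,
    (nu4 t θ : ℤ) * (vZ θ.1 ^ i * vZ θ.2 ^ j) = if i = 0 ∧ j = 0 then 4 else 2 * mz t i j := by
  decide +kernel

theorem mz_facts : ∀ t < 7, mz t 0 0 = 0 ∧ mz t 1 0 = 0 ∧ mz t 0 1 = 0 ∧ mz t 1 1 = 0 ∧
    ∀ i < 3, ∀ j < 3, |mz t i j| ≤ 2 := by decide +kernel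

theorem mz_zero (i j : ℕ) : mz 0 i j = 0 := by simp [mz]

/-- law of the pair of types on a pair of labels -/
def mu (t : ℝ) (w w' : Fin 26) (θ : Fin 3 × Fin 3) : ℝ :=
  (1 - t ^ cc w w') * (nu4 0 θ / 4) + t ^ cc w w' * (nu4 (ty w w') θ / 4)

theorem mu_symm (t : ℝ) (w w' : Fin 26) : mu t w w' = mu t w' w := by
  funext θ; unfold mu; rw [cc_symm, ty_symm]

theorem mu_nonneg {t : ℝ} (h0 : 0 ≤ t) (h1 : t ≤ 1) (w w' : Fin 26) (θ : Fin 3 × Fin 3) :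
    0 ≤ mu t w w' θ := by
  unfold mu
  have : 0 ≤ 1 - t ^ cc w w' := sub_nonneg.2 (pow_le_one₀ h0 h1)
  positivity

theorem mu_mom (t : ℝ) (w w' : Fin 26) {i j : ℕ} (hi : i < 3) (hj : j < 3) :
    ∑ θ, mu t w w' θ * (vR θ.1 ^ i * vR θ.2 ^ j) =
      if i = 0 ∧ j = 0 then 1 else t ^ cc w w' * (mz (ty w w') i j / 2) := by
  have h0 := congrArg (Int.cast : ℤ → ℝ) (nu4_mom 0 (by norm_num) i hi j hj)
  have h1 := congrArg (Int.cast : ℤ → ℝ) (nu4_mom _ (ty_lt w w') i hi j hj)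
  push_cast at h0 h1
  have e : ∀ θ, mu t w w' θ * (vR θ.1 ^ i * vR θ.2 ^ j) =
      ((1 - t ^ cc w w') / 4) * (nu4 0 θ * ((vZ θ.1 : ℝ) ^ i * (vZ θ.2 : ℝ) ^ j)) +
      (t ^ cc w w' / 4) * (nu4 (ty w w') θ * ((vZ θ.1 : ℝ) ^ i * (vZ θ.2 : ℝ) ^ j)) := by
    intro θ; unfold mu vR; ring
  simp only [e]
  rw [Finset.sum_add_distrib, ← Finset.mul_sum, ← Finset.mul_sum, h0, h1, mz_zero]
  split_ifs
  · ring
  · push_cast; ring

theorem mu_sum (t : ℝ) (w w' : Fin 26) : ∑ θ, mu t w w' θ = 1 := by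
  simpa using mu_mom t w w' (i := 0) (j := 0) (by norm_num) (by norm_num)

theorem ZZ_expand (s : Fin 16 → Fin 3 → ℝ) :
    ZZ s = ∑ A : Fin 24 → Bool, ∏ e : EE3, s e.1 e.2 ^ nA A e := by
  unfold ZZ
  have e1 : ∀ Q, 1 + al s (sd0 Q) * al s (sd1 Q) =
      ∑ b : Bool, (al s (sd0 Q) * al s (sd1 Q)) ^ b.toNat := by
    intro Q; simp [add_comm]
  simp only [e1]
  rw [Fintype.prod_sum]
  apply Finset.sum_congr rfl
  intro A _
  have e2 := prod_sides (fun p => al s p ^ (A (ed p.1 p.2)).toNat)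
  simp only [(ed_sd _).1, (ed_sd _).2, ← mul_pow] at e2
  rw [← e2, Fintype.prod_prod_type, Fintype.prod_prod_type]
  apply Finset.prod_congr rfl
  intro f _
  simp only [Fin.prod_univ_three, al, nA, q1, q2]
  simp only [show pa 0 = 0 from rfl, show pa 1 = 0 from rfl, show pa 2 = 1 from rfl,
    show pb 0 = 1 from rfl, show pb 1 = 2 from rfl, show pb 2 = 2 from rfl]
  ring

theorem nA_lt (A : Fin 24 → Bool) (e : EE3) : nA A e < 3 := by
  unfold nA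
  cases A (q1 e) <;> cases A (q2 e) <;> simp

/-- value of the spin model for a fixed labelling -/
def Zl (t : ℝ) (φ : HV → Fin 26) : ℝ :=
  ∑ θ : EE3 → Fin 3 × Fin 3, (∏ e, mu t (φ (pt e)) (φ (fc e)) (θ e)) *
    (ZZ (fun f i => vR (θ (f, i)).1) * ZZ (fun f i => vR (θ (f, i)).2))

theorem Zl_expand (t : ℝ) (φ : HV → Fin 26) : Zl t φ =
    ∑ p : (Fin 24 → Bool) × (Fin 24 → Bool), ∏ e : EE3, (if nA p.1 e = 0 ∧ nA p.2 e = 0 then 1 else
      t ^ cc (φ (pt e)) (φ (fc e)) * (mz (ty (φ (pt e)) (φ (fc e))) (nA p.1 e) (nA p.2 e) / 2)) := by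
  unfold Zl
  have e : ∀ f g : (Fin 24 → Bool) → ℝ, (∑ a, f a) * (∑ b, g b) =
      ∑ p : (Fin 24 → Bool) × (Fin 24 → Bool), f p.1 * g p.2 := by
    intro f g
    rw [Fintype.sum_prod_type, Finset.sum_mul_sum]
  simp only [ZZ_expand]
  simp only [e]
  simp only [Finset.mul_sum]
  rw [Finset.sum_comm]
  apply Finset.sum_congr rfl
  intro p _
  simp only [← mu_mom t _ _ (nA_lt p.1 _) (nA_lt p.2 _)]
  rw [Fintype.prod_sum]
  apply Finset.sum_congr rfl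
  intro θ _
  rw [← Finset.prod_mul_distrib, ← Finset.prod_mul_distrib]

theorem bool_loc : ∀ a b c d : Bool, ¬ (a.toNat + b.toNat = 1 ∧ c.toNat + d.toNat = 0) →
    ¬ (a.toNat + b.toNat = 0 ∧ c.toNat + d.toNat = 1) →
    ¬ (a.toNat + b.toNat = 1 ∧ c.toNat + d.toNat = 1) → (a || c) = (b || d) := by decide

theorem bool_loc2 : ∀ a b c d : Bool, a.toNat + b.toNat = 0 ∧ c.toNat + d.toNat = 0 →
    (a || c) = false := by decide

theorem term_eq (t : ℝ) (φ : HV → Fin 26) (p : (Fin 24 → Bool) × (Fin 24 → Bool))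
    (hp : p ≠ (fun _ => false, fun _ => false)) :
    ∏ e : EE3, (if nA p.1 e = 0 ∧ nA p.2 e = 0 then 1 else
      t ^ cc (φ (pt e)) (φ (fc e)) * (mz (ty (φ (pt e)) (φ (fc e))) (nA p.1 e) (nA p.2 e) / 2)) =
      t ^ (∑ e : EE3, cc (φ (pt e)) (φ (fc e))) * (PZ φ p.1 p.2 / 2 ^ 48) := by
  by_cases h : ∀ e, ¬ (nA p.1 e = 0 ∧ nA p.2 e = 0)
  · simp only [h, if_false]
    rw [Finset.prod_mul_distrib, Finset.prod_pow_eq_pow_sum, Finset.prod_div_distrib, PZ]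
    simp
  · push Not at h
    obtain ⟨e0, he0⟩ := h
    have h1 : PZ φ p.1 p.2 = 0 := by
      apply Finset.prod_eq_zero (Finset.mem_univ e0)
      rw [he0.1, he0.2]; exact (mz_facts _ (ty_lt _ _)).1
    rw [h1]
    simp only [Int.cast_zero, zero_div, mul_zero]
    by_contra hne
    have h2 := Finset.prod_ne_zero_iff.1 hne
    have h3 : ∀ e, True → (p.1 (q1 e) || p.2 (q1 e)) = (p.1 (q2 e) || p.2 (q2 e)) := by
      intro e _
      have h4 := h2 e (Finset.mem_univ e)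
      obtain ⟨-, m1, m2, m3, -⟩ := mz_facts _ (ty_lt (φ (pt e)) (φ (fc e)))
      apply bool_loc
      · rintro ⟨e1, e2⟩
        rw [show nA p.1 e = 1 from e1, show nA p.2 e = 0 from e2, m1] at h4
        simp at h4
      · rintro ⟨e1, e2⟩
        rw [show nA p.1 e = 0 from e1, show nA p.2 e = 1 from e2, m2] at h4
        simp at h4
      · rintro ⟨e1, e2⟩
        rw [show nA p.1 e = 1 from e1, show nA p.2 e = 1 from e2, m3] at h4
        simp at h4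
    have h5 := conn_gen q1 q2 (fun _ => True) (fun _ => True) 0 rkM connM
      (fun Q => (p.1 Q || p.2 Q)) h3
    have h6 : ∀ Q, (p.1 Q || p.2 Q) = false := fun Q =>
      ((h5 Q trivial).trans (h5 _ trivial).symm).trans (bool_loc2 _ _ _ _ he0)
    apply hp
    ext Q
    · exact (Bool.or_eq_false_iff.1 (h6 Q)).1
    · exact (Bool.or_eq_false_iff.1 (h6 Q)).2

theorem sum_split {P : Type} [Fintype P] (p0 : P) (f g : P → ℝ) (c : ℝ) (h0 : f p0 = 1)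
    (h : ∀ p, p ≠ p0 → f p = c * g p) : ∑ p, f p = 1 + c * ∑ p, ind (p ≠ p0) * g p := by
  classical
  rw [← Finset.add_sum_erase _ _ (Finset.mem_univ p0),
    ← Finset.add_sum_erase _ _ (Finset.mem_univ p0), h0, ind_neg (by simp), zero_mul, zero_add,
    Finset.mul_sum]
  congr 1
  apply Finset.sum_congr rfl
  intro p hp
  rw [h p (Finset.mem_erase.1 hp).1, ind_pos (Finset.mem_erase.1 hp).1, one_mul]

/-- the normalised sum -/
def SS (φ : HV → Fin 26) : ℝ :=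
  ∑ p : (Fin 24 → Bool) × (Fin 24 → Bool),
    ind (p ≠ (fun _ => false, fun _ => false)) * (PZ φ p.1 p.2 / 2 ^ 48 : ℝ)

theorem Zl_eq (t : ℝ) (φ : HV → Fin 26) :
    Zl t φ = 1 + t ^ (∑ e : EE3, cc (φ (pt e)) (φ (fc e))) * SS φ := by
  rw [Zl_expand]
  exact sum_split _ _ _ _ (Finset.prod_eq_one fun e _ => if_pos ⟨rfl, rfl⟩) (term_eq t φ)

theorem sum_le_card {P : Type} [Fintype P] (f : P → ℝ) (h : ∀ p, f p ≤ 1) :
    ∑ p, f p ≤ Nat.card P := by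
  refine (Finset.sum_le_card_nsmul _ _ 1 fun p _ => h p).trans ?_
  simp

theorem SS_le (φ : HV → Fin 26) : SS φ ≤ Nat.card ((Fin 24 → Bool) × (Fin 24 → Bool)) := by
  apply sum_le_card
  intro p
  refine (le_abs_self _).trans ?_
  rw [abs_mul]
  apply mul_le_one₀ (by rw [abs_of_nonneg (ind_nonneg _)]; exact ind_le_one _) (abs_nonneg _)
  rw [abs_div, div_le_one (by positivity), abs_of_pos (a := (2 : ℝ) ^ 48) (by positivity)]
  have : |PZ φ p.1 p.2| ≤ 2 ^ 48 := by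
    unfold PZ
    rw [Finset.abs_prod]
    refine (Finset.prod_le_prod (fun _ _ => abs_nonneg _) (g := fun _ => 2) fun e _ =>
      (mz_facts _ (ty_lt _ _)).2.2.2.2 _ (nA_lt _ _) _ (nA_lt _ _)).trans (by simp)
  exact_mod_cast this

theorem SS_zero (φ : HV → Fin 26) (h : ¬ ∀ e, ty (φ (pt e)) (φ (fc e)) ≠ 0) : SS φ = 0 := by
  push Not at h
  obtain ⟨e, he⟩ := h
  apply Finset.sum_eq_zero
  intro p _
  have : PZ φ p.1 p.2 = 0 := by
    apply Finset.prod_eq_zero (Finset.mem_univ e)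
    rw [he, mz_zero]
  rw [this]; simp

theorem SS_rh : SS rhL ≤ 0 := by
  apply Finset.sum_nonpos
  intro p _
  apply mul_nonpos_of_nonneg_of_nonpos (ind_nonneg _)
  apply div_nonpos_of_nonpos_of_nonneg _ (by positivity)
  exact_mod_cast PZ_rh p.1 p.2

theorem sum_neg' {P : Type} [Fintype P] (f : P → ℝ) (h : ∀ p, f p ≤ 0) (p : P) (hp : f p < 0) :
    ∑ p, f p < 0 := by
  have := Finset.sum_lt_sum (s := Finset.univ) (f := f) (g := fun _ => 0) (fun p _ => h p)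
    ⟨p, Finset.mem_univ p, hp⟩
  simpa using this

theorem SS_id : SS idL < 0 := by
  apply sum_neg' _ _
    (bld 0 1 6 10 true false false true true, bld 0 1 6 10 true true true false false)
  · rw [ind_pos (fun h => absurd (congrFun (congrArg Prod.fst h) 2) (by decide))]
    simp only [valid]
    norm_num
  · intro p
    apply mul_nonpos_of_nonneg_of_nonpos (ind_nonneg _)
    apply div_nonpos_of_nonpos_of_nonneg _ (by positivity)
    exact_mod_cast PZ_id p.1 p.2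

theorem weighted_gen {Φ : Type} [Fintype Φ] (c : Φ → ℕ) (S : Φ → ℝ) (φ0 : Φ) (K : ℝ)
    (hK : 0 ≤ K) (hS : ∀ φ, S φ ≤ K) (hid : S φ0 < 0)
    (h : ∀ φ, c φ0 + 1 ≤ c φ ∨ φ = φ0 ∨ S φ ≤ 0) :
    ∃ M : ℕ, 1 ≤ M ∧ ∑ φ, (1 / (M : ℝ)) ^ c φ * S φ < 0 := by
  classical
  obtain ⟨N, hN⟩ : ∃ N : ℝ, (Fintype.card Φ : ℝ) = N := ⟨_, rfl⟩
  have hN0 : 0 ≤ N := hN ▸ Nat.cast_nonneg _
  obtain ⟨M, hM⟩ := exists_nat_gt (1 + N * K / (-S φ0))
  have h1 : 0 ≤ N * K / (-S φ0) := div_nonneg (by positivity) (by linarith)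
  have hM1 : (1 : ℝ) < M := by linarith
  refine ⟨M, by exact_mod_cast hM1.le, ?_⟩
  set t := 1 / (M : ℝ) with ht
  have ht0 : 0 < t := by positivity
  have ht1 : t ≤ 1 := by rw [ht, div_le_one (by linarith)]; linarith
  rw [← Finset.add_sum_erase _ _ (Finset.mem_univ φ0)]
  have h2 : ∑ φ ∈ Finset.univ.erase φ0, t ^ c φ * S φ ≤ N * (t ^ (c φ0 + 1) * K) := by
    refine (Finset.sum_le_card_nsmul _ _ (t ^ (c φ0 + 1) * K) fun φ hφ => ?_).trans ?_
    · rcases h φ with h3 | h3 | h3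
      · exact (mul_le_mul_of_nonneg_left (hS φ) (by positivity)).trans
          (mul_le_mul_of_nonneg_right (pow_le_pow_of_le_one ht0.le ht1 h3) hK)
      · exact absurd h3 (Finset.mem_erase.1 hφ).1
      · exact (mul_nonpos_of_nonneg_of_nonpos (by positivity) h3).trans (by positivity)
    · rw [nsmul_eq_mul, ← hN]
      apply mul_le_mul_of_nonneg_right _ (by positivity)
      exact_mod_cast Finset.card_le_univ _
  have h3 : N * K * t < -S φ0 := by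
    rw [ht, mul_one_div, div_lt_iff₀ (by linarith), mul_comm (-S φ0), ← div_lt_iff₀ (by linarith)]
    linarith
  have h4 : 0 < t ^ c φ0 := by positivity
  rw [pow_succ] at h2
  generalize t ^ c φ0 = u at *
  nlinarith [mul_lt_mul_of_pos_left h3 h4]

theorem weighted_neg : ∃ M : ℕ, 1 ≤ M ∧
    ∑ φ : HV → Fin 26, (1 / (M : ℝ)) ^ cost φ * SS φ < 0 := by
  refine weighted_gen cost SS idL _ (Nat.cast_nonneg _) SS_le SS_id fun φ => ?_
  by_cases h : ∀ e, ty (φ (pt e)) (φ (fc e)) ≠ 0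
  · rcases cost_cases φ h with h3 | h3 | h3
    · exact Or.inl h3
    · exact Or.inr (Or.inl h3)
    · exact Or.inr (Or.inr (by rw [h3]; exact SS_rh))
  · exact Or.inr (Or.inr (SS_zero φ h).le)

end

end Vale.Agent.P050
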